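import Vale.Agent.P313.NL2.IdealS
import Vale.Agent.P313.Full.HiMg
import Vale.Agent.P313.NL.CP

/-! Most seeds of the hash function are good. -/

namespace Vale.Agent.P313.NL2.Pr

open Finset Vale.Agent.P313.Hi Vale.Agent.P313.NL

variable {p : Pr} {k g x y v : ℕ} {d : Bool}

namespace Gd

theorem mod_lt (p : Pr) (k x : ℕ) : x % p.n k < p.n k := mod_nm_lt _ _ _

theorem rdy_ne (ok : p.OK) (hx : x < p.n k) (hy : y < p.n k) (h : p.rw k x y ≠ 0) :
    (p.L k).rdy x y ≠ 0 := fun e =>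
  div_ne_zero h (by positivity) ((rw_eq ok hx hy).trans (by rw [e, mul_zero, zero_mul]))

theorem zi_le (ok : p.OK) (k x u y : ℕ) : p.zi k x u y ≤ 1 := by
  unfold zi
  split_ifs
  · exact mul_le_one₀ (mul_le_one₀ (rw_mem ok _ _ _).2 (md_mem p _ _).1 (md_mem p _ _).2)
      (rw_mem ok _ _ _).1 (rw_mem ok _ _ _).2
  · exact zero_le_one

theorem sig_of_zi (ok : p.OK) (hs : (p.sn true k x).nsat (p.sn false k y))
    (hc : p.fc true k x * p.fc false k y ≠ 0) {u : ℕ} (hu : u < p.n k) (h : p.zi k x u y ≠ 0) :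
    p.sig k 0 (x % p.n k) u = 1 ∧ p.sig k 0 u (y % p.n k) = 1 := by
  unfold zi at h
  split_ifs at h with h0
  · have h1 := left_ne_zero_of_mul h
    have h2 := right_ne_zero_of_mul h1
    have h3 := lt_of_chi (right_ne_zero_of_mul (left_ne_zero_of_mul hc)) hs.1
    have h4 := lt_of_chi (left_ne_zero_of_mul (right_ne_zero_of_mul hc)) hs.2
    exact ⟨sig_of_use ok (mod_lt p k x) hu ⟨rdy_ne ok (mod_lt p k x) hu (left_ne_zero_of_mul h1),
        (L_hr p _ _).trans_lt (h3.trans_le (pow_le_pow_right₀ one_le_two hs.1)),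
        (L_hc p _ _).trans_lt (lt_of_one_sub_chi (left_ne_zero_of_mul h2))⟩,
      sig_of_use ok hu (mod_lt p k y) ⟨rdy_ne ok hu (mod_lt p k y) (right_ne_zero_of_mul h),
        (L_hr p _ _).trans_lt (lt_of_one_sub_chi (right_ne_zero_of_mul h2)),
        (L_hc p _ _).trans_lt (h4.trans_le (pow_le_pow_right₀ one_le_two hs.2))⟩⟩
  · exact absurd rfl h

end Gd

open Gd

open Classical in
theorem wit_card (ok : p.OK) (hm : p.mrg true k x) (h : p.tau (k + 1) g x y ≠ 0) :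
    (2 : ℝ) ^ p.ell k x y ≤ 2 ^ (cw * (g + 1)) *
      #{z ∈ range (p.n k) | p.sig k 0 (x % p.n k) z = 1 ∧ p.sig k 0 z (y % p.n k) = 1} := by
  have hs := st_of_tau h
  rw [tau_new hs (.inr hm)] at h
  have h1 : 1 < p.w (k + 1) x y * 2 ^ ((B + 2) * g) * 2 ^ (B + 4) := by
    by_contra hn
    refine h (cl_of_le (sub_nonpos.2 (le_trans ?_ (not_lt.1 hn))))
    exact mul_le_mul_of_nonneg_right (min_le_right _ _) (by positivity)
  rw [w_M ok hs hm, Sg.wM] at h1
  split_ifs at h1 with h2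
  · have hc : p.fc true k x * p.fc false k y ≠ 0 := fun e => by
      rw [e, zero_mul, zero_div, zero_mul, zero_mul] at h1
      linarith
    have h3 : ∑ u ∈ range (p.n k), p.zi k x u y ≤
        #{z ∈ range (p.n k) | p.sig k 0 (x % p.n k) z = 1 ∧ p.sig k 0 z (y % p.n k) = 1} := by
      rw [card_filter]
      push_cast
      refine sum_le_sum fun u hu => ?_
      split_ifs with h4
      · exact zi_le ok _ _ _ _
      · exact (by_contra fun h5 => h4 (sig_of_zi ok h2 hc (mem_range.1 hu) h5) : _ = (0 : ℝ)).le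
    have h4 : (2 : ℝ) ^ (p.sn true k x).gap (p.sn false k y) ≤ 2 ^ (B * g + B) :=
      pow_le_pow_right₀ one_le_two ((gap_le p k x y).trans (Nat.add_le_add_right hs.2.2.1 _))
    have h5 : (2 : ℝ) ^ 2 ≤ 2 ^ ((p.sn true k x).gs (p.sn false k y) + 2) :=
      pow_le_pow_right₀ one_le_two (Nat.le_add_left _ _)
    have h6 : p.fc true k x * p.fc false k y ≤ 1 :=
      mul_le_one₀ (fc_mem p _ _ _).2 (fc_mem p _ _ _).1 (fc_mem p _ _ _).2
    have h7 := mul_nonneg (fc_mem p true k x).1 (fc_mem p false k y).1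
    generalize (#{z ∈ range (p.n k) | p.sig k 0 (x % p.n k) z = 1 ∧
      p.sig k 0 z (y % p.n k) = 1} : ℕ) = W at h3 ⊢
    have h8 : (1 : ℝ) ≤ 1 * (W / 2 ^ p.ell k x y * 2 ^ (B * g + B)) / 2 ^ 2 * 2 ^ ((B + 2) * g) *
        2 ^ (B + 4) := by
      refine h1.le.trans (mul_le_mul_of_nonneg_right (mul_le_mul_of_nonneg_right
        (div_le_div₀ (by positivity) ?_ (by positivity) h5) (by positivity)) (by positivity))
      refine le_trans (mul_le_mul_of_nonneg_left ?_ h7) (mul_le_mul_of_nonneg_right h6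
        (by positivity))
      exact (mul_le_mul_of_nonneg_right (div_le_div_of_nonneg_right h3 (by positivity))
        (by positivity)).trans (mul_le_mul_of_nonneg_left h4 (by positivity))
    have h9 : 1 * (W / 2 ^ p.ell k x y * 2 ^ (B * g + B)) / 2 ^ 2 * 2 ^ ((B + 2) * g) *
        2 ^ (B + 4) = (2 : ℝ) ^ (cw * (g + 1)) * W / 2 ^ p.ell k x y := by
      rw [show cw * (g + 1) = B * g + B + (B + 2) * g + (B + 2) by rw [cw]; ring]
      simp only [pow_add]
      field_simp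
    rwa [h9, one_le_div (by positivity)] at h8
  · rw [zero_mul, zero_mul] at h1
    linarith

namespace Gd

open Classical in
/-- The visible entries with the index `l`. -/
noncomputable def T1 (p : Pr) (k g : ℕ) (d : Bool) (x l : ℕ) : Finset ℕ :=
  {f ∈ range (p.n k) | sw d (p.tau k g) x f ≠ 0 ∧ sw d (p.ell k) x f = l}

open Classical in
/-- The witnesses. -/
noncomputable def T2 (p : Pr) (k x y : ℕ) : Finset ℕ :=
  {z ∈ range (p.n k) | p.sig k 0 (x % p.n k) z = 1 ∧ p.sig k 0 z (y % p.n k) = 1}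

/-- The positions for the index `l`. -/
noncomputable def Q1 (p : Pr) (g l : ℕ) : Finset ℕ :=
  Ico 0 l ∪ Ico (B * p.K) (B * p.K + cc * g)

/-- Too many active entries. -/
def Bad1 (p : Pr) (F : ℕ → ℕ) (c : ℝ) (k g l x U : ℕ) (d : Bool) : Prop :=
  (k ≤ p.K ∧ g ≤ p.K ∧ l ≤ B * p.K ∧ U < p.n p.K) ∧
    ∃ t, c * (2 ^ c5 + 1) < #{f ∈ T1 p k g d x l | Ag (Q1 p g l) (F (f ^^^ U)) t}

/-- No active witness. -/
def Bad2 (p : Pr) (F : ℕ → ℕ) (c : ℝ) (k g x y U : ℕ) : Prop :=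
  (k ≤ p.K ∧ U < p.n p.K ∧ c * 1 * 2 ^ #(Ico (p.wd g) (p.ell k x y)) ≤ #(T2 p k x y)) ∧
    ¬∀ t, ∃ z ∈ T2 p k x y, Ag (Ico (p.wd g) (p.ell k x y)) (F (z ^^^ U)) t

theorem n_le (ok : p.OK) (hk : k ≤ p.K) : p.n k ≤ 2 ^ p.m := by
  have := ok.hm
  exact (nm_le _ hk).trans (Nat.pow_le_pow_right two_pos (by omega))

theorem BK_le (ok : p.OK) : B * p.K + p.K + cc * p.K ≤ p.m := by
  have h := ok.hm
  rw [add_mul, add_mul] at h
  omega

theorem xor_lt (ok : p.OK) (hk : k ≤ p.K) {f U : ℕ} (hf : f < p.n k) (hU : U < p.n p.K) :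
    f ^^^ U < 2 ^ (2 * p.m) :=
  (Nat.xor_lt_two_pow (hf.trans_le (n_le ok hk)) (hU.trans_le (n_le ok le_rfl))).trans_le
    (Nat.pow_le_pow_right two_pos (by omega))

theorem xor_one (T : Finset ℕ) (U f₀ : ℕ) : (#{f ∈ T | f ^^^ U = f₀ ^^^ U} : ℝ) ≤ 1 := by
  rw [← Nat.cast_one, Nat.cast_le, card_le_one]
  exact fun a ha b hb => Nat.xor_left_injective
    ((mem_filter.1 ha).2.trans (mem_filter.1 hb).2.symm)

theorem card_T1 (ok : p.OK) (k g : ℕ) (d : Bool) (x l : ℕ) :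
    (#(T1 p k g d x l) : ℝ) ≤ 2 ^ c5 * 2 ^ (l + cc * g) := by
  classical
  rw [← div_le_iff₀ (by positivity), div_eq_mul_one_div, ← nsmul_eq_mul, ← sum_const]
  refine le_trans ?_ (cnt_tau ok k g d x)
  refine le_trans (sum_congr rfl fun f hf => ?_).le (sum_le_sum_of_subset_of_nonneg
    (fun f hf => ?_) fun _ _ _ => by positivity)
  · rw [(mem_filter.1 hf).2.2]
  · exact mem_filter.2 ⟨(mem_filter.1 hf).1, (mem_filter.1 hf).2.1⟩

open Classical in
theorem card_Bad1 (ok : p.OK) (e k g l x U : ℕ) (d : Bool) :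
    (#{σ ∈ range (2 ^ clen (2 * p.m) (2 * p.m) e) | Bad1 p (cF (2 * p.m) (2 * p.m) e σ)
      (kap (2 * p.m) (2 * p.m) e) k g l x U d} : ℝ) ≤ 2 ^ clen (2 * p.m) (2 * p.m) e / 2 ^ e := by
  by_cases h : k ≤ p.K ∧ g ≤ p.K ∧ l ≤ B * p.K ∧ U < p.n p.K
  · have h1 := BK_le ok
    have h2 := Nat.mul_le_mul_left cc h.2.1
    have h3 := h.2.2.1
    have hd : Disjoint (Ico 0 l) (Ico (B * p.K) (B * p.K + cc * g)) := disjoint_left.2 fun i a b => by
      rw [mem_Ico] at a b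
      omega
    refine le_trans (filter_mono' fun σ _ hb => ?_) (cp_up (T := T1 p k g d x l) (Q := Q1 p g l)
      (y := fun f => f ^^^ U) (N := 2 ^ c5) e (fun i hi => ?_)
      ((lay_Ico _ _).union (lay_Ico _ _) hd)
      (fun f hf => xor_lt ok h.1 (mem_range.1 (mem_filter.1 hf).1) h.2.2.2) one_pos
      (fun f _ => xor_one _ _ _) ?_)
    · exact hb.2
    · simp only [Q1, mem_union, mem_Ico] at hi
      exact mem_range.2 (by omega)
    · rw [Q1, card_union_of_disjoint hd, Nat.card_Ico, Nat.card_Ico, Nat.sub_zero,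
        Nat.add_sub_cancel_left]
      exact card_T1 ok _ _ _ _ _
  · rw [filter_false_of_mem fun σ _ hb => h hb.1, card_empty, Nat.cast_zero]
    positivity

open Classical in
theorem card_Bad2 (ok : p.OK) (e k g x y U : ℕ) :
    (#{σ ∈ range (2 ^ clen (2 * p.m) (2 * p.m) e) | Bad2 p (cF (2 * p.m) (2 * p.m) e σ)
      (kap (2 * p.m) (2 * p.m) e) k g x y U} : ℝ) ≤ 2 ^ clen (2 * p.m) (2 * p.m) e / 2 ^ e := by
  by_cases h : k ≤ p.K ∧ U < p.n p.K ∧ (kap (2 * p.m) (2 * p.m) e : ℝ) * 1 *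
      2 ^ #(Ico (p.wd g) (p.ell k x y)) ≤ #(T2 p k x y)
  · have h1 := BK_le ok
    have h2 := (ell_le p k x y).trans (Nat.mul_le_mul_left B h.1)
    refine le_trans (filter_mono' fun σ _ hb => ?_) (cp_low (T := T2 p k x y)
      (y := fun f => f ^^^ U) e (fun i hi => mem_range.2 ?_) (lay_Ico (p.wd g) (p.ell k x y))
      (fun f hf => xor_lt ok h.1 (mem_range.1 (mem_filter.1 hf).1) h.2.1) one_pos
      (fun f _ => xor_one _ _ _) h.2.2)
    · exact hb.2
    · have := (mem_Ico.1 hi).2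
      omega
  · rw [filter_false_of_mem fun σ _ hb => h hb.1, card_empty, Nat.cast_zero]
    positivity

theorem card_or {s : Finset ℕ} {P Q R : ℕ → Prop} {_ : DecidablePred P} {_ : DecidablePred Q}
    {_ : DecidablePred R} {u w : ℝ} (h1 : (#{x ∈ s | P x} : ℝ) ≤ u) (h2 : (#{x ∈ s | Q x} : ℝ) ≤ w)
    (h : ∀ x, R x → P x ∨ Q x) : (#{x ∈ s | R x} : ℝ) ≤ u + w := by
  refine le_trans ?_ (add_le_add h1 h2)
  rw [← Nat.cast_add, Nat.cast_le]
  refine le_trans (card_le_card fun x hx => ?_) (card_union_le _ _)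
  obtain ⟨h3, h4⟩ := mem_filter.1 hx
  exact mem_union.2 ((h x h4).imp (fun a => mem_filter.2 ⟨h3, a⟩) fun a => mem_filter.2 ⟨h3, a⟩)

theorem good_of (ok : p.OK) {F : ℕ → ℕ} {c : ℕ}
    (hk : c * (2 ^ c5 + 1) * (2 * p.m + 1) ≤ 2 ^ p.lk)
    (h1 : ∀ k g l x U d, x < 2 ^ p.m → ¬Bad1 p F c k g l x U d)
    (h2 : ∀ k g x y U, g ≤ p.K → x < 2 ^ p.m → y < 2 ^ p.m → ¬Bad2 p F c k g x y U) :
    p.Good F := by
  classical
  have hB := BK_le ok
  refine ⟨fun k g hkg d x U t hU => ?_, fun k g hkg x y U t hU hm hτ => ?_⟩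
  · by_cases hx : x < p.n k
    · refine le_trans (card_le_card (t := (range (B * p.K + 1)).biUnion fun l =>
        {f ∈ T1 p k g d x l | Ag (Q1 p g l) (F (f ^^^ U)) t}) fun f hf => ?_)
        (card_biUnion_le.trans ((sum_le_card_nsmul _ _ (c * (2 ^ c5 + 1)) fun l hl => ?_).trans ?_))
      · obtain ⟨a1, a2, a3⟩ := mem_filter.1 hf
        refine mem_biUnion.2 ⟨sw d (p.ell k) x f, mem_range.2 (Nat.lt_succ_of_le ?_),
          mem_filter.2 ⟨mem_filter.2 ⟨a1, a2, rfl⟩, ?_⟩⟩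
        · cases d <;> exact (ell_le p k _ _).trans (Nat.mul_le_mul_left B (by omega))
        · rw [Q1, ← range_eq_Ico]
          cases d <;> exact a3
      · have h3 := h1 k g l x U d (hx.trans_le (n_le ok (by omega)))
        have h4 : ((#{f ∈ T1 p k g d x l | Ag (Q1 p g l) (F (f ^^^ U)) t} : ℕ) : ℝ) ≤
            c * (2 ^ c5 + 1) := not_lt.1 fun h => h3
          ⟨⟨by omega, by omega, Nat.lt_succ_iff.1 (mem_range.1 hl), hU⟩, t, h⟩
        exact_mod_cast h4
      · rw [card_range, smul_eq_mul, mul_comm]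
        exact (Nat.mul_le_mul_left _ (by omega)).trans hk
    · rw [filter_false_of_mem fun f _ h => hx ?_, card_empty]
      · exact Nat.zero_le _
      · cases d
        exacts [(st_of_tau h.1).2.1, (st_of_tau h.1).1]
  · have h3 : (2 : ℝ) ^ p.ell k x y ≤ 2 ^ (cw * (g + 1)) * #(T2 p k x y) := wit_card ok hm hτ
    have hs := st_of_tau hτ
    have h4 : ∃ z ∈ T2 p k x y, Ag (Ico (p.wd g) (p.ell k x y)) (F (z ^^^ U)) t := by
      by_cases hc : p.ell k x y ≤ p.wd g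
      · obtain ⟨z, hz⟩ : (T2 p k x y).Nonempty := nonempty_iff_ne_empty.2 fun h0 => by
          rw [h0, card_empty, Nat.cast_zero, mul_zero] at h3
          exact absurd h3 (not_le.2 (by positivity))
        exact ⟨z, hz, fun i hi => absurd (mem_Ico.1 hi) (by omega)⟩
      · by_contra hn
        refine h2 k g x y U (by omega) (hs.1.trans_le (n_le ok (by omega)))
          (hs.2.1.trans_le (n_le ok (by omega))) ⟨⟨by omega, hU, ?_⟩, fun h => hn (h t)⟩
        have h5 : (c : ℝ) ≤ 2 ^ p.lk := by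
          exact_mod_cast ((Nat.le_mul_of_pos_right _ (by positivity)).trans
            (Nat.le_mul_of_pos_right _ (by positivity))).trans hk
        rw [Nat.card_Ico, mul_one]
        rw [show p.ell k x y = cw * (g + 1) + (p.lk + (p.ell k x y - p.wd g)) by
          rw [wd] at hc ⊢; omega, pow_add, pow_add] at h3
        exact (mul_le_mul_of_nonneg_right h5 (by positivity)).trans
          (le_of_mul_le_mul_left h3 (by positivity))
    obtain ⟨z, hz, h5⟩ := h4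
    exact ⟨z, mem_range.1 (mem_filter.1 hz).1, (mem_filter.1 hz).2.1, (mem_filter.1 hz).2.2, h5⟩

end Gd

open Classical in
/-- Most seeds are good. -/
theorem good_seeds (ok : p.OK) {e E : ℕ} (he : 20 * p.m + 20 + E ≤ e)
    (hk : kap (2 * p.m) (2 * p.m) e * (2 ^ c5 + 1) * (2 * p.m + 1) ≤ 2 ^ p.lk) :
    2 ^ E * #{σ ∈ range (2 ^ clen (2 * p.m) (2 * p.m) e) |
      ¬p.Good (cF (2 * p.m) (2 * p.m) e σ)} ≤ 2 ^ clen (2 * p.m) (2 * p.m) e := by
  have hB := BK_le ok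
  have hm : p.m < 2 ^ p.m := Nat.lt_two_pow_self
  let R := range (2 ^ p.m)
  have h1 := union_le (R ×ˢ R ×ˢ R ×ˢ R ×ˢ R ×ˢ R ×ˢ (univ : Finset Bool))
    (range (2 ^ clen (2 * p.m) (2 * p.m) e)) (fun i σ => Bad1 p (cF (2 * p.m) (2 * p.m) e σ)
      (kap (2 * p.m) (2 * p.m) e) i.1 i.2.1 i.2.2.1 i.2.2.2.1 i.2.2.2.2.1 i.2.2.2.2.2.2 ∨
      Bad2 p (cF (2 * p.m) (2 * p.m) e σ) (kap (2 * p.m) (2 * p.m) e) i.1 i.2.1 i.2.2.2.1
        i.2.2.2.2.2.1 i.2.2.2.2.1) (q := fun σ => ¬p.Good (cF (2 * p.m) (2 * p.m) e σ))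
    (b := 2 * (2 ^ clen (2 * p.m) (2 * p.m) e / 2 ^ e)) (fun σ _ hn => ?_) fun i _ => ?_
  · have h2 : (#(R ×ˢ R ×ˢ R ×ˢ R ×ˢ R ×ˢ R ×ˢ (univ : Finset Bool)) : ℝ) = 2 ^ (6 * p.m + 1) := by
      simp only [R, card_product, card_range, card_univ, Fintype.card_bool]
      push_cast
      ring
    have h3 : (2 : ℝ) ^ E * (2 ^ (6 * p.m + 1) * 2) ≤ 2 ^ e := by
      rw [← pow_succ, ← pow_add]
      exact pow_le_pow_right₀ one_le_two (by omega)
    rw [h2] at h1
    rw [← Nat.cast_le (α := ℝ)]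
    push_cast
    refine (mul_le_mul_of_nonneg_left h1 (by positivity)).trans ?_
    rw [← mul_assoc (2 ^ (6 * p.m + 1) : ℝ), ← mul_assoc, ← mul_div_assoc,
      div_le_iff₀ (by positivity), mul_comm]
    exact mul_le_mul_of_nonneg_left h3 (by positivity)
  · by_contra hc
    refine hn (good_of ok hk (fun k g l x U d hx hb => hc ⟨(k, g, l, x, U, 0, d), ?_, .inl hb⟩)
      fun k g x y U hg hx hy hb => hc ⟨(k, g, 0, x, U, y, true), ?_, .inr hb⟩)
    · have := hb.1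
      have := n_le ok le_rfl
      simp only [R, mem_product, mem_range, mem_univ, and_true]
      omega
    · have := hb.1.1
      have := hb.1.2.1
      have := n_le ok le_rfl
      simp only [R, mem_product, mem_range, mem_univ, and_true]
      omega
  · exact (card_or (card_Bad1 ok e i.1 i.2.1 i.2.2.1 i.2.2.2.1 i.2.2.2.2.1 i.2.2.2.2.2.2)
      (card_Bad2 ok e i.1 i.2.1 i.2.2.2.1 i.2.2.2.2.2.1 i.2.2.2.2.1) fun _ h => h).trans_eq
      (two_mul _).symm

end Vale.Agent.P313.NL2.Pr
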