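import Vale.Agent.P313.NL2.Prog
import Vale.Agent.P313.NL2.Good
import Vale.Agent.P313.Full.DslMainGood
import Vale.Agent.P313.Full.TopSpace

/-! The parameters, the average over the seeds and the budget for the tables with short labels. -/

namespace Vale.Agent.P313.NL2

open Finset Function Vale.Agent.P313.Hi Vale.Agent.P313.NL Vale.Agent.P313.KH Vale.Agent.P313.Full
  Vale.Agent.P313.Full.Tm Vale.Agent.Lib.Space

namespace FA

/-- Half of the length of a register. -/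
noncomputable def qm (N : ℕ) : ℕ := (a + B + C + 3 + cc) * pK N

/-- The precision of the approximations. -/
noncomputable def qT (N : ℕ) : ℕ := pE N + (B + 1)

/-- The parameter of the hash functions. -/
noncomputable def qe (N : ℕ) : ℕ := 20 * qm N + 20 + (qT N + 2)

/-- The bound for the number of active entries. -/
noncomputable def qX (N : ℕ) : ℕ := kap (2 * qm N) (2 * qm N) (qe N) * (2 ^ c5 + 1) * (2 * qm N + 1)

/-- The word size. -/
noncomputable def qlk (N : ℕ) : ℕ := a + Nat.size (qX N)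

/-- The length of a seed. -/
noncomputable def qcl (N : ℕ) : ℕ := clen (2 * qm N) (2 * qm N) (qe N)

/-- The logarithm of the budget. -/
noncomputable def qex (N : ℕ) : ℕ := qcl N + (pn0 N + qm N + (pK N + 1) * (qlk N + 1))

/-- The parameters for a graph. -/
noncomputable def par (N : ℕ) (A0 : ℕ → ℕ → ℕ) : Pr := ⟨N, A0, pn0 N, pK N, qm N, qlk N⟩

/-- The hash function of a seed. -/
noncomputable def hash (N σ : ℕ) : ℕ → ℕ := cF (2 * qm N) (2 * qm N) (qe N) σ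

theorem pn0_le (N : ℕ) : pn0 N ≤ pK N := by unfold pK; omega

theorem one_le_pK (N : ℕ) : 1 ≤ pK N := by unfold pK; omega

theorem qX_le (N : ℕ) : qX N ≤ 2 ^ qlk N :=
  (Nat.lt_size_self _).le.trans (Nat.pow_le_pow_right two_pos (Nat.le_add_left _ _))

theorem par_ok {N : ℕ} {A0 : ℕ → ℕ → ℕ} (h2 : 2 ≤ N) (hS : F43.Sub (F43.mat N A0 2))
    (hd : ∀ v, #{u ∈ range N | A0 u v ≠ 0} ≤ 2) : (par N A0).OK := by
  refine ⟨hS, h2, hd, le_pn0 N, ?_, Nat.le_add_right _ _, ?_⟩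
  · have h := pn0_le N
    change pn0 N + a * pK N + (B + C + 2) * pK N + cc * pK N ≤ (a + B + C + 3 + cc) * pK N
    simp only [add_mul] at h ⊢
    omega
  · exact (Nat.lt_succ_self _).trans_le ((Nat.le_mul_of_pos_left _
      (Nat.mul_pos (one_le_kap _ _ _) (Nat.succ_pos _))).trans (qX_le N))

/-! ### The size of the budget -/

theorem size_le {x c K j : ℕ} (hK : 1 ≤ K) (h : x ≤ c * K ^ j) :
    Nat.size x ≤ (Nat.size c + j) * Nat.size K := by
  have h1 : 1 ≤ Nat.size K := Nat.size_pos.2 hK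
  have h2 : K ^ j ≤ 2 ^ (j * Nat.size K) := by
    rw [mul_comm, pow_mul]
    exact Nat.pow_le_pow_left (Nat.lt_size_self _).le j
  have h3 : Nat.size x ≤ Nat.size c + j * Nat.size K := Nat.size_le.2 (by
    rw [pow_add]
    exact h.trans_lt (Nat.mul_lt_mul_of_lt_of_le (Nat.lt_size_self c) h2 (Nat.two_pow_pos _)))
  have h4 := Nat.mul_le_mul_left (Nat.size c) h1
  rw [add_mul]
  omega

theorem pE_le (N : ℕ) : pE N ≤ (15 + 3 * a) * pK N := by
  have h1 := pn0_le N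
  have h2 := one_le_pK N
  have h3 : pK N + 1 ≤ 2 ^ pK N := Nat.lt_two_pow_self
  have h4 : pE N ≤ 10 + pK N * 2 + (pn0 N + a * pK N) * 3 := Nat.size_le.2 (by
    rw [pow_add, pow_add, pow_mul, pow_mul]
    exact Nat.mul_lt_mul_of_lt_of_le (Nat.mul_lt_mul_of_lt_of_le (by norm_num)
      (Nat.pow_le_pow_left h3 2) (by positivity)) le_rfl (by positivity))
  rw [add_mul, mul_assoc]
  omega

theorem lin : ∃ c : ℕ, ∀ N, qe N + 6 * qm N + 7 ≤ c * pK N := by
  refine ⟨26 * (a + B + C + 3 + cc) + (15 + 3 * a) + (B + 30), fun N => ?_⟩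
  have h1 := pE_le N
  have h2 := Nat.mul_le_mul_left (B + 30) (one_le_pK N)
  rw [add_mul, add_mul, mul_assoc, ← qm, qe, qT]
  omega

theorem qex_le : ∃ c : ℕ, ∀ N, qex N ≤ c * (pK N * Nat.size (pK N)) := by
  obtain ⟨c, hc⟩ := lin
  refine ⟨2 ^ 39 * c * (Nat.size c + 1) + (c + 1) +
    2 * (a + 1 + (Nat.size (2 ^ 23 * (2 ^ c5 + 1) * c ^ 19) + 19)), fun N => ?_⟩
  have h0 := hc N
  have h1 := one_le_pK N
  have h2 : 1 ≤ Nat.size (pK N) := Nat.size_pos.2 h1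
  have h3 := pn0_le N
  have h4 : Nat.size (2 * qm N) ≤ (Nat.size c + 1) * Nat.size (pK N) :=
    size_le h1 (by rw [pow_one]; omega)
  have h5 : qcl N ≤ 2 ^ 39 * c * (Nat.size c + 1) * (pK N * Nat.size (pK N)) :=
    (clen_le _ _ _).trans ((Nat.mul_le_mul (Nat.mul_le_mul_left _
      (show _ ≤ c * pK N by omega)) h4).trans_eq (by ring))
  have h6 : qX N ≤ 2 ^ 23 * (2 ^ c5 + 1) * c ^ 19 * pK N ^ 19 :=
    (Nat.mul_le_mul (Nat.mul_le_mul_right _ ((kap_le _ _ _).trans (Nat.mul_le_mul_left _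
      (Nat.pow_le_pow_left (show _ ≤ c * pK N by omega) 18))))
      (show _ ≤ c * pK N by omega)).trans_eq (by ring)
  have h7 := size_le h1 h6
  generalize Nat.size (2 ^ 23 * (2 ^ c5 + 1) * c ^ 19) + 19 = c' at h7 ⊢
  have h8 : qlk N + 1 ≤ (a + 1 + c') * Nat.size (pK N) := by
    have := Nat.mul_le_mul_left (a + 1) h2
    rw [add_mul _ c', qlk]
    omega
  have h9 : (pK N + 1) * (qlk N + 1) ≤ 2 * (a + 1 + c') * (pK N * Nat.size (pK N)) :=
    (Nat.mul_le_mul (show _ ≤ 2 * pK N by omega) h8).trans_eq (by ring)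
  have h10 : pn0 N + qm N ≤ (c + 1) * (pK N * Nat.size (pK N)) := by
    have := Nat.mul_le_mul_left (c + 1) (Nat.le_mul_of_pos_right (pK N) h2)
    rw [add_mul c 1 (pK N)] at this
    omega
  rw [add_mul, add_mul, qex]
  omega

theorem size_log {x : ℕ} (hx : 1 ≤ x) : (Nat.size x : ℝ) ≤ 2 * Real.log x + 1 := by
  have h1 : Nat.size x ≤ Nat.log 2 x + 1 := Nat.size_le.2 (Nat.lt_pow_succ_log_self one_lt_two x)
  have h2 : (2 : ℝ) ^ Nat.log 2 x ≤ x := by exact_mod_cast Nat.pow_log_le_self 2 (by omega)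
  have h3 := Real.log_le_log (by positivity) h2
  rw [Real.log_pow] at h3
  have h4 : (Nat.size x : ℝ) ≤ Nat.log 2 x + 1 := by exact_mod_cast h1
  nlinarith [Real.log_two_gt_d9, (Nat.cast_nonneg (Nat.log 2 x) : (0 : ℝ) ≤ _)]

theorem bud_le (c : ℕ) : ∃ (C : ℝ) (n0 : ℕ), ∀ n N : ℕ, n0 ≤ n → N ≤ (n + 2) ^ c →
    ((Nat.log 2 (2 ^ qex N + n + 2) : ℕ) : ℝ) ≤ C * (Real.log n * Real.log (Real.log n)) := by
  obtain ⟨c3, hc3⟩ := qex_le
  set D : ℝ := 5 * (6 * c + 76) with hD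
  have hD1 : 1 ≤ D := by have : (0 : ℝ) ≤ c := Nat.cast_nonneg c; linarith
  have hD2 := Real.log_nonneg hD1
  refine ⟨c3 * (D * (2 * Real.log D + 3)) + 5, ⌈Real.exp (Real.exp 1)⌉₊, fun n N hn hN => ?_⟩
  have e1 : (2 : ℝ) ≤ Real.exp 1 := by linarith [Real.add_one_le_exp 1]
  have h1 : Real.exp (Real.exp 1) ≤ n := Nat.ceil_le.1 hn
  have h2 : Real.exp 1 ≤ Real.log n := (Real.le_log_iff_exp_le ((Real.exp_pos _).trans_le h1)).2 h1
  have h3 : 1 ≤ Real.log (Real.log n) :=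
    (Real.le_log_iff_exp_le ((Real.exp_pos _).trans_le h2)).2 h2
  have h4 : (2 : ℝ) ≤ n := by linarith [Real.add_one_le_exp (Real.exp 1)]
  have h5 : (Nat.size (n + 2) : ℝ) ≤ 5 * Real.log n := by
    have a1 := size_log (x := n + 2) (by omega)
    have a2 : Real.log ((n + 2 : ℕ) : ℝ) ≤ Real.log ((n : ℝ) ^ 2) :=
      Real.log_le_log (by positivity) (by push_cast; nlinarith)
    rw [Real.log_pow] at a2
    push_cast at a1 a2
    linarith
  have h6 : pK N ≤ (6 * c + 76) * Nat.size (n + 2) := by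
    have a1 : N ≤ 2 ^ (c * Nat.size (n + 2)) := hN.trans (by
      rw [mul_comm, pow_mul]
      exact Nat.pow_le_pow_left (Nat.lt_size_self _).le c)
    have a2 : pn0 N ≤ c * Nat.size (n + 2) + 1 :=
      Nat.size_le.2 (a1.trans_lt (Nat.pow_lt_pow_right one_lt_two (Nat.lt_succ_self _)))
    have a3 : 0 < Nat.size (n + 2) := Nat.size_pos.2 (by omega)
    rw [add_mul, mul_assoc, pK]
    omega
  have h7 : (pK N : ℝ) ≤ D * Real.log n :=
    calc (pK N : ℝ) ≤ (6 * c + 76) * Nat.size (n + 2) := by exact_mod_cast h6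
      _ ≤ (6 * c + 76) * (5 * Real.log n) := by gcongr
      _ = _ := by rw [hD]; ring
  have h8 : (Nat.size (pK N) : ℝ) ≤ (2 * Real.log D + 3) * Real.log (Real.log n) := by
    have a0 := one_le_pK N
    have a1 := size_log a0
    have a2 := Real.log_le_log (by exact_mod_cast a0) h7
    rw [Real.log_mul (by linarith) (by linarith)] at a2
    nlinarith
  have h9 : Nat.log 2 (2 ^ qex N + n + 2) ≤ c3 * (pK N * Nat.size (pK N)) + Nat.size (n + 2) := by
    refine le_trans (Nat.le_of_lt_succ (Nat.log_lt_of_lt_pow (Nat.succ_ne_zero _) ?_))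
      (Nat.add_le_add_right (hc3 N) _)
    have a1 := Nat.lt_size_self (n + 2)
    have a2 : 2 ^ qex N ≤ 2 ^ qex N * 2 ^ Nat.size (n + 2) :=
      Nat.le_mul_of_pos_right _ (by positivity)
    have a3 : 2 ^ Nat.size (n + 2) ≤ 2 ^ qex N * 2 ^ Nat.size (n + 2) :=
      Nat.le_mul_of_pos_left _ (Nat.two_pow_pos _)
    rw [pow_succ, pow_add]
    omega
  have h10 : Real.log n ≤ Real.log n * Real.log (Real.log n) :=
    le_mul_of_one_le_right (by linarith) h3
  calc _ ≤ (c3 : ℝ) * (pK N * Nat.size (pK N)) + Nat.size (n + 2) := by exact_mod_cast h9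
    _ ≤ c3 * (D * Real.log n * ((2 * Real.log D + 3) * Real.log (Real.log n))) +
        5 * (Real.log n * Real.log (Real.log n)) := by
      refine add_le_add ?_ (by linarith)
      have : 0 ≤ D * Real.log n := by have : 0 ≤ Real.log n := by linarith
                                      positivity
      gcongr
    _ = _ := by ring

/-! ### The average over the seeds -/

section sp

variable {A α : Type} [Enc A α] {Bu : Bud A}

theorem abs_cl_sub {t v : ℝ} (h0 : 0 ≤ v) (h1 : v ≤ 1) : |cl t - v| ≤ |t - v| := by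
  rcases le_total t 0 with h | h
  · rw [cl_of_le h, abs_of_nonpos (by linarith), abs_of_nonpos (by linarith)]
    linarith
  rcases le_total 1 t with h' | h'
  · rw [cl_of_ge h', abs_of_nonneg (by linarith), abs_of_nonneg (by linarith)]
    linarith
  · rw [cl, min_eq_right h', max_eq_right h]

open Classical in
/-- The mean over all seeds of approximations which are correct for most seeds. -/
theorem avg_seeds {S T : α → ℕ} (hS : SP Bu S) (hT : SP Bu fun b => 2 ^ T b) (hS0 : ∀ b, 0 < S b)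
    {r : α × ℕ → ℝ} (hr : RSP Bu r) : ∃ r' : α → ℝ, RSP Bu r' ∧ ∀ (b : α) (v : ℝ) (G : ℕ → Prop),
      0 ≤ v → v ≤ 1 → 2 ^ (T b + 2) * #{σ ∈ range (S b) | ¬G σ} ≤ S b →
      (∀ σ, G σ → |r (b, σ) - v| ≤ 1 / 2 ^ (T b + 2)) → |r' b - v| ≤ 1 / 2 ^ T b := by
  obtain ⟨s, s1, s2⟩ := rsp_sum_apx (f := fun b σ => cl (r (b, σ))) hS (hT.mul (SP.const 2))
    (fun _ => by positivity) (rsp_cl hr)
  refine ⟨fun b => s b / S b, s1.div (RSP.natCast hS), fun b v G h0 h1 hG h => ?_⟩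
  have h2 : (0 : ℝ) < S b := by exact_mod_cast hS0 b
  have h3 : (0 : ℝ) < 2 ^ T b := by positivity
  have h4 : (#{σ ∈ range (S b) | ¬G σ} : ℝ) ≤ S b * (1 / 2 ^ (T b + 2)) := by
    rw [mul_one_div, le_div_iff₀ (by positivity), mul_comm]
    exact_mod_cast hG
  have h5 : |∑ σ ∈ range (S b), cl (r (b, σ)) - S b * v| ≤
      S b * (1 / 2 ^ (T b + 2)) + #{σ ∈ range (S b) | ¬G σ} := by
    have e : ∑ σ ∈ range (S b), cl (r (b, σ)) - S b * v =
        ∑ σ ∈ range (S b), (cl (r (b, σ)) - v) := by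
      rw [sum_sub_distrib, sum_const, card_range, nsmul_eq_mul]
    rw [e, card_filter]
    refine (abs_sum_le_sum_abs _ _).trans ((sum_le_sum (g := fun σ =>
      1 / 2 ^ (T b + 2) + if ¬G σ then 1 else 0) fun σ _ => ?_).trans (le_of_eq ?_))
    · split_ifs with hσ
      · rw [add_zero]
        exact (abs_cl_sub h0 h1).trans (h σ hσ)
      · have := cl_nonneg (r (b, σ))
        have := cl_le_one (r (b, σ))
        have : (0 : ℝ) ≤ 1 / 2 ^ (T b + 2) := by positivity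
        exact abs_le.2 ⟨by linarith, by linarith⟩
    · rw [sum_add_distrib, sum_const, card_range, nsmul_eq_mul]
      push_cast
      rfl
  have h6 := s2 b
  have h7 : (S b : ℝ) / (2 * (2 ^ T b * 2 : ℕ)) = S b * (1 / 2 ^ (T b + 2)) := by
    push_cast
    rw [pow_add]
    field_simp
  have h8 : (S b : ℝ) * (1 / 2 ^ T b) = 4 * (S b * (1 / 2 ^ (T b + 2))) := by
    rw [pow_add]
    field_simp
    norm_num
  have h9 : 0 ≤ (S b : ℝ) * (1 / 2 ^ (T b + 2)) := by positivity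
  have e : s b / S b - v = (s b - S b * v) / S b := by field_simp
  beta_reduce
  rw [e, abs_div, abs_of_pos h2, div_le_iff₀ h2, mul_comm (1 / 2 ^ T b : ℝ), h8]
  rw [h7] at h6
  linarith [abs_sub_le (s b) (∑ σ ∈ range (S b), cl (r (b, σ))) (S b * v)]

variable {N : α → ℕ} (hN : SP Bu N)
include hN

theorem sp_qm : SP Bu fun b => qm (N b) := (SP.const _).mul (sp_pK hN)

theorem sp_qT : SP Bu fun b => qT (N b) := (sp_pE hN).add (SP.const _)

theorem sp_pow_qT : SP Bu fun b => 2 ^ qT (N b) :=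
  ((sp_pow_pE hN).mul (SP.const (2 ^ (B + 1)))).congr fun _ => (pow_add _ _ _).symm

theorem sp_qe : SP Bu fun b => qe (N b) :=
  (((SP.const 20).mul (sp_qm hN)).add (SP.const 20)).add ((sp_qT hN).add (SP.const 2))

theorem sp_qlk : SP Bu fun b => qlk (N b) :=
  have h := (SP.const 2).mul (sp_qm hN)
  (SP.const a).add (sp_size (((sp_kap h h (sp_qe hN)).mul (SP.const _)).mul (h.add (SP.const 1))))

theorem sp_qcl : SP Bu fun b => qcl (N b) :=
  have h := (SP.const 2).mul (sp_qm hN)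
  sp_clen h h (sp_qe hN)

end sp

/-! ### The runs of the program -/

/-- The statements on the program which are used at the top. -/
structure Parts : Prop where
  wf : ∀ {α : Type} {c : α → In} {b : α}, (c b).OK → (prog c).WF b
  pot_le : ∃ C : ℕ, ∀ {α : Type} (c : α → In) (b : α) (t : Pn) (q : Cx), (c b).OK →
    (prog c).adm t b q → (prog c).pot t b q ≤ C * (((c b).K + 1) * ((c b).lk + 1)) ∧
      ∀ x, q x ≤ 2 ^ (C * (((c b).K + 1) * ((c b).lk + 1)))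
  isSP : ∀ {α : Type} {c : α → In} {A : Type} [Enc A α] {Bu : Bud A}, InSP c Bu → (prog c).IsSP Bu
  ideal : ∀ {α : Type} {c : α → In} {b : α}, (c b).Gd (c b).F →
    (prog c).Ideal b ((prog c).cE b) ((prog c).cD b)
  top_H : ∀ {α : Type} {c : α → In} {b : α} {k : ℕ}, (c b).Gd (c b).F → k ≤ (c b).K →
    (c b).x0 < (c b).n k → ∀ d : Bool,
    (∀ s ∈ (prog c).box b, s ∈ (prog c).cD b (.TH d) (mk k 0 0 0 0 0 0) true) ∧
      (∑ s ∈ (prog c).box b, ((prog c).cE b (.TH d) (mk k 0 0 0 0 0 0)).val s) / #((prog c).box b) =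
        (c b).h k 0 d (c b).x0 / (c b).n (c b).K
  top_W : ∀ {α : Type} {c : α → In} {b : α} {k : ℕ}, (c b).Gd (c b).F → k ≤ (c b).K →
    (c b).x0 < (c b).n k → (c b).y0 < (c b).n k →
    (∀ s ∈ (prog c).box b, s ∈ (prog c).cD b .TW (mk k 0 0 0 0 0 0) true) ∧
      (∑ s ∈ (prog c).box b, ((prog c).cE b .TW (mk k 0 0 0 0 0 0)).val s) / #((prog c).box b) =
        (c b).rw k (c b).x0 (c b).y0 / 2 ^ (c b).ell k (c b).x0 (c b).y0 / (c b).n (c b).K

theorem bd_pos (p : Pr) : ∀ r, 0 < p.bd r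
  | .pos => nm_pos _ _
  | .ch => Nat.two_pow_pos _
  | .e (_, false) => nm_pos _ _
  | .e (_, true) => Nat.two_pow_pos _

section run

variable {A α : Type} [Enc A α] {Bu : Bud A}

theorem sp_mk {k : α → ℕ} (hk : SP Bu k) : SP Bu fun b => mk (k b) 0 0 0 0 0 0 :=
  sp_vec fun x => by
    cases x
    · exact hk
    all_goals exact SP.const 0

/-- One run of a procedure at the top. -/
theorem run (hP : Parts) {c : α → In} (hc : InSP c Bu) {T : α → ℕ} (hT : SP Bu T)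
    (hT' : PBd Bu fun b => 2 ^ T b) (hn : SP Bu fun b => (c b).n (c b).K)
    (ok : ∀ b, (c b).OK) (hk : ∀ b, (c b).k0 ≤ (c b).K) (t : Pn) (ht : t = .TW ∨ ∃ d, t = .TH d)
    (G : α → Prop) (v : α → ℝ) (h : ∀ b, G b → (c b).Gd (c b).F ∧
      (∀ s ∈ (prog c).box b, s ∈ (prog c).cD b t (mk (c b).k0 0 0 0 0 0 0) true) ∧
      (∑ s ∈ (prog c).box b, ((prog c).cE b t (mk (c b).k0 0 0 0 0 0 0)).val s) /
        #((prog c).box b) = v b / (c b).n (c b).K) :
    ∃ r : α → ℝ, RSP Bu r ∧ ∀ (x : List A) (b : α), Enc.ok x b → G b →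
      |r b - v b| ≤ 1 / 2 ^ T b := by
  obtain ⟨C, hC⟩ := hP.pot_le
  have h1 : PBd Bu fun b => 2 ^ (C * (((c b).K + 1) * ((c b).lk + 1))) :=
    (hc.pw.pow C).mono fun b => by
      rw [← pow_mul, mul_comm C]
      exact Nat.pow_le_pow_right two_pos (Nat.mul_le_mul_right _ (Nat.le_add_left _ _))
  have h2 : ∀ b, (prog c).adm t b (mk (c b).k0 0 0 0 0 0 0) := fun b => by
    refine ⟨hk b, zero_le_one, Nat.pow_pos (Nat.two_pow_pos _), Nat.two_pow_pos _, rfl, rfl,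
      fun _ => rfl, ?_⟩
    rcases ht with rfl | ⟨d, rfl⟩ <;> exact ⟨rfl, rfl⟩
  obtain ⟨r, r1, r2⟩ := (prog c).dsl_main_good (hP.isSP hc) t
    (by rcases ht with rfl | ⟨d, rfl⟩ <;> simp [prog]) (sp_mk hc.k0)
    ((SP.const C).mul ((hc.K.add (SP.const 1)).mul (hc.lk.add (SP.const 1))))
    (hT.add (hc.n0.add ((SP.const a).mul hc.K))) h1
    ((hT'.mul hn.pbd).mono fun b => (pow_add _ _ _).le) h1 G (fun b => (prog c).cE b)
    (fun b => (prog c).cD b)
    (fun _ b _ => ⟨hP.wf (ok b), h2 b, (hC c b t _ (ok b) (h2 b)).1,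
      fun t q hq => (hC c b t q (ok b) hq).2, bd_pos _⟩)
    fun _ b _ hG => ⟨hP.ideal (h b hG).1, (h b hG).2.1⟩
  refine ⟨fun b => (c b).n (c b).K * r b, (RSP.natCast hn).mul r1, fun x b hb hG => ?_⟩
  have h3 := r2 x b hb hG
  have h4 : ((c b).n (c b).K : ℝ) = 2 ^ ((c b).n0 + a * (c b).K) := Nat.cast_pow _ _
  have h5 : (0 : ℝ) < (c b).n (c b).K := h4 ▸ by positivity
  rw [(h b hG).2.2] at h3
  beta_reduce
  rw [← mul_div_cancel₀ (v b) h5.ne', ← mul_sub, abs_mul, abs_of_pos h5]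
  refine (mul_le_mul_of_nonneg_left h3 h5.le).trans (le_of_eq ?_)
  rw [h4, pow_add _ (T b)]
  field_simp

/-- The input of the program for a graph, a level, two names and a seed. -/
noncomputable def inp (N : α → ℕ) (A0 : α → ℕ → ℕ → ℕ) (z : (α × ℕ × ℕ × ℕ) × ℕ) : In :=
  ⟨par (N z.1.1) (A0 z.1.1), hash (N z.1.1) z.2, min z.1.2.1 (pK (N z.1.1)), z.1.2.2.1, z.1.2.2.2⟩

variable {N : α → ℕ} {A0 : α → ℕ → ℕ → ℕ}

theorem inSP (hN : SP Bu N) (hA : SP Bu fun z : α × ℕ × ℕ => A0 z.1 z.2.1 z.2.2)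
    (hB : PBd Bu fun b => 2 ^ qex (N b)) : InSP (inp N A0) Bu := by
  have h1 : SP Bu fun z : (α × ℕ × ℕ × ℕ) × ℕ => N z.1.1 := hN.comp SP.fst'.fst
  have h2 : SP Bu fun z : ((α × ℕ × ℕ × ℕ) × ℕ) × ℕ => N z.1.1.1 := h1.comp SP.fst'
  have h3 := (SP.const 2).mul (sp_qm h2)
  exact ⟨h1, hA.comp (SP.fst'.fst.fst.pair SP.snd'), sp_pn0 h1, sp_pK h1, sp_qm h1, sp_qlk h1,
    sp_cF h3 h3 (sp_qe h2) SP.fst'.snd SP.snd'
      (fun z => Nat.mul_pos two_pos (Nat.mul_pos (by omega) (one_le_pK _)))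
      ((hB.comp SP.fst'.fst.fst).mono fun _ => Nat.pow_le_pow_right two_pos (Nat.le_add_right _ _)),
    SP.fst'.snd.fst.min (sp_pK h1), SP.fst'.snd.snd.fst, SP.fst'.snd.snd.snd,
    (hB.comp SP.fst'.fst).mono fun _ => Nat.pow_le_pow_right two_pos (Nat.le_add_left _ _)⟩

/-- The mean over the seeds of the runs of a procedure at the top. -/
theorem run_avg (hP : Parts) (hN : SP Bu N) (hA : SP Bu fun z : α × ℕ × ℕ => A0 z.1 z.2.1 z.2.2)
    (hB : PBd Bu fun b => 2 ^ qex (N b)) (ok : ∀ b, (par (N b) (A0 b)).OK) (t : Pn)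
    (ht : t = .TW ∨ ∃ d, t = .TH d) (v : Pr → ℕ → ℕ → ℕ → ℝ)
    (hv : ∀ p k x y, p.OK → 0 ≤ v p k x y ∧ v p k x y ≤ 1)
    (h : ∀ b k, ((inp N A0) b).Gd ((inp N A0) b).F → k ≤ ((inp N A0) b).K →
      ((inp N A0) b).x0 < ((inp N A0) b).n k → ((inp N A0) b).y0 < ((inp N A0) b).n k →
      (∀ s ∈ (prog (inp N A0)).box b, s ∈ (prog (inp N A0)).cD b t (mk k 0 0 0 0 0 0) true) ∧
      (∑ s ∈ (prog (inp N A0)).box b, ((prog (inp N A0)).cE b t (mk k 0 0 0 0 0 0)).val s) /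
        #((prog (inp N A0)).box b) = v ((inp N A0) b).toPr k ((inp N A0) b).x0 ((inp N A0) b).y0 /
          ((inp N A0) b).n ((inp N A0) b).K) :
    ∃ r : α × ℕ × ℕ × ℕ → ℝ, RSP Bu r ∧ ∀ (x : List A) (b : α), Enc.ok x b → ∀ k < pK (N b),
      ∀ u < nm (pn0 (N b)) k, ∀ w < nm (pn0 (N b)) k,
        |r (b, k, u, w) - v (par (N b) (A0 b)) k u w| ≤ 1 / 2 ^ qT (N b) := by
  have h1 : SP Bu fun z : α × ℕ × ℕ × ℕ => N z.1 := hN.comp SP.fst'
  have h2 : SP Bu fun z : (α × ℕ × ℕ × ℕ) × ℕ => N z.1.1 := h1.comp SP.fst'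
  obtain ⟨r, r1, r2⟩ := run hP (inSP hN hA hB) ((sp_qT h2).add (SP.const 2))
    (((sp_pow_qT h2).pbd.mul (PBd.const (2 ^ 2))).mono fun _ => (pow_add _ _ _).le) (sp_nmK h2)
    (fun z => ok z.1.1) (fun _ => min_le_right _ _) t ht
    (fun z => (par (N z.1.1) (A0 z.1.1)).Good (hash (N z.1.1) z.2) ∧
      z.1.2.2.1 < nm (pn0 (N z.1.1)) (inp N A0 z).k0 ∧ z.1.2.2.2 < nm (pn0 (N z.1.1)) (inp N A0 z).k0)
    (fun z => v (par (N z.1.1) (A0 z.1.1)) (inp N A0 z).k0 z.1.2.2.1 z.1.2.2.2) fun z hz =>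
      have hg : (inp N A0 z).Gd (inp N A0 z).F := ⟨ok _, hz.1, fun _ => cF_lt _ _ _ _ _⟩
      ⟨hg, h z _ hg (min_le_right _ _) hz.2.1 hz.2.2⟩
  obtain ⟨s, s1, s2⟩ := avg_seeds (S := fun z : α × ℕ × ℕ × ℕ => 2 ^ qcl (N z.1))
    (NL.sp_two_pow (sp_qcl h1) ((hB.comp SP.fst').mono fun _ =>
      Nat.pow_le_pow_right two_pos (Nat.le_add_right _ _))) (sp_pow_qT h1)
    (fun _ => Nat.two_pow_pos _) r1
  refine ⟨s, s1, fun x b hb k hk u hu w hw => s2 (b, k, u, w) _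
    (fun σ => (par (N b) (A0 b)).Good (hash (N b) σ)) (hv _ _ _ _ (ok b)).1 (hv _ _ _ _ (ok b)).2
    (Pr.good_seeds (ok b) le_rfl (qX_le _)) fun σ hσ => ?_⟩
  have e : (inp N A0 ((b, k, u, w), σ)).k0 = k := min_eq_left hk.le
  have h3 := r2 x ((b, k, u, w), σ) ⟨⟨hb, trivial, trivial, trivial⟩, trivial⟩
    ⟨hσ, e.symm ▸ hu, e.symm ▸ hw⟩
  rwa [e] at h3

theorem oracle (hP : Parts) (hN : SP Bu N) (hA : SP Bu fun z : α × ℕ × ℕ => A0 z.1 z.2.1 z.2.2)
    (hB : PBd Bu fun b => 2 ^ qex (N b)) (ok : ∀ b, (par (N b) (A0 b)).OK) :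
    Oracle Bu (fun b => pn0 (N b)) (fun b => pK (N b)) (fun b => (par (N b) (A0 b)).L)
      fun b => pE (N b) := by
  have hH : ∀ d : Bool, ∃ r : α × ℕ × ℕ → ℝ, RSP Bu r ∧ ∀ (x : List A) (b : α), Enc.ok x b →
      ∀ k < pK (N b), ∀ v < nm (pn0 (N b)) k,
        |r (b, k, v) - 2 ^ (B + 1) * (par (N b) (A0 b)).h k 0 d v| ≤ 1 / 2 ^ pE (N b) := fun d => by
    obtain ⟨r, r1, r2⟩ := run_avg hP hN hA hB ok (.TH d) (.inr ⟨d, rfl⟩) (fun p k x _ => p.h k 0 d x)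
      (fun _ _ _ _ h => Pr.h_mem h _ _ _ _) fun _ _ h1 h2 h3 _ => hP.top_H h1 h2 h3 d
    refine ⟨fun z => 2 ^ (B + 1) * r (z.1, z.2.1, z.2.2, z.2.2),
      (rsp_two_pow (SP.const (2 ^ (B + 1)))).mul
        (r1.comp (SP.fst'.pair (SP.snd'.fst.pair (SP.snd'.snd.pair SP.snd'.snd)))),
      fun x b hb k hk v hv => ?_⟩
    have h1 : (0 : ℝ) < 2 ^ (B + 1) := by positivity
    beta_reduce
    rw [← mul_sub, abs_mul, abs_of_pos h1]
    refine (mul_le_mul_of_nonneg_left (r2 x b hb k hk v hv v hv) h1.le).trans (le_of_eq ?_)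
    rw [qT, pow_add _ (pE _)]
    field_simp
  refine ⟨(hH false).imp fun r hr => ⟨hr.1, fun x b hb k hk v hv => ?_⟩,
    (hH true).imp fun r hr => ⟨hr.1, fun x b hb k hk v hv => ?_⟩, ?_⟩
  · rw [Pr.L_hc]
    exact hr.2 x b hb k hk v hv
  · rw [Pr.L_hr]
    exact hr.2 x b hb k hk v hv
  refine (run_avg hP hN hA hB ok .TW (.inl rfl) (fun p k x y => p.rw k x y / 2 ^ p.ell k x y)
    (fun _ _ _ _ h => ⟨div_nonneg (Pr.rw_mem h _ _ _).1 (by positivity), div_le_one_of_le₀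
      ((Pr.rw_mem h _ _ _).2.trans (one_le_pow₀ one_le_two)) (by positivity)⟩)
    fun _ _ h1 h2 h3 h4 => hP.top_W h1 h2 h3 h4).imp fun r hr =>
      ⟨hr.1, fun x b hb k hk u hu v hv => ?_⟩
  have h1 := hr.2 x b hb k hk u hu v hv
  have h2 : (1 : ℝ) / 2 ^ qT (N b) ≤ 1 / 2 ^ pE (N b) :=
    one_div_le_one_div_of_le (by positivity) (pow_le_pow_right₀ one_le_two (Nat.le_add_right _ _))
  have h3 := Lv.om_nonneg _ (Pr.inv (ok b) k).S_nonneg u v
  have h4 := mul_le_of_le_one_right h3 (Pr.sig_mem (par (N b) (A0 b)) k 0 u v).2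
  rw [Pr.rw_eq (ok b) hu hv, ← Lv.om, abs_le] at h1
  refine ⟨by linarith [h1.2], fun h => ?_⟩
  rw [Pr.sig_of_use (ok b) hu hv h] at h1
  linarith [h1.1]

end run

theorem statK {p : Pr} (ok : p.OK) (k : ℕ) : StatK (2 ^ 100) p.L k :=
  have h := Pr.stat ok k
  ⟨h.low, fun z hz => (h.hc z hz).trans (le_mul_of_one_le_left
      (upC_nonneg k (fun i _ => (Pr.inv ok i).S_nonneg) z) (by norm_num)),
    fun z hz => (h.hr z hz).trans (le_mul_of_one_le_left
      (upR_nonneg k (fun i _ => (Pr.inv ok i).S_nonneg) z) (by norm_num))⟩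

theorem randLog_of (hP : Parts) {A : Type} [Finite A] {lo hi : ℝ} (h1 : lo ≤ 1 / 3)
    (h2 : 1 / 2 ≤ hi) : RandLog A lo hi ⊆ SPACE A fun n => Real.log n * Real.log (Real.log n) :=
  randLog_subset_space (fun N => 2 ^ qex N) bud_le (fun N A0 g2 gS gd hN hA =>
    ⟨fun x k v => 2 ^ (B + 1) * (par (N x) (A0 x)).h k 0 false v,
      fun x k v => 2 ^ (B + 1) * (par (N x) (A0 x)).h k 0 true v,
      fun x k _ => statK (par_ok (g2 x) (gS x) (gd x)) k,
      oracle hP hN hA ((PBd.budget SP.id).mono fun _ => Nat.le_add_right _ _)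
        fun x => par_ok (g2 x) (gS x) (gd x)⟩) h1 h2

end FA

end Vale.Agent.P313.NL2
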