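import Vale.Agent.P313.Full.HiBasic
import Vale.Agent.P313.Full.Chr
import Vale.Agent.P313.NL.Sep

/-! Short labels for a family of candidates: a label is a modulus with the residues of both ends. -/

namespace Vale.Agent.P313.NL2

open Finset Vale.Agent.P313.Hi Vale.Agent.P313.Full

/-- The ramp `cl (4 t - i)`. -/
noncomputable def rp (i t : ℝ) : ℝ := cl (4 * t - i)

/-- The guard `cl (i - t)`. -/
noncomputable def dn (i t : ℝ) : ℝ := cl (i - t)

/-- The normaliser. -/
noncomputable def inv1 (z : ℝ) : ℝ := 1 / max 1 z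

/-- The end `d` has the residue which the label prescribes. -/
def okL (W lab : ℕ) (d : Bool) (x : ℕ) : Prop :=
  x % (lab % W + 1) = bif d then lab / W % W else lab / W / W

instance (W lab : ℕ) (d : Bool) (x : ℕ) : Decidable (okL W lab d x) :=
  inferInstanceAs (Decidable (_ = _))

theorem rp_nonneg (i t : ℝ) : 0 ≤ rp i t := cl_nonneg _
theorem rp_le_one (i t : ℝ) : rp i t ≤ 1 := cl_le_one _
theorem rp_eq_one {i t : ℝ} (h : i + 1 ≤ 4 * t) : rp i t = 1 := cl_of_ge (by linarith)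
theorem rp_eq_zero {i t : ℝ} (h : 4 * t ≤ i) : rp i t = 0 := cl_of_le (by linarith)
theorem lt_of_rp {i t : ℝ} (h : rp i t ≠ 0) : i < 4 * t := not_le.1 fun h' => h (rp_eq_zero h')
theorem dn_nonneg (i t : ℝ) : 0 ≤ dn i t := cl_nonneg _
theorem dn_le_one (i t : ℝ) : dn i t ≤ 1 := cl_le_one _
theorem dn_eq_one {i t : ℝ} (h : t + 1 ≤ i) : dn i t = 1 := cl_of_ge (by linarith)
theorem lt_of_dn {i t : ℝ} (h : dn i t ≠ 0) : t < i :=
  not_le.1 fun h' => h (cl_of_le (by linarith))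

theorem cl_pos {t : ℝ} (h : 0 < t) : 0 < cl t := lt_max_of_lt_right (lt_min one_pos h)

theorem exists_okL {W p x y : ℕ} (hp : 0 < p) (hW : p ≤ W) (d : Bool) :
    ∃ lab < W ^ 3, lab % W + 1 = p ∧ okL W lab d x ∧ okL W lab (!d) y := by
  have key : ∀ x y : ℕ, ∃ lab < W ^ 3, lab % W + 1 = p ∧ okL W lab true x ∧ okL W lab false y := by
    intro x y
    have hx : x % p < W := (Nat.mod_lt _ hp).trans_le hW
    have hy : y % p < W := (Nat.mod_lt _ hp).trans_le hW
    have h0 : 0 < W := by omega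
    have h1 : (p - 1 + W * (x % p + W * (y % p))) % W = p - 1 := by
      rw [Nat.add_mul_mod_self_left, Nat.mod_eq_of_lt (by omega)]
    have h2 : (p - 1 + W * (x % p + W * (y % p))) / W = x % p + W * (y % p) := by
      rw [Nat.add_mul_div_left _ _ h0, Nat.div_eq_of_lt (by omega), zero_add]
    refine ⟨p - 1 + W * (x % p + W * (y % p)), ?_, by omega, ?_, ?_⟩
    · have h3 : x % p + W * (y % p) + 1 ≤ W * W := by nlinarith
      have h4 := Nat.mul_le_mul_left W h3
      rw [pow_three]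
      nlinarith [Nat.sub_lt hp one_pos]
    · simp only [okL, h1, h2, cond_true, Nat.sub_add_cancel hp]
      rw [Nat.add_mul_mod_self_left, Nat.mod_eq_of_lt hx]
    · simp only [okL, h1, h2, cond_false, Nat.sub_add_cancel hp]
      rw [Nat.add_mul_div_left _ _ h0, Nat.div_eq_of_lt hx, zero_add]
  cases d
  · obtain ⟨lab, h1, h2, h3, h4⟩ := key y x
    exact ⟨lab, h1, h2, h4, h3⟩
  · exact key x y

/-- Candidates `u < nl` with a strength `f d u x` at the end `x` on the side `d` and the other end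
`en d u x`. -/
structure Cand where
  /-- the number of names -/
  n : ℕ
  /-- the number of candidates -/
  nl : ℕ
  /-- the strength -/
  f : Bool → ℕ → ℕ → ℝ
  /-- the other end -/
  en : Bool → ℕ → ℕ → ℕ

namespace Cand

variable (C : Cand) (W : ℕ)

/-- The candidates are moves. -/
structure Ok : Prop where
  nonneg : ∀ d u x, 0 ≤ C.f d u x
  le_one : ∀ d u x, C.f d u x ≤ 1
  lt : ∀ d, ∀ u < C.nl, ∀ x < C.n, C.f d u x ≠ 0 → C.en d u x < C.n
  inv : ∀ d, ∀ u < C.nl, ∀ x < C.n, C.f d u x ≠ 0 → C.en (!d) u (C.en d u x) = x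

/-- The weight of a candidate in the collision statistic. -/
noncomputable def A (d : Bool) (lab u x : ℕ) : ℝ :=
  rp 1 (C.f d u x) * if okL W lab (!d) (C.en d u x) then 1 else 0

/-- The weight of an end. -/
noncomputable def Y (d : Bool) (lab x y : ℕ) : ℝ :=
  ∑ u ∈ range C.nl, if C.en d u x = y then C.A W d lab u x else 0

/-- The collision statistic. -/
noncomputable def Q (d : Bool) (lab x : ℕ) : ℝ :=
  (∑ y ∈ range C.n, C.Y W d lab x y) ^ 2 - ∑ y ∈ range C.n, C.Y W d lab x y ^ 2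

/-- The test of the search. -/
noncomputable def F (d : Bool) (lab u x : ℕ) : ℝ :=
  dn 2 (C.Q W d lab x) * (rp 2 (C.f d u x) * if okL W lab (!d) (C.en d u x) then 1 else 0)

/-- The part of the quality at the other end. -/
noncomputable def far (d : Bool) (lab u y : ℕ) : ℝ :=
  (if okL W lab d y then 1 else 0) * (dn 1 (C.Q W d lab y) * rp 3 (C.f d u y))

/-- The quality of a label. -/
noncomputable def q (d : Bool) (lab x : ℕ) : ℝ :=
  (if okL W lab d x then 1 else 0) * (dn 1 (C.Q W d lab x) *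
    cl (∑ u ∈ range C.nl, rp 3 (C.f d u x) * C.far W (!d) lab u (C.en d u x)))

open Classical in
/-- The other end of a label. -/
noncomputable def pt (d : Bool) (lab x : ℕ) : ℕ :=
  if h : ∃ u < C.nl, C.F W d lab u x ≠ 0 then C.en d h.choose x else 0

/-- The total quality of the labels with the same ends. -/
noncomputable def Z (d : Bool) (lab x : ℕ) : ℝ :=
  ∑ l ∈ range (W ^ 3), (if okL W l (!d) (C.pt W d lab x) then 1 else 0) * C.q W d l x

/-- The normalised quality. -/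
noncomputable def om (d : Bool) (lab x : ℕ) : ℝ := C.q W d lab x * inv1 (C.Z W d lab x)

/-- The labels as candidates. -/
noncomputable def next : Cand := ⟨C.n, W ^ 3, C.q W, C.pt W⟩

variable {C W} {d : Bool} {lab u u' x y m : ℕ}

theorem A_nonneg : 0 ≤ C.A W d lab u x :=
  mul_nonneg (rp_nonneg _ _) (by split_ifs <;> norm_num)

theorem f_ne_of_A (h : C.A W d lab u x ≠ 0) : C.f d u x ≠ 0 := fun h0 =>
  h (by rw [A, h0, rp_eq_zero (by norm_num), zero_mul])

theorem Y_nonneg : 0 ≤ C.Y W d lab x y :=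
  sum_nonneg fun _ _ => by split_ifs; exacts [A_nonneg, le_rfl]

theorem A_le_Y (hu : u < C.nl) : C.A W d lab u x ≤ C.Y W d lab x (C.en d u x) := by
  refine le_trans (le_of_eq (if_pos rfl).symm) (single_le_sum
    (f := fun u' => if C.en d u' x = C.en d u x then C.A W d lab u' x else 0) (fun _ _ => ?_)
    (mem_range.2 hu))
  split_ifs
  exacts [A_nonneg, le_rfl]

theorem sum_Y (h : C.Ok) (hx : x < C.n) (g : ℕ → ℝ) : ∑ y ∈ range C.n, C.Y W d lab x y * g y =
    ∑ u ∈ range C.nl, C.A W d lab u x * g (C.en d u x) := by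
  simp only [Y, sum_mul]
  rw [sum_comm]
  refine sum_congr rfl fun u hu => ?_
  simp only [ite_mul, zero_mul, sum_ite_eq, mem_range]
  split_ifs with h1
  · rfl
  · by_cases h2 : C.A W d lab u x = 0
    · rw [h2, zero_mul]
    · exact absurd (h.lt d u (mem_range.1 hu) x hx (f_ne_of_A h2)) h1

/-- The collision statistic through characters. -/
theorem Q_eq (h : C.Ok) (hx : x < C.n) (hm : C.n ≤ 2 ^ m) : C.Q W d lab x =
    (∑ u ∈ range C.nl, C.A W d lab u x) ^ 2 - (∑ c ∈ range (2 ^ m),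
      (∑ u ∈ range C.nl, C.A W d lab u x * chr m c (C.en d u x)) ^ 2) / 2 ^ m := by
  have h1 := sum_Y (W := W) (d := d) (lab := lab) h hx fun _ => 1
  simp only [mul_one] at h1
  have h2 := avg_chr_sq (n := m) fun y => if y < C.n then C.Y W d lab x y else 0
  have h3 : ∀ g : ℕ → ℝ, ∑ y ∈ range (2 ^ m), (if y < C.n then g y else 0) =
      ∑ y ∈ range C.n, g y := fun g => by
    rw [← sum_filter]
    exact sum_congr (by ext y; simp only [mem_filter, mem_range]; omega) fun _ _ => rfl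
  simp only [ite_mul, zero_mul, ite_pow, ne_eq, OfNat.ofNat_ne_zero, not_false_eq_true, zero_pow,
    h3, sum_Y h hx] at h2
  rw [Q, h1, h2]

theorem Q_ge (h : C.Ok) (hx : x < C.n) (hu : u < C.nl) (hu' : u' < C.nl)
    (hne : C.en d u' x ≠ C.en d u x) :
    2 * (C.A W d lab u x * C.A W d lab u' x) ≤ C.Q W d lab x := by
  have h0 : 0 ≤ C.Q W d lab x := coll_nonneg fun _ _ => Y_nonneg
  by_cases h1 : C.A W d lab u x = 0
  · simpa [h1] using h0
  by_cases h2 : C.A W d lab u' x = 0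
  · simpa [h2] using h0
  refine le_trans ?_ (coll_ge (X := C.Y W d lab x) (fun _ _ => Y_nonneg)
    (mem_range.2 (h.lt d u hu x hx (f_ne_of_A h1))))
  refine mul_le_mul_of_nonneg_left (mul_le_mul (A_le_Y hu) ((A_le_Y hu').trans ?_) A_nonneg
    Y_nonneg) (by norm_num)
  exact single_le_sum (f := C.Y W d lab x) (fun _ _ => Y_nonneg)
    (mem_erase.2 ⟨hne, mem_range.2 (h.lt d u' hu' x hx (f_ne_of_A h2))⟩)

theorem Q_eq_zero (h : ∀ u < C.nl, C.A W d lab u x ≠ 0 → C.en d u x = y) : C.Q W d lab x = 0 := by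
  have h1 : ∀ z, z ≠ y → C.Y W d lab x z = 0 := fun z hz => sum_eq_zero fun u hu => by
    split_ifs with h2
    · by_contra h3
      exact hz (h2.symm.trans (h u (mem_range.1 hu) h3))
    · rfl
  rw [Q, coll_eq]
  refine sum_eq_zero fun z _ => ?_
  by_cases hz : z = y
  · rw [sum_eq_zero fun w hw => h1 w (hz ▸ (mem_erase.1 hw).1), mul_zero]
  · rw [h1 z hz, zero_mul]

theorem of_F (hF : C.F W d lab u x ≠ 0) :
    C.Q W d lab x < 2 ∧ 1 / 2 < C.f d u x ∧ okL W lab (!d) (C.en d u x) := by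
  obtain ⟨h1, h2⟩ := mul_ne_zero_iff.1 hF
  obtain ⟨h2, h3⟩ := mul_ne_zero_iff.1 h2
  exact ⟨lt_of_dn h1, by linarith [lt_of_rp h2], by simpa using h3⟩

theorem A_eq_one (h1 : 1 / 2 ≤ C.f d u x) (h2 : okL W lab (!d) (C.en d u x)) :
    C.A W d lab u x = 1 := by
  rw [A, if_pos h2, rp_eq_one (by linarith), mul_one]

/-- All candidates which pass the test have the same other end. -/
theorem en_eq_pt (h : C.Ok) (hx : x < C.n) (hu : u < C.nl) (hF : C.F W d lab u x ≠ 0) :
    C.en d u x = C.pt W d lab x := by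
  have h0 : ∃ u < C.nl, C.F W d lab u x ≠ 0 := ⟨u, hu, hF⟩
  rw [pt, dif_pos h0]
  by_contra hne
  have h1 := Q_ge (W := W) (lab := lab) h hx h0.choose_spec.1 hu hne
  obtain ⟨h2, h3, h4⟩ := of_F hF
  obtain ⟨-, h5, h6⟩ := of_F h0.choose_spec.2
  rw [A_eq_one h3.le h4, A_eq_one h5.le h6] at h1
  linarith

theorem F_eq_one (hQ : C.Q W d lab x ≤ 1) (hf : 3 / 4 ≤ C.f d u x)
    (ho : okL W lab (!d) (C.en d u x)) : C.F W d lab u x = 1 := by
  rw [F, dn_eq_one (by linarith), rp_eq_one (by linarith), if_pos ho]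
  norm_num

theorem far_nonneg : 0 ≤ C.far W d lab u y :=
  mul_nonneg (by split_ifs <;> norm_num) (mul_nonneg (dn_nonneg _ _) (rp_nonneg _ _))

theorem q_nonneg : 0 ≤ C.q W d lab x :=
  mul_nonneg (by split_ifs <;> norm_num) (mul_nonneg (dn_nonneg _ _) (cl_nonneg _))

theorem q_le_one : C.q W d lab x ≤ 1 :=
  mul_le_one₀ (by split_ifs <;> norm_num) (mul_nonneg (dn_nonneg _ _) (cl_nonneg _))
    (mul_le_one₀ (dn_le_one _ _) (cl_nonneg _) (cl_le_one _))

/-- What a label with positive quality guarantees. -/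
structure Wit (C : Cand) (W : ℕ) (d : Bool) (lab u x y : ℕ) : Prop where
  lt : u < C.nl
  hx : x < C.n
  hy : y < C.n
  en : C.en d u x = y
  en' : C.en (!d) u y = x
  ok : okL W lab d x
  ok' : okL W lab (!d) y
  Q : C.Q W d lab x < 1
  Q' : C.Q W (!d) lab y < 1
  f : 3 / 4 < C.f d u x
  f' : 3 / 4 < C.f (!d) u y

theorem Wit.symm (w : Wit C W d lab u x y) : Wit C W (!d) lab u y x :=
  ⟨w.lt, w.hy, w.hx, w.en', by simpa using w.en, w.ok', by simpa using w.ok, w.Q',
    by simpa using w.Q, w.f', by simpa using w.f⟩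

theorem Wit.F (w : Wit C W d lab u x y) : C.F W d lab u x = 1 :=
  F_eq_one w.Q.le w.f.le (w.en ▸ w.ok')

theorem Wit.pt (h : C.Ok) (w : Wit C W d lab u x y) : C.pt W d lab x = y :=
  (en_eq_pt h w.hx w.lt (by rw [w.F]; norm_num)).symm.trans w.en

/-- The other candidates with the same residue are weak. -/
theorem Wit.iso (h : C.Ok) (w : Wit C W d lab u x y) (hu' : u' < C.nl)
    (ho : okL W lab (!d) (C.en d u' x)) (hne : C.en d u' x ≠ y) : C.f d u' x < 1 / 2 := by
  by_contra h1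
  have h2 := Q_ge (W := W) (lab := lab) h w.hx w.lt hu' (w.en ▸ hne)
  rw [A_eq_one (by linarith [w.f]) (w.en ▸ w.ok'), A_eq_one (not_lt.1 h1) ho] at h2
  linarith [w.Q]

theorem Wit.q_pos (w : Wit C W d lab u x y) : 0 < C.q W d lab x := by
  have h1 : ∀ {t : ℝ}, 3 / 4 < t → 0 < rp 3 t := fun h => cl_pos (by linarith)
  have h2 : ∀ {t : ℝ}, t < 1 → 0 < dn 1 t := fun h => cl_pos (by linarith)
  rw [q, if_pos w.ok, one_mul]
  refine mul_pos (h2 w.Q) (cl_pos (sum_pos' (fun _ _ => mul_nonneg (rp_nonneg _ _) far_nonneg)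
    ⟨u, mem_range.2 w.lt, mul_pos (h1 w.f) ?_⟩))
  rw [w.en, far, if_pos w.ok', one_mul]
  exact mul_pos (h2 w.Q') (h1 w.f')

theorem wit_of_q (h : C.Ok) (hx : x < C.n) (hq : C.q W d lab x ≠ 0) :
    ∃ u, Wit C W d lab u x (C.pt W d lab x) := by
  obtain ⟨h1, h2⟩ := mul_ne_zero_iff.1 hq
  obtain ⟨h2, h3⟩ := mul_ne_zero_iff.1 h2
  obtain ⟨u, hu, h4⟩ := exists_ne_zero_of_sum_ne_zero fun h0 => h3 (cl_of_le h0.le)
  obtain ⟨h4, h5⟩ := mul_ne_zero_iff.1 h4
  obtain ⟨h5, h6⟩ := mul_ne_zero_iff.1 h5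
  obtain ⟨h6, h7⟩ := mul_ne_zero_iff.1 h6
  have h8 : 3 / 4 < C.f d u x := by linarith [lt_of_rp h4]
  have h9 : C.f d u x ≠ 0 := by linarith
  have w : Wit C W d lab u x (C.en d u x) := ⟨mem_range.1 hu, hx, h.lt d u (mem_range.1 hu) x hx h9,
    rfl, h.inv d u (mem_range.1 hu) x hx h9, by simpa using h1, by simpa using h5, lt_of_dn h2,
    lt_of_dn h6, h8, by linarith [lt_of_rp h7]⟩
  exact ⟨u, (w.pt h).symm ▸ w⟩

theorem Ok.next (h : C.Ok) (W : ℕ) : (C.next W).Ok where
  nonneg _ _ _ := q_nonneg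
  le_one _ _ _ := q_le_one
  lt _ _ _ _ hx hq := (wit_of_q h hx hq).choose_spec.hy
  inv _ _ _ _ hx hq := (wit_of_q h hx hq).choose_spec.symm.pt h

theorem q_eq_one (w : Wit C W d lab u x y) (h1 : C.Q W d lab x = 0) (h2 : C.Q W (!d) lab y = 0)
    (h3 : C.f d u x = 1) (h4 : C.f (!d) u y = 1) : C.q W d lab x = 1 := by
  rw [q, if_pos w.ok, h1, dn_eq_one (by norm_num), cl_of_ge, mul_one, mul_one]
  refine le_trans (le_of_eq ?_) (single_le_sum (f := fun u => rp 3 (C.f d u x) *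
    C.far W (!d) lab u (C.en d u x)) (fun _ _ => mul_nonneg (rp_nonneg _ _) far_nonneg)
    (mem_range.2 w.lt))
  rw [w.en, far, if_pos w.ok', h2, h3, h4, dn_eq_one (by norm_num), rp_eq_one (by norm_num)]
  norm_num

/-- A perfect candidate has a perfect label if there are few ends. -/
theorem exists_lab (h : C.Ok) (hm : C.n ≤ 2 ^ m) {R : ℕ} (hW : 2 * (m * (2 * R) ^ 2 + 1) ≤ W)
    (hx : x < C.n) (hu : u < C.nl) (h1 : C.f d u x = 1) (hy : C.en d u x = y)
    (h2 : C.f (!d) u y = 1) (s t : Finset ℕ) (hs : #s ≤ R) (ht : #t ≤ R)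
    (hs' : ∀ u < C.nl, 1 / 4 < C.f d u x → C.en d u x ∈ s)
    (ht' : ∀ u < C.nl, 1 / 4 < C.f (!d) u y → C.en (!d) u y ∈ t) :
    ∃ lab < W ^ 3, C.q W d lab x = 1 ∧ C.q W (!d) lab y = 1 ∧ C.pt W d lab x = y := by
  have hy' : y < C.n := hy ▸ h.lt d u hu x hx (by rw [h1]; norm_num)
  have hx' : C.en (!d) u y = x := hy ▸ h.inv d u hu x hx (by rw [h1]; norm_num)
  obtain ⟨p, hp, hp1, hp2⟩ := NL.exists_sep {z ∈ s ∪ t | z < C.n} id (m := m) (R := 2 * R)
    ((card_filter_le _ _).trans ((card_union_le _ _).trans (by omega)))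
    fun i hi => (mem_filter.1 hi).2.trans_le hm
  obtain ⟨lab, hl, e, o1, o2⟩ := exists_okL (x := x) (y := y) hp (hp1.trans hW) d
  have key : ∀ {d x y} {s' : Finset ℕ}, s' ⊆ s ∪ t → x < C.n → C.f d u x = 1 → C.en d u x = y →
      okL W lab (!d) y → (∀ u < C.nl, 1 / 4 < C.f d u x → C.en d u x ∈ s') →
      C.Q W d lab x = 0 := by
    intro d x y s' h3 hx h4 h5 h6 h7
    refine Q_eq_zero (y := y) fun u' hu' h8 => ?_
    obtain ⟨h8, h9⟩ := mul_ne_zero_iff.1 h8
    have h10 : 1 / 4 < C.f d u' x := by linarith [lt_of_rp h8]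
    have h11 : okL W lab (!d) (C.en d u' x) := by simpa using h9
    refine hp2 _ (mem_filter.2 ⟨h3 (h7 u' hu' h10), h.lt d u' hu' x hx (by linarith)⟩) y
      (h5 ▸ mem_filter.2 ⟨h3 (h7 u hu (by linarith)), h.lt d u hu x hx (by linarith)⟩) ?_
    rw [← e]
    exact h11.trans h6.symm
  have q1 := key subset_union_left hx h1 hy o2 hs'
  have q2 := key subset_union_right hy' h2 hx' (by simpa using o1) ht'
  have w : Wit C W d lab u x y := ⟨hu, hx, hy', hy, hx', o1, o2, by linarith, by linarith,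
    by linarith, by linarith⟩
  exact ⟨lab, hl, q_eq_one w q1 q2 h1 h2,
    q_eq_one w.symm q2 (by simpa using q1) h2 (by simpa using h1), w.pt h⟩

theorem inv1_nonneg (z : ℝ) : 0 ≤ inv1 z := by
  unfold inv1
  positivity

theorem inv1_le_one (z : ℝ) : inv1 z ≤ 1 :=
  (div_le_one (lt_max_of_lt_left one_pos)).2 (le_max_left _ _)

theorem abs_inv1_sub (y z : ℝ) : |inv1 y - inv1 z| ≤ |y - z| := by
  have h1 : 1 ≤ max 1 y := le_max_left _ _
  have h2 : 1 ≤ max 1 z := le_max_left _ _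
  have h3 : |max 1 z - max 1 y| ≤ |y - z| := by
    rw [abs_sub_comm]
    exact (abs_max_sub_max_le_max _ _ _ _).trans (max_le (by simp) le_rfl)
  rw [inv1, inv1, div_sub_div _ _ (by positivity) (by positivity), one_mul, mul_one, abs_div]
  refine (div_le_self (abs_nonneg _) ?_).trans h3
  rw [abs_of_pos (by positivity)]
  exact one_le_mul_of_one_le_of_one_le h1 h2

theorem om_nonneg : 0 ≤ C.om W d lab x := mul_nonneg q_nonneg (inv1_nonneg _)

theorem om_le_q : C.om W d lab x ≤ C.q W d lab x := mul_le_of_le_one_right q_nonneg (inv1_le_one _)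

theorem q_ne_of_om (h : C.om W d lab x ≠ 0) : C.q W d lab x ≠ 0 := left_ne_zero_of_mul h

theorem Z_eq (h : C.Ok) (hx : x < C.n) (hq : C.q W d lab x ≠ 0) : C.Z W d lab x =
    ∑ l ∈ range (W ^ 3), if C.pt W d l x = C.pt W d lab x then C.q W d l x else 0 := by
  refine sum_congr rfl fun l _ => ?_
  by_cases h1 : C.q W d l x = 0
  · simp [h1]
  obtain ⟨u, w⟩ := wit_of_q h hx hq
  obtain ⟨u', w'⟩ := wit_of_q h hx h1
  rw [ite_mul, one_mul, zero_mul]
  refine if_congr ⟨fun h2 => ?_, fun h2 => h2 ▸ w'.ok'⟩ rfl rfl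
  by_contra h3
  have := w'.iso h w.lt (w.en.symm ▸ h2) fun h4 => h3 (h4.symm.trans w.en)
  linarith [w.f]

/-- The normalised qualities of the labels with given ends add up to one. -/
theorem sum_om (h : C.Ok) (hx : x < C.n) (hl : lab < W ^ 3) (hq : C.q W d lab x = 1)
    (hy : C.pt W d lab x = y) :
    ∑ l ∈ range (W ^ 3), (if C.pt W d l x = y then C.om W d l x else 0) = 1 := by
  set z := ∑ l ∈ range (W ^ 3), if C.pt W d l x = y then C.q W d l x else 0 with hz
  have h1 : 1 ≤ z := by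
    refine le_trans (le_of_eq ?_) (single_le_sum (f := fun l => if C.pt W d l x = y then
      C.q W d l x else 0) (fun _ _ => ?_) (mem_range.2 hl))
    · rw [if_pos hy, hq]
    · split_ifs
      exacts [q_nonneg, le_rfl]
  have h2 : ∀ l ∈ range (W ^ 3), (if C.pt W d l x = y then C.om W d l x else 0) =
      (if C.pt W d l x = y then C.q W d l x else 0) * (1 / z) := by
    intro l _
    split_ifs with h3
    · by_cases h4 : C.q W d l x = 0
      · simp [om, h4]
      · rw [om, Z_eq h hx h4, h3, ← hz, inv1, max_eq_right h1]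
    · rw [zero_mul]
  rw [sum_congr rfl h2, ← sum_mul, ← hz, mul_one_div_cancel (by linarith)]

/-- Sums over labels are sums over ends. -/
theorem sum_om_mul (h : C.Ok) (hx : x < C.n) (g : ℕ → ℝ)
    (hg : ∀ y < C.n, g y ≠ 0 → ∃ lab < W ^ 3, C.q W d lab x = 1 ∧ C.pt W d lab x = y) :
    ∑ l ∈ range (W ^ 3), C.om W d l x * g (C.pt W d l x) = ∑ y ∈ range C.n, g y := by
  have h1 : ∀ l ∈ range (W ^ 3), C.om W d l x * g (C.pt W d l x) =
      ∑ y ∈ range C.n, (if C.pt W d l x = y then C.om W d l x else 0) * g y := by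
    intro l _
    simp only [ite_mul, zero_mul, sum_ite_eq, mem_range]
    split_ifs with h2
    · rfl
    · by_cases h3 : C.om W d l x = 0
      · rw [h3, zero_mul]
      · exact absurd (wit_of_q h hx (q_ne_of_om h3)).choose_spec.hy h2
  rw [sum_congr rfl h1, sum_comm]
  refine sum_congr rfl fun y hy => ?_
  by_cases h2 : g y = 0
  · simp [h2]
  · obtain ⟨lab, hl, h3, h4⟩ := hg y (mem_range.1 hy) h2
    rw [← sum_mul, sum_om h hx hl h3 h4, one_mul]

end Cand

end Vale.Agent.P313.NL2
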