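import Vale.Agent.P313.NL2.Ideal
import Vale.Agent.P313.Full.HiMg

/-! The ideal tables: recursion, bounds, invariants, visibility of the usable entries. -/

namespace Vale.Agent.P313.NL2.Pr

open Finset Vale.Agent.P313.Hi Vale.Agent.P313.NL

variable {p : Pr} {k g x y v : ℕ} {d : Bool}

section loc

variable {η η' : ℕ → ℕ → Bool → ℕ → ℝ}

theorem ia_Le : ∀ k, (∀ i ≤ k, η i = η' i) → p.Le η k = p.Le η' k
  | 0, h => by simp only [Le, lv, h 0 le_rfl]
  | k + 1, h => by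
    have := ia_Le k fun i hi => h i (by omega)
    simp only [Le, lv, h _ le_rfl] at this ⊢
    rw [this]

theorem ia_we : ∀ k, (∀ i < k, η i = η' i) → p.we η k = p.we η' k
  | 0, _ => rfl
  | k + 1, h => by
    funext x y
    change ((p.Le η k).step 0 0).S x y * _ = ((p.Le η' k).step 0 0).S x y * _
    rw [ia_Le k fun i hi => h i (by omega)]

theorem ia_taue : ∀ k, (∀ i < k, η i = η' i) → p.taue η k = p.taue η' k
  | 0, _ => rfl
  | k + 1, h => by
    funext g x y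
    simp only [taue, ia_we (k + 1) h, ia_we k fun i hi => h i (by omega),
      ia_taue k fun i hi => h i (by omega), h k (by omega)]

theorem ia_Hn (h : ∀ i < k, η i = η' i) : p.Hn η k = p.Hn η' k := by
  funext g d v
  have h1 : p.preve η k g d v = p.preve η' k g d v := by
    unfold preve
    split_ifs with h0
    · rfl
    · rw [h (k - 1) (by have : k ≠ 0 := fun e => h0 (.inl e); omega)]
  simp only [Hn, sge, mue, ia_we k h, ia_taue k h, h1]

end loc

theorem h_eq (p : Pr) (k g : ℕ) (d : Bool) (v : ℕ) :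
    p.h k g d v = min 1 (max (p.sg k g d v / 2 ^ (B + 1)) (p.prev k g d v)) := by
  rw [h, ia_Hn (η' := p.h) fun i hi => dif_pos hi]
  rfl

theorem L_n (p : Pr) (k : ℕ) : (p.L k).n = p.n k := lv_nm _ _ _ _ _ _ k

theorem L_hc (p : Pr) (k v : ℕ) : (p.L k).hc v = 2 ^ (B + 1) * p.h k 0 false v :=
  congrFun (lv_hc _ _ _ _ _ _ k) v

theorem L_hr (p : Pr) (k v : ℕ) : (p.L k).hr v = 2 ^ (B + 1) * p.h k 0 true v :=
  congrFun (lv_hr _ _ _ _ _ _ k) v

theorem ia_h0 (p : Pr) : ∀ k g d v, 0 ≤ p.h k g d v := fun k => by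
  induction k using Nat.strong_induction_on with
  | _ k ih =>
    intro g d v
    rw [h_eq]
    refine le_min zero_le_one (le_max_of_le_right ?_)
    unfold prev preve
    split_ifs with h0
    · rfl
    · exact mul_nonneg zero_le_two
        (ih _ (by have : k ≠ 0 := fun e => h0 (.inl e); omega) _ _ _)

theorem ia_of_lt (h : p.h k g d v < 1) :
    p.sg k g d v / 2 ^ (B + 1) ≤ p.h k g d v ∧ p.prev k g d v ≤ p.h k g d v := by
  rw [h_eq] at h ⊢
  rw [min_eq_right (min_lt_iff.1 h |>.resolve_left (lt_irrefl _)).le]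
  exact ⟨le_max_left _ _, le_max_right _ _⟩

theorem ia_cl (t : ℝ) : 0 ≤ cl t ∧ cl t ≤ 1 := ⟨cl_nonneg t, cl_le_one t⟩

theorem ia_mul {s t : ℝ} (hs : 0 ≤ s ∧ s ≤ 1) (ht : 0 ≤ t ∧ t ≤ 1) : 0 ≤ s * t ∧ s * t ≤ 1 :=
  ⟨mul_nonneg hs.1 ht.1, mul_le_one₀ hs.2 ht.1 ht.2⟩

theorem sig_mem (p : Pr) (k g x y : ℕ) : 0 ≤ p.sig k g x y ∧ p.sig k g x y ≤ 1 := by
  refine ia_mul (ia_mul (ia_cl _) ?_) (ia_mul (ia_cl _) (ia_cl _))
  split_ifs
  exacts [ia_cl _, ⟨zero_le_one, le_rfl⟩]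

theorem tau_mem (p : Pr) (k g x y : ℕ) : 0 ≤ p.tau k g x y ∧ p.tau k g x y ≤ 1 := by
  cases k <;> simp only [tau, taue] <;> split_ifs
  exacts [ia_cl _, ⟨le_rfl, zero_le_one⟩, ia_cl _, p.sig_mem _ _ _ _, ⟨le_rfl, zero_le_one⟩]

theorem st_of_tau (h : p.tau k g x y ≠ 0) : p.st k g x y := by
  by_contra hc
  cases k <;> exact h (if_neg hc)

theorem ia_pos {t : ℝ} (h : cl t ≠ 0) : 0 < t := not_le.1 fun hc => h (cl_of_le hc)

theorem tau_of_sig (h : p.sig k g x y ≠ 0) : 7 / 8 < p.tau k g x y := by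
  linarith [ia_pos (left_ne_zero_of_mul (left_ne_zero_of_mul h))]

theorem tau_of_mu (h : p.mu k g x y ≠ 0) : 3 / 4 < p.tau k g x y := by
  linarith [ia_pos (left_ne_zero_of_mul h)]

theorem tau_new (hs : p.st k g x y) (h : p.new true k x) :
    p.tau k g x y = r0 (sc g (p.w k x y)) := by
  cases k with
  | zero => exact if_pos hs
  | succ k => exact (if_pos hs).trans (if_pos (h.resolve_left (Nat.succ_ne_zero k)))

theorem tau_old (hs : p.st (k + 1) g x y) (h : ¬p.mrg true k x) :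
    p.tau (k + 1) g x y = p.sig k (g + 1) (x % p.n k) (y % p.n k) :=
  (if_pos hs).trans (if_neg h)

theorem ia_vo (hx : x < p.n k) : (p.L k).vo x = p.v true k x := lv_vo hx

theorem ia_vi (hy : y < p.n k) : (p.L k).vi y = p.v false k y := lv_vi hy

theorem ia_ell (p : Pr) (k x y : ℕ) : p.ell k x y = max (p.v true k x).l (p.v false k y).l := rfl

theorem ia_gap (p : Pr) (k x y : ℕ) : p.gap k x y =
    ((p.v true k x).l - (p.v false k y).l) + ((p.v false k y).l - (p.v true k x).l) := rfl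

theorem ia_w (p : Pr) (k x y : ℕ) : p.w k x y = (p.L k).S x y * 2 ^ p.ell k x y := rfl

theorem ia_l (p : Pr) (d : Bool) (k x : ℕ) : (p.v d k (x % p.n k)).l ≤ (p.v d (k + 1) x).l ∧
    (p.v d (k + 1) x).l ≤ (p.v d k (x % p.n k)).l + B := by
  have h := vw_l_add d p.N p.n0 p.K x k 1
  rwa [mul_one, ← vw_mod d _ _ _ x (le_refl k)] at h

section inv

variable (hI : Inv p.N (2 ^ p.n0) p.K k (p.L k))
include hI

theorem ia_wm (hx : x < p.n k) (hy : y < p.n k) : 0 ≤ p.w k x y ∧ p.w k x y ≤ 1 := by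
  refine ⟨mul_nonneg (hI.S_nonneg _ _) (by positivity), ?_⟩
  have := hI.val x y
  rwa [ia_vo hx, ia_vi hy] at this

theorem ia_sy (hx : x < p.n k) (hy : y < p.n k) (hS : (p.L k).S x y ≠ 0)
    (hw : (p.v true k x).wt = false) : (p.v true k x).l = (p.v false k y).l := by
  have := hI.sy x y hS
  rw [ia_vo hx, ia_vi hy] at this
  exact (this.1 hw).1

theorem ia_step (hx : x < p.n (k + 1)) (hy : y < p.n (k + 1)) (hS : (p.L (k + 1)).S x y ≠ 0) :
    p.ft (k + 1) x y ∧ (¬p.mrg true k x → (p.L k).S (x % p.n k) (y % p.n k) ≠ 0 ∧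
      (p.L (k + 1)).S x y ≤ (p.L k).S (x % p.n k) (y % p.n k)) := by
  have e := lv_S_succ p.N p.n0 p.K p.A0 (fun k v => 2 ^ (B + 1) * p.h k 0 false v)
    (fun k v => 2 ^ (B + 1) * p.h k 0 true v) k x y
  rw [Nat.mod_eq_of_lt (b := nm _ _) hx, Nat.mod_eq_of_lt (b := nm _ _) hy] at e
  change (p.L (k + 1)).S x y = _ at e
  split_ifs at e with h1
  swap
  · exact absurd e hS
  refine ⟨h1, fun hm => ?_⟩
  have h2 : (p.L (k + 1)).S x y ≤ (p.L k).S (x % p.n k) (y % p.n k) := by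
    rw [e]
    refine (div_le_self (Lv.T_nonneg hI.S_nonneg _ _ _) (one_le_pow₀ one_le_two)).trans ?_
    unfold Lv.T
    split_ifs with h3 h4
    · exact Nb_le_S (hI.S_nonneg _ _)
    · exact (sub_le_self _ (Lv.Cm_nonneg hI.S_nonneg _ _)).trans (Lv.Fb_le_S hI.S_nonneg _ _)
    · exact absurd (by
        change ((dg p.n0 k x).ed true).2.2.1 = 2
        omega) hm
  refine ⟨fun h0 => hS (le_antisymm (h2.trans_eq h0) ?_), h2⟩
  rw [e]
  exact div_nonneg (Lv.T_nonneg hI.S_nonneg _ _ _) (by positivity)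

end inv

variable (p) in
/-- Heavy entries whose ends are not overloaded are visible. -/
def ia_Ext (k : ℕ) : Prop := ∀ g x y, x < p.n k → y < p.n k → (p.L k).S x y ≠ 0 →
  p.gap k x y ≤ B * g → 1 ≤ p.w k x y * 2 ^ ((B + 2) * g) * 2 ^ (B + 1) →
  p.h k g true x ≤ 1 / 2 → p.h k g false y ≤ 1 / 2 → p.tau k g x y = 1 ∧ p.sig k g x y = 1

theorem ia_sc {w : ℝ} (h : 1 ≤ w * 2 ^ ((B + 2) * g) * 2 ^ (B + 1)) :
    1 ≤ sc g w * 2 ^ (B + 1) := by
  rw [sc, min_mul_of_nonneg _ _ (by positivity), one_mul]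
  exact le_min (one_le_pow₀ one_le_two) h

theorem ia_r0 {w : ℝ} (h : 1 ≤ w * 2 ^ ((B + 2) * g) * 2 ^ (B + 1)) : r0 (sc g w) = 1 := by
  refine cl_of_ge ?_
  rw [show B + 4 = B + 1 + 3 from rfl, pow_add _ (B + 1)]
  linarith [ia_sc h]

theorem ia_sig (h : 1 ≤ p.w k x y * 2 ^ ((B + 2) * g) * 2 ^ (B + 1)) (h1 : p.h k g true x ≤ 1 / 2)
    (h2 : p.h k g false y ≤ 1 / 2) (ht : p.tau k g x y = 1) :
    p.tau k g x y = 1 ∧ p.sig k g x y = 1 := by
  have e1 : r1 (sc g (p.w k x y)) = 1 := cl_of_ge (by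
    rw [show B + 2 = B + 1 + 1 from rfl, pow_succ _ (B + 1)]
    linarith [ia_sc h])
  have e2 : ∀ t : ℝ, t ≤ 1 / 2 → rd t = 1 := fun t h => cl_of_ge (by linarith)
  refine ⟨ht, ?_⟩
  change sgF g (p.tau k g x y) (p.w k x y) * _ = 1
  rw [ht, sgF, e1, e2 _ h1, e2 _ h2, cl_of_ge (by norm_num), ite_self]
  norm_num

theorem ia_ext0 : p.ia_Ext 0 := fun _ _ _ hx hy _ hg hw h1 h2 =>
  ia_sig hw h1 h2 ((tau_new ⟨hx, hy, hg, trivial⟩ (.inl rfl)).trans (ia_r0 hw))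

theorem ia_prev (hm : ¬p.mrg d k x) (h : p.h (k + 1) g d x ≤ 1 / 2) :
    p.h k (g + 1) d (x % p.n k) ≤ 1 / 2 := by
  have h1 := (ia_of_lt (h.trans_lt (by norm_num))).2
  have h2 : p.prev (k + 1) g d x = 2 * p.h k (g + 1) d (x % p.n k) :=
    if_neg fun h0 => hm (h0.resolve_left (Nat.succ_ne_zero k))
  linarith [p.ia_h0 k (g + 1) d (x % p.n k)]

theorem ia_ext (hI : Inv p.N (2 ^ p.n0) p.K k (p.L k)) (hE : p.ia_Ext k) : p.ia_Ext (k + 1) := by
  intro g x y hx hy hS hg hw h1 h2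
  obtain ⟨hf, h3⟩ := ia_step hI hx hy hS
  refine ia_sig hw h1 h2 ?_
  by_cases hm : p.mrg true k x
  · exact (tau_new ⟨hx, hy, hg, hf⟩ (.inr hm)).trans (ia_r0 hw)
  obtain ⟨h4, h5⟩ := h3 hm
  have a1 := p.ia_l true k x
  have a2 := p.ia_l false k y
  refine (tau_old ⟨hx, hy, hg, hf⟩ hm).trans (hE _ (x % p.n k) (y % p.n k) (mod_nm_lt _ _ _)
    (mod_nm_lt _ _ _) h4 ?_ (hw.trans ?_) (ia_prev hm h1) (ia_prev (fun h => hm ?_) h2)).2
  · rw [ia_gap] at hg ⊢
    rw [mul_add]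
    omega
  · have h6 : (2 : ℝ) ^ p.ell (k + 1) x y ≤ 2 ^ (p.ell k (x % p.n k) (y % p.n k) + (B + 2)) :=
      pow_le_pow_right₀ one_le_two (by rw [ia_ell, ia_ell]; omega)
    have h7 := mul_le_mul h5 h6 (by positivity) (hI.S_nonneg _ _)
    refine mul_le_mul_of_nonneg_right ((mul_le_mul_of_nonneg_right h7 (by positivity)).trans_eq ?_)
      (by positivity)
    rw [ia_w, mul_add_one, pow_add, pow_add]
    ring
  · exact (congrArg Prod.fst hf.2.2.1).trans h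

theorem ia_use (hI : Inv p.N (2 ^ p.n0) p.K k (p.L k)) (hE : p.ia_Ext k) (hx : x < p.n k)
    (hy : y < p.n k) (h : (p.L k).use x y) : p.h k 0 true x < 1 / 2 ∧ p.h k 0 false y < 1 / 2 ∧
      p.tau k 0 x y = 1 ∧ p.sig k 0 x y = 1 := by
  obtain ⟨h1, h2, h3⟩ := h
  have e : ∀ t : ℝ, 2 ^ (B + 1) * t < 2 ^ B → t < 1 / 2 := fun t ht => by
    have h0 : (0 : ℝ) < 2 ^ B := by positivity
    rw [pow_succ] at ht
    nlinarith
  rw [L_hr] at h2
  rw [L_hc] at h3
  rw [Lv.rdy, ia_vo hx] at h1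
  split_ifs at h1 with hw
  swap
  · exact absurd rfl h1
  have h4 := ia_pos h1
  have hS : (p.L k).S x y ≠ 0 := fun h0 => by
    rw [h0] at h4
    norm_num at h4
  have h5 := ia_sy hI hx hy hS hw
  refine ⟨e _ h2, e _ h3, hE 0 x y hx hy hS (by rw [ia_gap]; omega) ?_ (e _ h2).le (e _ h3).le⟩
  rw [ia_w, ia_ell, ← h5, max_self, mul_zero, pow_zero, mul_one]
  linarith

open Classical in
theorem ia_low (hI : Inv p.N (2 ^ p.n0) p.K k (p.L k)) (hE : p.ia_Ext k) : (p.L k).Low := by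
  have key : ∀ d, ∀ v < p.n k, ∑ f ∈ range (p.n k) with sw d (p.L k).use v f, sw d (p.L k).S v f ≤
      2 * (2 ^ (B + 1) * p.h k 0 d v) := fun d v hv => by
    have h0 : 0 ≤ 2 ^ (B + 1) * p.h k 0 d v := mul_nonneg (by positivity) (p.ia_h0 _ _ _ _)
    rcases (filter (fun f => sw d (p.L k).use v f) (range (p.n k))).eq_empty_or_nonempty with
      he | ⟨f, hf⟩
    · rw [he, sum_empty]
      positivity
    have h1 : p.h k 0 d v < 1 := by
      obtain ⟨h2, h3⟩ := mem_filter.1 hf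
      cases d
      · linarith [(ia_use hI hE (mem_range.1 h2) hv h3).2.1]
      · linarith [(ia_use hI hE hv (mem_range.1 h2) h3).1]
    have h2 := (ia_of_lt h1).1
    rw [div_le_iff₀' (by positivity)] at h2
    refine le_trans (le_trans ?_ h2) (by linarith)
    have h3 : ∀ x < p.n k, ∀ y < p.n k, (if (p.L k).use x y then (p.L k).S x y else 0) ≤
        p.mu k 0 x y / 2 ^ (p.ell k x y + cc * 0) := fun x hx y hy => by
      have hw := ia_wm hI hx hy
      have e : p.mu k 0 x y = cl (4 * p.tau k 0 x y - 3) * p.w k x y := by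
        change muF 0 (p.tau k 0 x y) (p.w k x y) = _
        rw [muF, if_pos (show tA 0 from .inl rfl), sc, mul_zero, pow_zero, mul_one, min_eq_right hw.2]
      rw [e]
      split_ifs with h4
      · rw [(ia_use hI hE hx hy h4).2.2.1, cl_of_ge (by norm_num), one_mul, ia_w, mul_zero, add_zero,
          mul_div_cancel_right₀ _ (by positivity)]
      · exact div_nonneg (mul_nonneg (cl_nonneg _) hw.1) (by positivity)
    rw [sum_filter]
    refine sum_le_sum fun u hu => ?_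
    cases d
    exacts [h3 _ (mem_range.1 hu) _ hv, h3 _ hv _ (mem_range.1 hu)]
  constructor
  · intro z hz
    rw [L_n] at hz ⊢
    rw [L_hc]
    exact key false z hz
  · intro z hz
    rw [L_n] at hz ⊢
    rw [L_hr]
    exact key true z hz

theorem ia_all (ok : p.OK) : ∀ k, Inv p.N (2 ^ p.n0) p.K k (p.L k) ∧ p.ia_Ext k
  | 0 => ⟨inv0 p.K ok.sub ok.hN _ _, ia_ext0⟩
  | k + 1 => ⟨(ia_all ok k).1.step (ia_low (ia_all ok k).1 (ia_all ok k).2) _ _,
      ia_ext (ia_all ok k).1 (ia_all ok k).2⟩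

theorem inv (ok : p.OK) (k : ℕ) : Inv p.N (2 ^ p.n0) p.K k (p.L k) := (ia_all ok k).1

theorem low (ok : p.OK) (k : ℕ) : (p.L k).Low := ia_low (ia_all ok k).1 (ia_all ok k).2

set_option linter.unusedVariables false in
theorem h_mem (ok : p.OK) (k g : ℕ) (d : Bool) (v : ℕ) : 0 ≤ p.h k g d v ∧ p.h k g d v ≤ 1 :=
  ⟨p.ia_h0 k g d v, (p.h_eq k g d v).trans_le (min_le_left _ _)⟩

theorem w_mem (ok : p.OK) (hx : x < p.n k) (hy : y < p.n k) : 0 ≤ p.w k x y ∧ p.w k x y ≤ 1 :=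
  ia_wm (inv ok k) hx hy

theorem ia_st (h : p.sig k g x y ≠ 0) : p.st k g x y :=
  st_of_tau (lt_trans (by norm_num) (tau_of_sig h)).ne'

theorem rw_mem (ok : p.OK) (k x y : ℕ) : 0 ≤ p.rw k x y ∧ p.rw k x y ≤ 1 := by
  unfold rw
  split_ifs
  · by_cases h : p.sig k 0 x y = 0
    · simp [h]
    · exact ia_mul (ia_mul (w_mem ok (ia_st h).1 (ia_st h).2.1) (ia_cl _)) (p.sig_mem _ _ _ _)
  · exact ⟨le_rfl, zero_le_one⟩

theorem sig_of_use (ok : p.OK) (hx : x < p.n k) (hy : y < p.n k) (h : (p.L k).use x y) :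
    p.sig k 0 x y = 1 := (ia_use (ia_all ok k).1 (ia_all ok k).2 hx hy h).2.2.2

/-- `S * rdy * sig` -/
theorem rw_eq (ok : p.OK) (hx : x < p.n k) (hy : y < p.n k) :
    p.rw k x y / 2 ^ p.ell k x y = (p.L k).S x y * (p.L k).rdy x y * p.sig k 0 x y := by
  rw [rw, Lv.rdy, ia_vo hx, ia_w]
  split_ifs with hw
  · by_cases hS : (p.L k).S x y = 0
    · simp [hS]
    · rw [ia_ell, ← ia_sy (inv ok k) hx hy hS hw, max_self]
      field_simp
  · simp

theorem rw_far (ok : p.OK) (hx : x < p.n k) (hy : y < p.n k) : p.rw k x y =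
    if (p.v false k y).wt = false then p.w k x y * phi (p.w k x y) * p.sig k 0 x y else 0 := by
  by_cases hS : (p.L k).S x y = 0
  · simp [rw, ia_w, hS]
  · rw [rw, ← ia_vo hx, (inv ok k).wt x y hS, ia_vi hy]

theorem ell_of_rw (ok : p.OK) (h : p.rw k x y ≠ 0) :
    p.ell k x y = (p.v true k x).l ∧ p.ell k x y = (p.v false k y).l := by
  unfold rw at h
  split_ifs at h with hw
  · have hs := ia_st (right_ne_zero_of_mul h)
    rw [ia_ell, ← ia_sy (inv ok k) hs.1 hs.2.1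
      (left_ne_zero_of_mul (left_ne_zero_of_mul (left_ne_zero_of_mul h))) hw, max_self]
    exact ⟨rfl, rfl⟩
  · exact absurd rfl h

end Vale.Agent.P313.NL2.Pr
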