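import Vale.Agent.P313.NL2.Prog
import Vale.Agent.P313.NL2.IdealA

/-! The procedures of the gadget compute the labels. -/

namespace Vale.Agent.P313.NL2

open Finset Function Vale.Agent.P313.Hi Vale.Agent.P313.NL Vale.Agent.P313.Full
  Vale.Agent.P313.Full.Tm Vale.Agent.P313.Full.Pg

namespace GP

theorem upd_u (k g ty l u x y v : ℕ) : update (mk k g ty l u x y) .u v = mk k g ty l v x y :=
  funext fun r => by cases r <;> rfl

theorem upd_x (k g ty l u x y v : ℕ) : update (mk k g ty l u x y) .x1 v = mk k g ty l u v y :=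
  funext fun r => by cases r <;> rfl

theorem cl_eq {t : ℝ} (h0 : 0 ≤ t) (h1 : t ≤ 1) : cl t = t := by
  rw [cl, min_eq_right h1, max_eq_right h0]

theorem dn_half {i t : ℝ} (hi : i ≤ 2) (h : 0 ≤ t) : dn i (2 * cl (t / 2)) = dn i t := by
  rcases le_total t 2 with e | e
  · rw [cl_eq (by linarith) (by linarith), mul_div_cancel₀ _ two_ne_zero]
  · rw [cl_of_ge (by linarith), dn, dn, cl_of_le (by linarith), cl_of_le (by linarith)]

theorem clp_sum {n : ℕ} {f : ℕ → ℝ} (h : ∀ u, |f u| ≤ 1) :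
    clp n (∑ u ∈ range n, f u) = ∑ u ∈ range n, f u :=
  clp_eq ((abs_sum_le_sum_abs _ _).trans ((sum_le_card_nsmul _ _ 1 fun u _ => h u).trans
    (by simp)))

theorem ite_mem (p : Prop) [Decidable p] :
    0 ≤ (if p then 1 else 0 : ℝ) ∧ (if p then 1 else 0 : ℝ) ≤ 1 := by split_ifs <;> simp

theorem A_le (C : Cand) (W d l u x) : |C.A W d l u x| ≤ 1 :=
  (abs_of_nonneg Cand.A_nonneg).trans_le
    (Pr.ia_mul ⟨rp_nonneg _ _, rp_le_one _ _⟩ (ite_mem _)).2

theorem F_mem (C : Cand) (W d l u x) : 0 ≤ C.F W d l u x ∧ C.F W d l u x ≤ 1 :=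
  Pr.ia_mul ⟨dn_nonneg _ _, dn_le_one _ _⟩ (Pr.ia_mul ⟨rp_nonneg _ _, rp_le_one _ _⟩ (ite_mem _))

theorem ne_of_rp {i t : ℝ} (hi : 0 ≤ i) (h : rp i t ≠ 0) : t ≠ 0 := fun e => by
  have := lt_of_rp h
  linarith

section state

variable (p : Pr) {k y z : ℕ} (s : St)

theorem nx_lt : p.nx k s < p.n k := Nat.mod_lt _ (nm_pos _ _)

theorem env_mv : env (p.mv k s y) = env s := rfl

theorem nx_mv (h : y < p.n k) : p.nx k (p.mv k s y) = y := by
  rw [Pr.nx, Pr.mv, update_self, Nat.add_mul_mod_self_left, Nat.mod_eq_of_lt h]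

theorem mv_back (h : y < p.n k) : p.mv k (p.mv k s y) (p.nx k s) = s := by
  rw [Pr.mv, Pr.mv, update_self, update_idem, Nat.add_mul_div_left _ _ (Nat.zero_lt_of_lt h),
    Nat.div_eq_of_lt h, zero_add, Pr.nx, Nat.mod_add_div, update_eq_self]

end state

variable {α : Type} {c : α → In} {a : α} {k g ty : ℕ}

/-- The candidates in the state `s`. -/
noncomputable abbrev cd (c : α → In) (a : α) (k g ty : ℕ) (s : St) : Cand :=
  (c a).cand k g ty ((c a).raw (c a).F k g ty (env s))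

/-- The hypotheses. -/
structure Hy (c : α → In) (a : α) (k g ty : ℕ) : Prop where
  of ::
  hw : (prog c).WF a
  ok : (c a).OK
  hk : k + g ≤ (c a).K
  hty : ty ≤ 1
  hR : ∀ e, (c a).EOk e → (c a).RawOk (c a).F k g ty e ((c a).raw (c a).F k g ty e)
  hI : RawI c a k g ty

namespace Hy

variable (h : Hy c a k g ty) {s : St} (hs : s ∈ (prog c).box a) {l u x n : ℕ} {d : Bool}
include h

theorem kT_eq : kT c a (mk k g ty l u x 0) = k := min_eq_left (le_of_add_le_left h.hk)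

theorem nlT_eq : nlT c a (mk k g ty l u x 0) = (c a).nl g ty :=
  congrArg₂ (c a).nl (min_eq_left (le_of_add_le_right h.hk)) (min_eq_left h.hty)

theorem adm {t : Pn} (hl : l < (c a).NL) (ht : t.rank ≠ 0) : (prog c).adm t a (mk k g ty l 0 0 0) :=
  ⟨h.hk, h.hty, hl, Nat.two_pow_pos _, rfl, rfl, fun _ => rfl, by cases t <;> trivial⟩

theorem sumU {e : Tr α} {f : ℕ → ℝ}
    (H : ∀ u < (c a).nl g ty, (prog c).Val a n e (mk k g ty l u 0 0) s (f u)) :
    (prog c).Val a n (Tm.sum (nlT c) .u e) (mk k g ty l 0 0 0) s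
      (∑ u ∈ range ((c a).nl g ty), f u) := by
  rw [← h.nlT_eq (l := l) (u := 0) (x := 0)] at H ⊢
  exact Val.sum fun u hu => by rw [upd_u]; exact H u hu

theorem okV {r : Cr} : (prog c).Val a n (okT c r d) (mk k g ty l u x 0) s
    (if okL (c a).W (mk k g ty l u x 0 r) d ((c a).nx k s) then 1 else 0) :=
  Val.tst.congr (by simp only [h.kT_eq, decide_eq_true_eq])

include hs

theorem cok : (cd c a k g ty s).Ok := by
  have r := h.hR (env s) fun r => ⟨mem_range.1 (Fintype.mem_piFinset.1 hs (.e (r, false))),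
    mem_range.1 (Fintype.mem_piFinset.1 hs (.e (r, true)))⟩
  refine ⟨fun d u x => mul_nonneg (r.nonneg d u x) (rp_nonneg _ _),
    fun d u x => mul_le_one₀ (r.le_one d u x) (rp_nonneg _ _) (rp_le_one _ _),
    fun d u _ x hx e => ?_, fun d u _ x hx e => (r.snd d u x hx (left_ne_zero_of_mul e)).2.2⟩
  have := (r.snd d u x hx (left_ne_zero_of_mul e)).1
  cases d
  exacts [this.1.1, this.1.2.1]

theorem rf (hu : u < (c a).nl g ty) : (prog c).Val a n (cR (.RF d)) (mk k g ty l u x 0) s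
    ((cd c a k g ty s).f d u ((c a).nx k s)) :=
  have r := h.hI u hu s hs d
  Val.cal h.hw ⟨⟨h.hk, h.hty, r.1.1.2.2.1, hu, rfl, rfl, by simp [Pn.rank], trivial⟩,
    (Val.cal h.hw r.1).guard fun e => (Val.cal h.hw (r.2 e).2.2).ap1⟩

theorem rm (hu : u < (c a).nl g ty) (e : (cd c a k g ty s).f d u ((c a).nx k s) ≠ 0) :
    (prog c).Mov a n (cR .RM) (mk k g ty l u x 0) d s
      (some ((c a).mv k s ((cd c a k g ty s).en d u ((c a).nx k s)))) :=
  Mov.cal h.hw ((h.hI u hu s hs d).2 (left_ne_zero_of_mul e)).1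

/-- The value after the raw move. -/
theorem hopR (hu : u < (c a).nl g ty) {i : ℝ} (hi : 0 ≤ i) {e : Tr α} {G : ℕ → ℝ}
    (H : ∀ y, (c a).mv k s y ∈ (prog c).box a → (c a).nx k ((c a).mv k s y) = y →
      (prog c).Val a n e (mk k g ty l u 0 0) ((c a).mv k s y) (G y)) :
    (prog c).Val a n (guard (fn (rp i) (cR (.RF d))) (hop d (cR .RM) e)) (mk k g ty l u 0 0) s
      (rp i ((cd c a k g ty s).f d u ((c a).nx k s)) *
        G ((cd c a k g ty s).en d u ((c a).nx k s))) :=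
  (h.rf hs hu).ap1.guard fun e => by
    have r := ((h.hI u hu s hs d).2 (left_ne_zero_of_mul (ne_of_rp hi e))).1
    exact Val.hop (h.rm hs hu (ne_of_rp hi e)) (H _ ((data_cE h.hw).mv _ _ r.1 d s hs _
      (cE_eq h.hw r.1 ▸ r.2.2)).1 (nx_mv _ _ ((h.cok hs).lt d u hu _ (nx_lt _ _) (ne_of_rp hi e))))

theorem yV {e : Tr α} {G : ℕ → ℝ} (H : ∀ u y, (c a).nx k ((c a).mv k s y) = y →
      (prog c).Val a n e (mk k g ty l u 0 0) ((c a).mv k s y) (G y)) :
    (prog c).Val a n (yT c d e) (mk k g ty l 0 0 0) s (∑ u ∈ range ((c a).nl g ty),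
      (cd c a k g ty s).A (c a).W d l u ((c a).nx k s) *
        G ((cd c a k g ty s).en d u ((c a).nx k s))) :=
  h.sumU fun u hu => (h.hopR hs hu zero_le_one
    (G := fun y => (if okL (c a).W l (!d) y then 1 else 0) * G y) fun y _ e =>
      (h.okV.congr (by rw [e]; rfl)).guard fun _ => H u y e).congr (mul_assoc _ _ _).symm

theorem dnV (hl : l < (c a).NL) {i : ℝ} (hi : i ≤ 2) :
    (prog c).Val a n (dnT i d) (mk k g ty l u 0 0) s
      (dn i ((cd c a k g ty s).Q (c a).W d l ((c a).nx k s))) := by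
  have hm : (cd c a k g ty s).n ≤ 2 ^ (2 * (c a).m) := Nat.pow_le_pow_right two_pos (by
    have := h.ok.hm
    have := Nat.mul_le_mul_left Hi.a (le_of_add_le_left h.hk)
    omega)
  have e : 2 ^ (c a).m * 2 ^ (c a).m = 2 ^ (2 * (c a).m) := by rw [two_mul, pow_add]
  refine (Val.ap1 (Val.cal h.hw ⟨h.adm hl (by simp [Pn.rank]), (Val.app
    (h.yV hs (G := fun _ => 1) fun _ _ _ => Val.cst) (Val.avg (f := fun v => clp ((c a).nl g ty)
      (∑ u ∈ range ((c a).nl g ty), (cd c a k g ty s).A (c a).W d l u ((c a).nx k s) *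
        chr (2 * (c a).m) v ((cd c a k g ty s).en d u ((c a).nx k s))) ^ 2) fun v hv => ?_)).congr
      ?_⟩)).congr (dn_half hi (coll_nonneg fun _ _ => Cand.Y_nonneg))
  · have hs' : update s .ch v ∈ (prog c).box a := Fintype.mem_piFinset.2 fun r => by
      by_cases f : r = .ch
      · rw [f, update_self]
        exact mem_range.2 (hv.trans_eq e)
      · rw [update_of_ne f]
        exact Fintype.mem_piFinset.1 hs r
    exact (h.yV hs' (G := chr (2 * (c a).m) v) fun u y f =>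
      Val.loc.congr (by rw [h.kT_eq, f]; rfl)).ap1.congr (by rw [h.nlT_eq]; rfl)
  · rw [Cand.Q_eq (h.cok hs) (nx_lt _ _) hm, h.nlT_eq]
    simp only [vR, e, mul_one, clp_sum fun u => A_le _ _ _ _ u _, Nat.cast_pow, Nat.cast_ofNat,
      fun v => clp_sum (n := (c a).nl g ty) fun u => show |(cd c a k g ty s).A (c a).W d l u
        ((c a).nx k s) * chr (2 * (c a).m) v ((cd c a k g ty s).en d u ((c a).nx k s))| ≤ 1 by
          rw [abs_mul, abs_chr, mul_one]; exact A_le ..]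
    rfl

theorem fV (hl : l < (c a).NL) (hu : u < (c a).nl g ty) :
    (prog c).Val a n (fT c d) (mk k g ty l u 0 0) s
      ((cd c a k g ty s).F (c a).W d l u ((c a).nx k s)) :=
  (h.dnV hs hl le_rfl).guard fun _ => h.hopR hs hu zero_le_two
    (G := fun y => if okL (c a).W l (!d) y then 1 else 0) fun y _ e => h.okV.congr (by rw [e]; rfl)

theorem gq (hl : l < (c a).NL) : (prog c).PVal a (.Gq d) (mk k g ty l 0 0 0) s
    ((cd c a k g ty s).q (c a).W d l ((c a).nx k s)) :=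
  ⟨h.adm hl (by simp [Pn.rank]), h.okV.guard fun _ => (h.dnV hs hl one_le_two).guard fun _ =>
    Val.ap1 (h.sumU fun u hu => h.hopR hs hu (by norm_num)
      (G := (cd c a k g ty s).far (c a).W (!d) l u) fun y b e =>
        (h.okV.guard fun _ => (h.dnV b hl one_le_two).guard fun _ => (h.rf b hu).ap1).congr
          (by rw [e]; rfl))⟩

theorem fm (hu : u < (c a).nl g ty) (e : (cd c a k g ty s).F (c a).W d l u ((c a).nx k s) ≠ 0) :
    (prog c).Mov a n (cR .RM) (mk k g ty l u 0 0) d s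
      (some ((c a).mv k s ((cd c a k g ty s).pt (c a).W d l ((c a).nx k s)))) :=
  Cand.en_eq_pt (h.cok hs) (nx_lt _ _) hu e ▸
    h.rm hs hu (by have := (Cand.of_F e).2.1; intro f; linarith)

theorem mvT (hl : l < (c a).NL) {y : ℕ}
    (w : Cand.Wit (cd c a k g ty s) (c a).W true l u ((c a).nx k s) y)
    (b : (c a).mv k s y ∈ (prog c).box a) :
    (prog c).Mov a n (bMV c) (mk k g ty l 0 0 0) true s (some ((c a).mv k s y)) ∧
      (prog c).Mov a n (bMV c) (mk k g ty l 0 0 0) false ((c a).mv k s y) (some s) := by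
  have e := nx_mv (c a).toPr s w.hy
  refine Mov.search (G := {0}) (h.hw .MV _ (h.adm hl (by simp [Pn.rank]))).2.1.2.2.2.1
    ⟨hs, b, rfl, fun _ _ v hv f => ?_, fun _ _ v hv f => ?_, by simp [vO], fun _ _ =>
      ⟨u, h.nlT_eq ▸ w.lt, ?_, ?_⟩, by simp⟩ (by simpa [vO] using Nat.one_le_two_pow)
  all_goals simp only [upd_u, vO, h.nlT_eq] at *
  · rw [(h.fV (n := 0) hs hl hv).2] at f
    exact w.pt (h.cok hs) ▸ (h.fm (n := 0) hs hv (by intro e; linarith)).2
  · rw [(h.fV (n := 0) b hl hv).2] at f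
    rw [(h.fm (n := 0) b hv (by intro e; linarith)).2, e]
    exact congrArg some ((congrArg _ (w.symm.pt (h.cok hs))).trans (mv_back _ _ w.hy))
  · rw [(h.fV (n := 0) hs hl w.lt).2, w.F]
    norm_num
  · rw [(h.fV (n := 0) b hl w.lt).2, e]
    exact le_of_le_of_eq (by norm_num) w.symm.F.symm

theorem mvV (hl : l < (c a).NL) (e : (cd c a k g ty s).q (c a).W d l ((c a).nx k s) ≠ 0) :
    (prog c).PMov a .MV (mk k g ty l 0 0 0) d s
      (some ((c a).mv k s ((cd c a k g ty s).pt (c a).W d l ((c a).nx k s)))) := by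
  obtain ⟨u, w⟩ := Cand.wit_of_q (h.cok hs) (nx_lt _ _) e
  have r := ((h.hI u w.lt s hs d).2 (left_ne_zero_of_mul
    (show (cd c a k g ty s).f d u _ ≠ 0 by have := w.f; intro f; linarith))).1
  have b := ((data_cE h.hw).mv _ _ r.1 d s hs _ (cE_eq h.hw r.1 ▸ r.2.2)).1
  rw [show ((c a).raw (c a).F k g ty (env s)).en d u _ = _ from w.en] at b
  refine ⟨h.adm hl (by simp [Pn.rank]), ?_⟩
  cases d
  · have f := mv_back (c a).toPr s w.hy
    have := (h.mvT b hl (n := (prog c).sz .MV a (mk k g ty l 0 0 0)) (u := u)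
      ((nx_mv (c a).toPr s w.hy).symm ▸ w.symm) (f.symm ▸ hs)).2
    rwa [f] at this
  · exact (h.mvT hs hl w b).1

theorem go (hl : l < (c a).NL) : (prog c).PVal a (.Go d) (mk k g ty l 0 0 0) s
    ((cd c a k g ty s).om (c a).W d l ((c a).nx k s)) :=
  ⟨h.adm hl (by simp [Pn.rank]), (Val.cal h.hw (h.gq hs hl)).guard fun e =>
    Val.ap1 (Val.sum fun v hv => by
      rw [upd_x]
      exact Val.guard (Val.hop (Mov.cal h.hw (h.mvV hs hl e)) (h.okV.congr (by
        rw [nx_mv]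
        exacts [rfl, (Cand.wit_of_q (h.cok hs) (nx_lt _ _) e).choose_spec.hy])))
        fun _ => Val.cal h.hw (h.gq hs hv))⟩

theorem ratV (hl : l < (c a).NL) (e : (cd c a k g ty s).q (c a).W d l ((c a).nx k s) ≠ 0) {t : Pn}
    {G : ℕ → ℝ} (h0 : ∀ y < (c a).n k, 0 ≤ G y ∧ G y ≤ 1)
    (H : ∀ u < (c a).nl g ty, ((c a).raw (c a).F k g ty (env s)).ps d u ((c a).nx k s) ≠ 0 →
      (prog c).PVal a t (mk k g ty 0 u 0 0) s (G ((cd c a k g ty s).en d u ((c a).nx k s)))) :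
    (prog c).Val a n (rat c d t) (mk k g ty l 0 0 0) s
      (G ((cd c a k g ty s).pt (c a).W d l ((c a).nx k s))) := by
  obtain ⟨u, w⟩ := Cand.wit_of_q (h.cok hs) (nx_lt _ _) e
  obtain ⟨h1, h2⟩ := h0 _ w.hy
  refine (Val.app (h.sumU fun v hv => (h.fV hs hl hv).guard
    (w := G ((cd c a k g ty s).pt (c a).W d l ((c a).nx k s))) fun f =>
      Cand.en_eq_pt (h.cok hs) (nx_lt _ _) hv f ▸ Val.cal h.hw (H v hv (left_ne_zero_of_mul
        (show (cd c a k g ty s).f d v _ ≠ 0 by have := (Cand.of_F f).2.1; intro f; linarith))))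
    (h.sumU fun v hv => h.fV hs hl hv)).congr ?_
  have f : 1 ≤ ∑ v ∈ range ((c a).nl g ty), (cd c a k g ty s).F (c a).W d l v ((c a).nx k s) :=
    w.F.ge.trans (single_le_sum (fun v _ => (F_mem _ _ _ _ v _).1) (mem_range.2 w.lt))
  rw [h.nlT_eq, clp_sum fun v => (abs_of_nonneg (mul_nonneg (F_mem ..).1 h1)).trans_le
    (mul_le_one₀ (F_mem ..).2 h1 h2), ← sum_mul, inv1, max_eq_right f, mul_right_comm,
    mul_one_div_cancel (by linarith), one_mul, cl_eq h1 h2]

end Hy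

end GP

variable {α : Type} {c : α → In} {a : α} {k g ty : ℕ}

theorem gadI_of (hw : (prog c).WF a) (ok : (c a).OK) (hk : k + g ≤ (c a).K) (hty : ty ≤ 1)
    (hR : ∀ e, (c a).EOk e → (c a).RawOk (c a).F k g ty e ((c a).raw (c a).F k g ty e))
    (hI : RawI c a k g ty) :
    (GadI c a k g ty fun e => (c a).cand k g ty ((c a).raw (c a).F k g ty e)) ∧
      ∀ l < (c a).NL, ∀ n, (prog c).Unc a n (bMV c) (mk k g ty l 0 0 0) := by
  have h : GP.Hy c a k g ty := ⟨hw, ok, hk, hty, hR, hI⟩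
  refine ⟨fun l hl s hs d => ⟨h.gq hs hl, h.go hs hl, fun e => ⟨h.mvV hs hl e,
    ⟨h.adm hl (by simp [Pn.rank]), h.ratV hs hl e (G := sw d ((c a).w k) ((c a).nx k s))
      (fun y hy => ?_) fun u hu f => ((hI u hu s hs d).2 f).2.1⟩,
    ⟨h.adm hl (by simp [Pn.rank]), h.ratV hs hl e (G := sw d ((c a).tau k g) ((c a).nx k s))
      (fun y _ => ?_) fun u hu f => ((hI u hu s hs d).2 f).2.2⟩⟩⟩, fun l hl n u hu => ?_⟩
  · cases d
    exacts [Pr.w_mem ok hy (GP.nx_lt _ _), Pr.w_mem ok (GP.nx_lt _ _) hy]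
  · cases d <;> exact Pr.tau_mem ..
  · rw [h.nlT_eq] at hu
    rw [GP.upd_u]
    refine ⟨⟨⟨⟨trivial, trivial⟩, ⟨trivial, trivial⟩, trivial, trivial⟩,
      ⟨⟨trivial, trivial⟩, ⟨trivial, trivial⟩, trivial, trivial⟩, trivial⟩, fun s hs =>
      ⟨(h.fV hs hl hu).1, (h.fV hs hl hu).1, fun f => ?_, fun f => ?_⟩⟩ <;>
    · rw [(h.fV (n := 0) hs hl hu).2] at f
      exact (h.fm hs hu (by intro e; linarith)).1

end Vale.Agent.P313.NL2
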