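import Vale.Agent.P313.NL2.TabM
import Vale.Agent.P313.RedDeg

/-! The raw candidates on the level `0`. -/

namespace Vale.Agent.P313.NL2

open Finset Function Vale.Agent.P313.Hi Vale.Agent.P313.NL Vale.Agent.P313.KH

namespace Pr

variable {p : Pr} {F : ℕ → ℕ} {k g ty u x y f f' : ℕ} {e : Env} {d b : Bool} {R : Raw}

theorem R0.adj_symm (h : p.adj d x f) : p.adj (!d) f x := by
  cases d <;> exact ⟨h.2.1, h.1, h.2.2⟩

theorem R0.rk_card (p : Pr) (d : Bool) (x f : ℕ) :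
    p.rk d x f = #{f' ∈ range f | p.adj d x f'} := (card_filter _ _).symm

theorem R0.rk_lt (h : p.adj d x f) (hf : f < f') : p.rk d x f < p.rk d x f' := by
  have h1 : p.rk d x (f + 1) = p.rk d x f + 1 := by rw [rk, sum_range_succ, if_pos h, rk]
  have h2 : p.rk d x (f + 1) ≤ p.rk d x f' :=
    sum_le_sum_of_subset (range_subset_range.2 hf)
  omega

theorem R0.nb_rk (h : p.adj d x f) : p.nb d x (p.rk d x f) = f := by
  rw [nb, sum_eq_single f, if_pos ⟨h, rfl⟩]
  · refine fun f' _ hne => if_neg fun h' => ?_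
    rcases lt_or_gt_of_ne hne with h1 | h1
    · exact (R0.rk_lt h'.1 h1).ne h'.2
    · exact (R0.rk_lt h h1).ne' h'.2
  · exact fun h' => absurd (mem_range.2 h.2.1) h'

theorem R0.deg (ok : p.OK) (d : Bool) (hx : x < p.N) : #{f ∈ range p.N | p.adj d x f} ≤ 2 := by
  cases d
  · exact (card_le_card fun f hf =>
      mem_filter.2 ⟨(mem_filter.1 hf).1, (mem_filter.1 hf).2.2.2⟩).trans (ok.deg x)
  · exact (card_le_card fun f hf =>
      mem_filter.2 ⟨(mem_filter.1 hf).1, (mem_filter.1 hf).2.2.2⟩).trans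
        (Red.sub_row_card ok.sub hx)

theorem R0.rk_le (ok : p.OK) (h : p.adj d x f) : p.rk d x f ≤ 1 := by
  have h1 := R0.rk_lt h h.2.1
  rw [R0.rk_card p d x p.N] at h1
  have := R0.deg ok d h.1
  omega

theorem dom0_inv (h : p.dom0 d u x) :
    p.dom0 (!d) u (p.en0 d u x) ∧ p.en0 (!d) u (p.en0 d u x) = x := by
  have h1 : p.en0 (!d) u (p.en0 d u x) = x := by
    rw [en0, ← h.2.2]
    exact R0.nb_rk (R0.adj_symm h.1)
  refine ⟨?_, h1⟩
  rw [dom0, h1, Bool.not_not]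
  exact ⟨R0.adj_symm h.1, h.2.2, h.2.1⟩

theorem R0.ok_inv (h : p.ok0 F g ty e d u x) : p.ok0 F g ty e (!d) u (p.en0 d u x) := by
  refine ⟨h.1, (dom0_inv h.2.1).1, ?_⟩
  rw [(dom0_inv h.2.1).2, Bool.not_not]
  exact h.2.2.symm

theorem R0.Q_eq (p : Pr) (g x y : ℕ) : p.Q 0 g x y = Ico (B * p.K) (B * p.K + cc * g) := by
  rw [Q, Nat.le_zero.1 (p.ell_le 0 x y), range_zero, empty_union]

theorem R0.win (ok : p.OK) (hg : g ≤ p.K) (v v' : ℕ) :
    p.win v (B * p.K) (cc * g) = p.win v' (B * p.K) (cc * g) ↔ Ag (p.Q 0 g x y) v v' := by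
  rw [R0.Q_eq]
  refine win_iff ok ?_
  have h1 := ok.hm
  have h2 := Nat.mul_le_mul_left cc hg
  rw [add_mul, add_mul] at h1
  omega

theorem R0.typ (p : Pr) (d : Bool) (x : ℕ) : p.typ d 0 x = 1 := if_pos (Or.inl rfl)

theorem R0.tau (ok : p.OK) (g : ℕ) (h : p.adj d x y) : sw d (p.tau 0 g) x y = 1 := by
  cases d
  · exact (tau_zero ok g y x).trans (if_pos (R0.adj_symm h))
  · exact (tau_zero ok g x y).trans (if_pos h)

theorem R0.st (ok : p.OK) (g : ℕ) (h : p.adj d x y) : sw d (p.st 0 g) x y := by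
  have h1 := (R0.tau ok g h).trans_ne one_ne_zero
  cases d <;> exact st_of_tau h1

theorem R0.of_ps (h : (p.raw0 F g ty e).ps d u x ≠ 0) : p.ok0 F g ty e d u x := by
  by_contra h'
  exact h (if_neg h')

theorem rawOk0 (ok : p.OK) (hg : g ≤ p.K) (ty : ℕ) (hty : ty ≤ 1) (e : Env) :
    p.RawOk F 0 g ty e (p.raw0 F g ty e) where
  nonneg d u x := by
    simp only [raw0]
    split_ifs
    exacts [zero_le_one, le_rfl]
  le_one d u x := by
    simp only [raw0]
    split_ifs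
    exacts [le_rfl, zero_le_one]
  snd d u x _ h := by
    have h1 := R0.of_ps h
    refine ⟨?_, ?_, (dom0_inv h1.2.1).2⟩
    · have h2 := R0.st ok g h1.2.1.1
      cases d
      · exact ⟨h2, (R0.win ok hg _ _).1 h1.2.2.symm⟩
      · exact ⟨h2, (R0.win ok hg _ _).1 h1.2.2⟩
    · have := h1.1
      rw [R0.typ]
      omega
  cmp x y h ht h1 := by
    classical
    have h2 : p.adj true x y := by
      by_contra h2
      rw [tau_zero ok, if_neg (show ¬(x < p.N ∧ y < p.N ∧ p.A0 x y ≠ 0) from h2)] at h1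
      norm_num at h1
    have h3 := R0.rk_le ok h2
    have h4 : p.rk false y x ≤ 1 := R0.rk_le ok (R0.adj_symm h2)
    obtain ⟨u, hu, h5, h6⟩ : ∃ u < 4, bt u 0 = p.rk true x y ∧ bt u 1 = p.rk false y x :=
      ⟨p.rk true x y + 2 * p.rk false y x, by omega, by unfold bt; omega, by unfold bt; omega⟩
    have h7 : p.en0 true u x = y := (congrArg (p.nb true x) h5).trans (R0.nb_rk h2)
    have h8 : p.ok0 F g ty e true u x := by
      refine ⟨by rw [← ht, R0.typ]; exact one_ne_zero, ?_, ?_⟩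
      · rw [dom0, h7]
        exact ⟨h2, h5.symm, h6.symm⟩
      · rw [h7]
        exact (R0.win ok hg _ _).2 h.2
    refine ⟨u, hu.trans_le ?_, if_pos h8, if_pos (h7 ▸ R0.ok_inv h8), h7⟩
    exact Nat.pow_le_pow_right two_pos (show 2 ≤ 15 * p.fw g ty by unfold fw wl; omega)

end Pr

end Vale.Agent.P313.NL2
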