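import Vale.Agent.P313.NL2.RawU
import Vale.Agent.P313.NL2.Raw0

/-! The raw candidates for merged entries, and the recursion over the levels. -/

namespace Vale.Agent.P313.NL2

open Finset Function Vale.Agent.P313.Hi Vale.Agent.P313.NL Vale.Agent.P313.KH

namespace Pr

variable {p : Pr} {F : ℕ → ℕ} {k g ty u x y z : ℕ} {e : Env} {d b : Bool} {R : Raw}

theorem rm_ag {Q : Finset ℕ} {v w : ℕ} : Ag Q v w ↔ ∀ i ∈ Q, v.testBit i = w.testBit i :=
  forall₂_congr fun i _ => by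
    rw [bt_eq, bt_eq]
    cases v.testBit i <;> cases w.testBit i <;> simp

theorem rm_mod (p : Pr) (k x : ℕ) : x % p.n k < p.n k := mod_nm_lt _ _ _

/-- The hash value of the midpoint. -/
noncomputable def rmV (p : Pr) (F : ℕ → ℕ) (g u : ℕ) (e : Env) (z : ℕ) : ℕ :=
  F (z ^^^ e (2, false)) ^^^ (e (2, true) ^^^ p.wc g 1 u)

theorem rm_mid (d : Bool) (z : ℕ) :
    val F (hf d (p.ent k g 1 u e)) (!d) z = p.rmV F g u e z := by
  cases d <;> simp [val, hf, ent, xr, rl, rmV, Equiv.swap_apply_def]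

theorem rm_end (d : Bool) (hx : x < p.n k) :
    val F (hf d (p.ent k g 1 u e)) d x = val F e d (x + p.dt k g 1 u d) := by
  have h : x + p.dt k g 1 u d = x ^^^ p.dt k g 1 u d := by
    rw [dt, n, add_mul_eq_xor hx, mul_comm]
  rw [h]
  cases d <;> simp [val, hf, ent, xr, rl, Equiv.swap_apply_def, Nat.xor_assoc,
    Nat.xor_comm (p.dt _ _ _ _ _)]

theorem rm_dt (hx : x < p.n (k + 1)) (h : p.sn d k x = p.sl g ty u d) :
    x % p.n k + p.dt k g ty u d = x := by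
  rw [dt, ← h]
  change _ + _ * (cd _ _ _ % _) = _
  rw [Nat.mod_eq_of_lt (cd_lt _ _ _), n, ← mod_nm_succ]
  exact Nat.mod_eq_of_lt hx

theorem rm_add_mod (hy : y < p.n k) : (y + p.dt k g ty u d) % p.n k = y := by
  rw [dt, Nat.add_mul_mod_self_left, Nat.mod_eq_of_lt hy]

theorem rm_add_lt (hy : y < p.n k) : y + p.dt k g ty u d < p.n (k + 1) := by
  have h1 : (p.sl g ty u d).c % 2 ^ a + 1 ≤ 2 ^ a := Nat.mod_lt _ (Nat.two_pow_pos _)
  have h2 := Nat.mul_le_mul_left (p.n k) h1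
  have h3 : p.n (k + 1) = p.n k * 2 ^ a := nm_succ _ _
  rw [mul_add] at h2
  rw [dt]
  omega

theorem rm_ell (h : p.st k 0 x y) :
    p.ell k x y = (p.v true k x).l ∧ p.ell k x y = (p.v false k y).l := by
  have h1 := h.2.2.1
  rw [ia_gap] at h1
  rw [ia_ell]
  omega

theorem rm_room (ok : p.OK) (hk : k + 1 + g ≤ p.K) :
    B * (k + 1) ≤ B * p.K ∧ B * p.K + cc * g ≤ 2 * p.m := by
  have h1 := ok.hm
  have h2 := Nat.mul_le_mul_left cc (show g ≤ p.K by omega)
  rw [add_mul, add_mul B] at h1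
  exact ⟨Nat.mul_le_mul_left _ (by omega), by omega⟩

theorem rm_low (h1 : p.sn true k x = p.sl g 1 u true) (h2 : p.sn false k y = p.sl g 1 u false) :
    p.lw g 1 u = min (p.v true k x).l (p.v false k y).l ∧
      (p.sl g 1 u true).ell' (p.sl g 1 u false) = p.ell (k + 1) x y := by
  rw [lw, if_neg one_ne_zero, ← h1, ← h2]
  exact ⟨rfl, rfl⟩

/-- Two halves and the tests give an entry. -/
theorem rm_rel (ok : p.OK) (hk : k + 1 + g ≤ p.K) (hx : x < p.n (k + 1)) (hy : y < p.n (k + 1))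
    (t1 : p.tst F k g 1 u e true x) (t2 : p.tst F k g 1 u e false y)
    (r1 : p.Rel F k 0 (hf true (p.ent k g 1 u e)) (x % p.n k) z)
    (r2 : p.Rel F k 0 (hf false (p.ent k g 1 u e)) z (y % p.n k)) : p.Rel F (k + 1) g e x y := by
  obtain ⟨e1, e2⟩ := rm_low t1.1 t2.1
  obtain ⟨b1, b2⟩ := rm_room ok hk
  have b3 := p.ell_le (k + 1) x y
  have b4 := (p.ell_mono k x y).1
  have a1 := r1.2
  have a2 := r2.2
  rw [rm_end true (p.rm_mod k x), rm_dt hx t1.1, Q, (rm_ell r1.1).1, v_mod] at a1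
  rw [rm_end false (p.rm_mod k y), rm_dt hy t2.1, Q, (rm_ell r2.1).2, v_mod] at a2
  rw [ia_ell] at b4
  have a3 := (win_iff ok (by omega)).1 (t1.2.2.2.2.1.trans t2.2.2.2.2.1.symm)
  have a4 := (win_iff ok b2).1 ((t1.2.2.2.2.2 one_ne_zero).trans (t2.2.2.2.2.2 one_ne_zero).symm)
  refine ⟨⟨hx, hy, ?_, ?_⟩, fun i hi => ?_⟩
  · rw [gap_succ, t1.1, t2.1]
    exact t1.2.2.1
  · rw [ft, t1.1, t2.1]
    exact t1.2.1
  · rcases mem_union.1 hi with hi | hi
    · rw [mem_range] at hi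
      by_cases h : i < p.lw g 1 u
      · refine (a1 i (mem_union_left _ (mem_range.2 (by omega)))).trans
          (Eq.trans ?_ (a2 i (mem_union_left _ (mem_range.2 (by omega)))))
        exact congrArg (bt · i) ((rm_mid true z).trans (rm_mid false z).symm)
      · exact a3 i (mem_Ico.2 (by omega))
    · exact a4 i hi

theorem rm_typ (h : p.ft (k + 1) x y) (hm : p.mrg true k x) :
    p.typ true (k + 1) x = 1 ∧ p.typ false (k + 1) y = 1 :=
  ⟨if_pos (.inr hm), if_pos ((new_iff h).1 (.inr hm))⟩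

theorem rm_snd (ok : p.OK) (hk : k + 1 + g ≤ p.K) (he : p.EOk e)
    (hT : ∀ e, p.EOk e → p.TabOk F k 0 e) (hx : x < p.n (k + 1))
    (h : (p.rawM F k (p.raw F k) g e).ps d u x ≠ 0) :
    sw d (p.Rel F (k + 1) g e) x (p.enM k g u (p.raw F k) e d x) ∧ p.typ d (k + 1) x = 1 ∧
      p.enM k g u (p.raw F k) e (!d) (p.enM k g u (p.raw F k) e d x) = x := by
  classical
  obtain ⟨h1, t2⟩ := mul_ne_zero_iff.1 h
  obtain ⟨t1, h1⟩ := mul_ne_zero_iff.1 h1
  obtain ⟨h1, h2⟩ := mul_ne_zero_iff.1 h1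
  replace t1 := (ite_ne_right_iff.1 t1).1
  replace t2 := (ite_ne_right_iff.1 t2).1
  have hE := fun b => hT _ ((he.ent ok hk 1 u).hf b)
  obtain ⟨r1, s1⟩ := (hE d).snd d _ _ (p.rm_mod k x) h1
  obtain ⟨r2, s2⟩ := (hE (!d)).snd d _ _ (Rel.lt r1).2 h2
  have hy := (Rel.lt r2).2
  have hy' : p.enM k g u (p.raw F k) e d x < p.n (k + 1) := rm_add_lt hy
  have e1 : p.enM k g u (p.raw F k) e d x % p.n k = _ := rm_add_mod hy
  have hr : sw d (p.Rel F (k + 1) g e) x (p.enM k g u (p.raw F k) e d x) := by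
    replace r2 := (congrArg (sw d _ _) e1).mpr r2
    cases d
    · exact rm_rel ok hk hy' hx t2 t1 r2 r1
    · exact rm_rel ok hk hx hy' t1 t2 r1 r2
  refine ⟨hr, ?_, ?_⟩
  · have hm := t1.2.2.2.1.2 one_ne_zero
    cases d
    · exact (rm_typ hr.1.2.2.2 (by rw [mrg, show p.sn true k _ = _ from t2.1]; exact hm)).2
    · exact (rm_typ hr.1.2.2.2 (by rw [mrg, t1.1]; exact hm)).1
  · have e2 : p.miM k g u (p.raw F k) e (!d) (p.enM k g u (p.raw F k) e d x) =
        p.miM k g u (p.raw F k) e d x := by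
      rw [miM, e1]
      exact s2
    rw [enM, e2, Bool.not_not]
    exact (congrArg (· + _) s1).trans (rm_dt hx t1.1)

/-- The label carries the data of the pair and the wildcard bits `w`. -/
structure rmFit (p : Pr) (F : ℕ → ℕ) (k g : ℕ) (e : Env) (x y w u : ℕ) : Prop where
  s1 : p.sn true k x = p.sl g 1 u true
  s2 : p.sn false k y = p.sl g 1 u false
  f10 : fld (p.fw g 1) u 10 = w
  f11 : p.win (val F e true x) (p.lw g 1 u) (p.ell (k + 1) x y - p.lw g 1 u) =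
    fld (p.fw g 1) u 11
  f12 : p.win (val F e true x) (B * p.K) (cc * g) = fld (p.fw g 1) u 12

theorem rm_win_lt (p : Pr) (v lo len : ℕ) : p.win v lo len < 2 ^ len :=
  (Nat.mod_lt _ (Nat.two_pow_pos _)).trans_le (Nat.pow_le_pow_right two_pos (min_le_left _ _))

theorem rm_fit (ok : p.OK) (hk : k + 1 + g ≤ p.K) (hs : p.st (k + 1) g x y)
    (hm : p.mrg true k x) {w l₁ l₂ : ℕ} (hw : w < 2 ^ p.wd g) (h1 : l₁ < p.NL) (h2 : l₂ < p.NL) :
    ∃ u < p.nl g 1, p.rmFit F k g e x y w u ∧ p.lb g 1 u true = l₁ ∧ p.lb g 1 u false = l₂ := by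
  have c1 : cw ≤ cc ∧ B ≤ cc := by
    unfold cw cc
    omega
  have c2 := Nat.mul_le_mul_right (g + 1) c1.1
  have c3 := Nat.mul_le_mul_right (g + 1) c1.2
  have c4 : p.fw g 1 = 9 * p.lk + 12 + cc * (g + 1) := by
    unfold fw wl
    omega
  have c5 : ∀ {v i : ℕ}, v < 2 ^ i → i ≤ p.fw g 1 → v < 2 ^ p.fw g 1 := fun h hi =>
    h.trans_le (Nat.pow_le_pow_right two_pos hi)
  have c6 : p.NL = 2 ^ (9 * p.lk + 12) := by
    rw [NL, W, ← pow_mul, wl]
    congr 1
    omega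
  have c7 : ∀ c : Bool, (if c then 1 else 0) < 2 ^ 1 := by decide
  have g1 := p.gap_le k x y
  have g2 := hs.2.2.1
  have g3 := ell_mrg hs.2.2.2 hm
  rw [ia_gap p k] at g1
  rw [ia_ell p k] at g3
  obtain ⟨a1, a2, a3, a4⟩ := sn_lt ok (show k ≤ p.K by omega) true x
  obtain ⟨b1, b2, b3, b4⟩ := sn_lt ok (show k ≤ p.K by omega) false y
  obtain ⟨u, hu, hf⟩ := exists_fld (p.fw g 1) (fun i => [(p.sn true k x).l, (p.sn true k x).lam,
    if (p.sn true k x).wt then 1 else 0, (p.sn true k x).ol, (p.sn true k x).c,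
    (p.sn false k y).l, (p.sn false k y).lam, if (p.sn false k y).wt then 1 else 0,
    (p.sn false k y).ol, (p.sn false k y).c, w,
    p.win (val F e true x) (min (p.v true k x).l (p.v false k y).l)
      (p.ell (k + 1) x y - min (p.v true k x).l (p.v false k y).l),
    p.win (val F e true x) (B * p.K) (cc * g), l₁, l₂].getD i 0) fun i hi => by
      interval_cases i
      exacts [c5 a1 (by omega), c5 a2 (by omega), c5 (c7 _) (by omega), c5 a3 (by omega),
        c5 a4 (by omega), c5 b1 (by omega), c5 b2 (by omega), c5 (c7 _) (by omega),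
        c5 b3 (by omega), c5 b4 (by omega), c5 hw (by unfold wd; omega),
        c5 (p.rm_win_lt _ _ _) (by rw [mul_add B] at c3; omega),
        c5 (p.rm_win_lt _ _ _) (by rw [mul_add cc] at c4; omega), c5 (c6 ▸ h1) (by omega),
        c5 (c6 ▸ h2) (by omega)]
  have c8 : ∀ c : Bool, decide ((if c then 1 else 0) = 1) = c := by decide
  have s1 : p.sn true k x = p.sl g 1 u true := by
    change _ = Sg.mk (fld _ u 0) (fld _ u 1) (decide (fld _ u 2 = 1)) (fld _ u 3) (fld _ u 4)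
    rw [hf 0 (by omega), hf 1 (by omega), hf 2 (by omega), hf 3 (by omega), hf 4 (by omega)]
    exact congrArg (fun c => Sg.mk _ _ c _ _) (c8 _).symm
  have s2 : p.sn false k y = p.sl g 1 u false := by
    change _ = Sg.mk (fld _ u 5) (fld _ u 6) (decide (fld _ u 7 = 1)) (fld _ u 8) (fld _ u 9)
    rw [hf 5 (by omega), hf 6 (by omega), hf 7 (by omega), hf 8 (by omega), hf 9 (by omega)]
    exact congrArg (fun c => Sg.mk _ _ c _ _) (c8 _).symm
  refine ⟨u, hu, ⟨s1, s2, hf 10 (by omega), ?_, (hf 12 (by omega)).symm⟩, ?_, ?_⟩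
  · rw [(rm_low s1 s2).1]
    exact (hf 11 (by omega)).symm
  · exact (congrArg (· % p.NL) (hf 13 (by omega))).trans (Nat.mod_eq_of_lt h1)
  · exact (congrArg (· % p.NL) (hf 14 (by omega))).trans (Nat.mod_eq_of_lt h2)

theorem rmFit.ent {w u' : ℕ} (h : p.rmFit F k g e x y w u) (h' : p.rmFit F k g e x y w u') :
    p.ent k g 1 u e = p.ent k g 1 u' e := by
  simp only [Pr.ent, dt, wc, ← h.s1, ← h.s2, ← h'.s1, ← h'.s2, h.f10, h'.f10]

theorem rmFit.tst {w : ℕ} (h : p.rmFit F k g e x y w u) (ok : p.OK) (hk : k + 1 + g ≤ p.K)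
    (hr : p.Rel F (k + 1) g e x y) (hm : p.mrg true k x) :
    p.tst F k g 1 u e true x ∧ p.tst F k g 1 u e false y := by
  obtain ⟨e1, e2⟩ := rm_low h.s1 h.s2
  obtain ⟨b1, b2⟩ := rm_room ok hk
  have b3 := p.ell_le (k + 1) x y
  have b4 := (p.ell_mono k x y).1
  rw [ia_ell] at b4
  have h1 : (p.sl g 1 u true).ft (p.sl g 1 u false) := h.s1 ▸ h.s2 ▸ hr.1.2.2.2
  have h2 : (p.sl g 1 u true).gap' (p.sl g 1 u false) ≤ B * g := h.s1 ▸ h.s2 ▸ hr.1.2.2.1
  have h3 : (p.sl g 1 u true).mrg true ↔ 1 ≠ 0 := iff_of_true (h.s1 ▸ hm) one_ne_zero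
  refine ⟨⟨h.s1, h1, h2, h3, e2 ▸ h.f11, fun _ => h.f12⟩, h.s2, h1, h2, h3, ?_, fun _ => ?_⟩
  · rw [e2, ← h.f11]
    exact ((win_iff ok (by omega)).2 fun i hi => hr.2 i
      (mem_union_left _ (mem_range.2 (by have := mem_Ico.1 hi; omega)))).symm
  · rw [← h.f12]
    exact ((win_iff ok b2).2 fun i hi => hr.2 i (mem_union_right _ hi)).symm

theorem rm_wild {v f t w l : ℕ} (h : Ag (Ico w l) f (v ^^^ t)) :
    Ag (range l) v (f ^^^ (t ^^^ (f ^^^ t ^^^ v) % 2 ^ w)) := by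
  rw [rm_ag] at h ⊢
  intro i hi
  simp only [Nat.testBit_xor, Nat.testBit_mod_two_pow] at h ⊢
  by_cases hw : i < w
  · simp only [hw, decide_true, Bool.true_and]
    cases v.testBit i <;> cases f.testBit i <;> cases t.testBit i <;> rfl
  · rw [h i (mem_Ico.2 ⟨not_lt.1 hw, mem_range.1 hi⟩)]
    simp only [hw, decide_false, Bool.false_and]
    cases v.testBit i <;> cases t.testBit i <;> rfl

theorem rm_cmp (h : p.Gd F) (hk : k + 1 + g ≤ p.K) (he : p.EOk e)
    (hT : ∀ e, p.EOk e → p.TabOk F k 0 e) (hr : p.Rel F (k + 1) g e x y)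
    (ht : p.typ true (k + 1) x = 1) (hτ : 3 / 4 ≤ p.tau (k + 1) g x y) :
    ∃ u < p.nl g 1, (p.rawM F k (p.raw F k) g e).ps true u x = 1 ∧
      (p.rawM F k (p.raw F k) g e).ps false u y = 1 ∧ p.enM k g u (p.raw F k) e true x = y := by
  have hm : p.mrg true k x := by
    by_contra h0
    exact zero_ne_one ((if_neg fun h1 => h0 (Or.resolve_left h1 (Nat.succ_ne_zero k))).symm.trans ht)
  obtain ⟨z, hz, z1, z2, z3⟩ := h.low k g hk x y (e (2, false)) (val F e true x ^^^ e (2, true))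
    (he 2).1 hm (by linarith)
  have hN : 0 < p.NL := pow_pos (Nat.two_pow_pos _) _
  have hw : (F (z ^^^ e (2, false)) ^^^ e (2, true) ^^^ val F e true x) % 2 ^ p.wd g < 2 ^ p.wd g :=
    Nat.mod_lt _ (Nat.two_pow_pos _)
  obtain ⟨u₀, -, f₀, -⟩ := rm_fit (F := F) (e := e) h.toOK hk hr.1 hm hw hN hN
  have hE := fun b => hT _ ((he.ent h.toOK hk 1 u₀).hf b)
  have a1 : Ag (range (p.ell k x y)) (val F e true x) (p.rmV F g u₀ e z) := by
    have hv : val F e true x < 2 ^ (2 * p.m) := Nat.xor_lt_two_pow (h.hF _) (he _).2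
    rw [rmV, wc, if_neg one_ne_zero, f₀.f10, Nat.mod_eq_of_lt ((Nat.mod_le _ _).trans_lt
      (Nat.xor_lt_two_pow (Nat.xor_lt_two_pow (h.hF _) (he 2).2) hv))]
    exact rm_wild z3
  have b1 := (p.ell_mono k x y).1
  have b2 := p.ia_ell k x y
  have s1 := ia_st (z1.trans_ne one_ne_zero)
  have s2 := ia_st (z2.trans_ne one_ne_zero)
  obtain ⟨l₁, hl₁, q1, q2, q3⟩ := (hE true).cmp (x % p.n k) z ⟨s1, by
    rw [rm_end true (p.rm_mod k x), rm_dt hr.1.1 f₀.s1, Q, (rm_ell s1).1, v_mod]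
    refine fun i hi => (a1 i (mem_range.2 ?_)).trans (congrArg (bt · i) (rm_mid true z).symm)
    simp only [mul_zero, add_zero, Ico_self, union_empty, mem_range] at hi
    omega⟩ (by linarith [tau_of_sig (z1.trans_ne one_ne_zero)])
  obtain ⟨l₂, hl₂, q4, q5, q6⟩ := (hE false).cmp z (y % p.n k) ⟨s2, by
    rw [rm_end false (p.rm_mod k y), rm_dt hr.1.2.1 f₀.s2, Q, (rm_ell s2).2, v_mod]
    intro i hi
    simp only [mul_zero, add_zero, Ico_self, union_empty, mem_range] at hi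
    exact (congrArg (bt · i) (rm_mid false z)).trans ((a1 i (mem_range.2 (by omega))).symm.trans
      (hr.2 i (mem_union_left _ (mem_range.2 (by omega)))))⟩
    (by linarith [tau_of_sig (z2.trans_ne one_ne_zero)])
  have q7 := ((hE true).snd true l₁ _ (p.rm_mod k x) (q1.trans_ne one_ne_zero)).2
  have q8 := ((hE false).snd true l₂ _ hz (q4.trans_ne one_ne_zero)).2
  rw [q3] at q7
  rw [q6] at q8
  obtain ⟨u, hu, f, rfl, rfl⟩ := rm_fit (F := F) (e := e) h.toOK hk hr.1 hm hw hl₁ hl₂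
  rw [f₀.ent f] at q1 q2 q3 q4 q5 q6 q7 q8
  obtain ⟨t1, t2⟩ := f.tst h.toOK hk hr hm
  have m1 : p.miM k g u (p.raw F k) e true x = z := q3
  have m2 : p.miM k g u (p.raw F k) e false y = z := q8
  have e1 : p.enM k g u (p.raw F k) e true x = y := by
    rw [enM, m1]
    exact (congrArg (· + _) q6).trans (rm_dt hr.1.2.1 f.s2)
  have e2 : p.enM k g u (p.raw F k) e false y = x := by
    rw [enM, m2]
    exact (congrArg (· + _) q7).trans (rm_dt hr.1.1 f.s1)
  refine ⟨u, hu, ?_, ?_, e1⟩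
  · simp only [rawM, m1, Bool.not_true, if_pos t1, q1, q4, one_mul]
    exact if_pos (e1.symm ▸ t2)
  · simp only [rawM, m2, Bool.not_false, if_pos t2, q2, q5, one_mul]
    exact if_pos (e2.symm ▸ t1)

theorem rawOkM (h : p.Gd F) (hk : k + 1 + g ≤ p.K) (he : p.EOk e)
    (hT : ∀ e, p.EOk e → p.TabOk F k 0 e) :
    p.RawOk F (k + 1) g 1 e (p.rawM F k (p.raw F k) g e) := by
  have h1 : ∀ d u x, 0 ≤ (p.rawM F k (p.raw F k) g e).ps d u x ∧
      (p.rawM F k (p.raw F k) g e).ps d u x ≤ 1 := fun d u x => by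
    have hE := fun b => hT _ ((he.ent h.toOK hk 1 u).hf b)
    refine ia_mul (ia_mul ?_ (ia_mul ((hE _).q_mem _ _ _) ((hE _).q_mem _ _ _))) ?_ <;>
      split_ifs <;> norm_num
  exact ⟨fun d u x => (h1 d u x).1, fun d u x => (h1 d u x).2,
    fun _ _ _ hx => rm_snd h.toOK hk he hT hx, fun _ _ => rm_cmp h hk he hT⟩

theorem rm_all (h : p.Gd F) : ∀ k g e, k + g ≤ p.K → p.EOk e → ∀ ty ≤ 1,
    p.RawOk F k g ty e (p.raw F k g ty e)
  | 0, _, e, hk, _, ty, hty => rawOk0 h.toOK (by omega) ty hty e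
  | k + 1, g, e, hk, he, ty, hty => by
    have hT : ∀ g, k + g ≤ p.K → ∀ e, p.EOk e → p.TabOk F k g e := fun g hg e he =>
      tabOk_of h hg he (rm_all h k g e hg he)
    rw [raw]
    split_ifs with h0
    · exact h0 ▸ rawOkU h hk he (hT _ (by omega))
    · exact (show 1 = ty by omega) ▸ rawOkM h hk he (hT _ (by omega))

theorem rawOk (h : p.Gd F) (hk : k + g ≤ p.K) (he : p.EOk e) (hty : ty ≤ 1) :
    p.RawOk F k g ty e (p.raw F k g ty e) := rm_all h k g e hk he ty hty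

theorem tabOk (h : p.Gd F) (hk : k + g ≤ p.K) (he : p.EOk e) : p.TabOk F k g e :=
  tabOk_of h hk he (rm_all h k g e hk he)

end Pr

end Vale.Agent.P313.NL2
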