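import Vale.Agent.P313.NL2.Lay
import Vale.Agent.P313.NL2.RawM
import Vale.Agent.P313.Full.TopBox

/-! The statistic, the visibility and the procedures at the top. -/

namespace Vale.Agent.P313.NL2

open Finset Function Vale.Agent.P313.Hi Vale.Agent.P313.NL Vale.Agent.P313.KH Vale.Agent.P313.Full
  Vale.Agent.P313.Full.Tm Vale.Agent.P313.Full.Pg

variable {α : Type} {c : α → In} {a : α} {k g ty : ℕ}

namespace HS

variable {s : St} {n l x y : ℕ} {d : Bool} {q : Cx} {p : Pr}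

theorem nx_lt (p : Pr) (k : ℕ) (s : St) : p.nx k s < p.n k := Nat.mod_lt _ (nm_pos _ _)

theorem nx_mv (hy : y < p.n k) (s : St) : p.nx k (p.mv k s y) = y := by
  rw [Pr.nx, Pr.mv, update_self, Nat.add_mul_mod_self_left, Nat.mod_eq_of_lt hy]

theorem mv_mem (hk : k ≤ (c a).K) (hs : s ∈ (prog c).box a) (hy : y < (c a).n k) :
    (c a).mv k s y ∈ (prog c).box a := by
  refine update_mem_box hs ?_
  obtain ⟨m, hm⟩ : (c a).n k ∣ (c a).n (c a).K := nm_dvd _ hk
  have h1 : s .pos < (c a).n (c a).K := Pg.mem_box.1 hs .pos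
  have h2 : s .pos / (c a).n k < m := Nat.div_lt_of_lt_mul (hm ▸ h1)
  calc _ < (c a).n k * (s .pos / (c a).n k + 1) := by rw [mul_add_one]; omega
    _ ≤ (c a).n k * m := Nat.mul_le_mul_left _ h2
    _ = _ := hm.symm

theorem env_upd (s : St) (i : Ix) (t : ℕ) : env (update s (.e i) t) = update (env s) i t := by
  funext j
  by_cases h : j = i
  · rw [h, env, update_self, update_self]
  · rw [env, update_of_ne (by simpa using h), update_of_ne h, env]

theorem nx_upd (p : Pr) (k : ℕ) (s : St) (i : Ix) (t : ℕ) :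
    p.nx k (update s (.e i) t) = p.nx k s := by
  rw [Pr.nx, update_of_ne (by simp), Pr.nx]

theorem sw_mem {F : ℕ → ℕ → ℝ} (hx : x < n) (hy : y < n)
    (h : ∀ x y, x < n → y < n → 0 ≤ F x y ∧ F x y ≤ 1) : cl (sw d F x y) = sw d F x y := by
  cases d
  · exact cl_eq (h _ _ hy hx).1 (h _ _ hy hx).2
  · exact cl_eq (h _ _ hx hy).1 (h _ _ hx hy).2

theorem far_lt (h : (c a).Gd (c a).F) (hk : k + g ≤ (c a).K) (hs : s ∈ (prog c).box a)
    (hq : (c a).tq (c a).F k g (env s) d l ((c a).nx k s) ≠ 0) :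
    (c a).tp (c a).F k g (env s) d l ((c a).nx k s) < (c a).n k :=
  (Pr.Rel.lt (((Pr.tabOk h hk (eok_env hs)).snd d l _ (nx_lt _ _ _) hq).1)).2

theorem val_tw (h : (c a).Gd (c a).F) (hk : k + g ≤ (c a).K) (hT : TabI c a k g)
    (hs : s ∈ (prog c).box a) (h1 : q .k = k) (h2 : q .g = g) (h3 : q .lab < (c a).NL)
    (hq : (c a).tq (c a).F k g (env s) d (q .lab) ((c a).nx k s) ≠ 0) (φ : ℕ → ℝ → ℝ → ℝ) :
    (prog c).Val a n (twT c d φ) q s (sw d (fun x y => φ g ((c a).tau k g x y) ((c a).w k x y))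
      ((c a).nx k s) ((c a).tp (c a).F k g (env s) d (q .lab) ((c a).nx k s))) := by
  have e1 : kT c a q = k := by rw [kT, Pr.kq, h1, min_eq_left (by omega)]
  have e2 : gT c a q = g := by rw [gT, Pr.gq, h2, min_eq_left (by omega)]
  obtain ⟨-, h4, h5⟩ := (hT (kT c) (gT c) (vr .lab) q n e1 e2 h3 s hs d).2.2 hq
  refine (h5.app h4).congr ?_
  rw [e2, vr, sw_mem (nx_lt _ _ _) (far_lt h hk hs hq) fun _ _ => Pr.w_mem h.toOK]
  cases d <;> rfl

theorem NL_pos (p : Pr) : 0 < p.NL := by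
  unfold Pr.NL Pr.W
  positivity

theorem ok_of {t : Pn} {v : ℝ} (hw : (prog c).WF a) (h : (prog c).PVal a t q s v) :
    s ∈ (prog c).cD a t q true ∧ ((prog c).cE a t q).val s = v :=
  ⟨h.2.1, by rw [cE_eq hw h.1]; exact h.2.2⟩

end HS

open HS

theorem hI_of (hw : (prog c).WF a) (h : (c a).Gd (c a).F) (hk : k + g ≤ (c a).K)
    (hT : TabI c a k g) (hH : k ≠ 0 → HI c a (k - 1) (g + 1)) : HI c a k g := by
  classical
  intro s hs d
  have e1 : ∀ l, kT c a (update (mk k g 0 0 0 0 0) .lab l) = k := fun _ =>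
    min_eq_left (le_of_add_le_left hk)
  have e2 : ∀ l, gT c a (update (mk k g 0 0 0 0 0) .lab l) = g := fun _ =>
    min_eq_left (le_of_add_le_right hk)
  have e3 : kT c a (mk k g 0 0 0 0 0) = k := min_eq_left (le_of_add_le_left hk)
  have e4 : (2 : ℕ) ^ (c a).m * 2 ^ (c a).m = 2 ^ (2 * (c a).m) := by rw [two_mul, pow_add]
  have hb : ∀ t < 2 ^ (c a).m * 2 ^ (c a).m, update s (.e (rl (!d), true)) t ∈ (prog c).box a :=
    fun t ht => update_mem_box hs (ht.trans_eq e4)
  refine ⟨⟨hk, zero_le_one, NL_pos _, Nat.two_pow_pos _, rfl, rfl, fun _ => rfl, rfl⟩,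
    (Val.app (v := (c a).sg k g d ((c a).nx k s)) (w := (c a).prev k g d ((c a).nx k s))
      ((Val.avg (f := fun t => ∑ y ∈ range ((c a).n k), if sw d ((c a).Rel (c a).F k g
        (update (env s) (rl (!d), true) t)) ((c a).nx k s) y then
          sw d ((c a).mu k g) ((c a).nx k s) y else 0) fun t ht => ?_).congr ?_) ?_).congr ?_⟩
  · have hO := Pr.tabOk h hk (eok_env (hb t ht))
    refine (Val.sum fun l hl => (hT (kT c) (gT c) (vr .lab) _ _ (e1 l) (e2 l) hl _ (hb t ht)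
      d).2.1.guard fun h0 => val_tw h hk hT (hb t ht) rfl rfl hl (hO.q_of_o _ _ _ h0) muF).congr ?_
    rw [← env_upd, ← nx_upd _ k s (rl (!d), true) t]
    exact hO.sum d _ (nx_lt _ _ _) _ fun y hy => by
      cases d <;> exact (Pr.tau_of_mu hy).le
  · change _ / ((2 ^ (c a).m * 2 ^ (c a).m : ℕ) : ℝ) = _
    change (∑ t ∈ range (2 ^ (c a).m * 2 ^ (c a).m), _) / _ = _
    rw [e4, Nat.cast_pow, Nat.cast_ofNat, Pr.avg_rel h hk (eok_env hs)]
    refine sum_congr rfl fun y _ => ?_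
    split_ifs with h1
    · cases d <;> rfl
    · by_contra h2
      have h3 : sw d ((c a).mu k g) ((c a).nx k s) y ≠ 0 := fun h3 => h2 (by
        cases d <;> exact (div_eq_zero_iff.2 (.inl h3)).symm)
      exact h1 (by cases d <;> exact Pr.st_of_tau (by linarith [Pr.tau_of_mu h3]))
  · rcases eq_or_ne k 0 with rfl | h0
    · exact (Val.casT rfl Val.cst).congr (if_pos (.inl rfl)).symm
    refine Val.casF (decide_eq_false h0) ?_
    by_cases h1 : (c a).new d k ((c a).nx k s)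
    · exact (Val.altT (by rw [e3]; exact decide_eq_true h1) Val.cst).congr (if_pos h1).symm
    refine (Val.altF (by rw [e3]; exact decide_eq_false h1) (Val.ap1 (Val.cal hw (v := (c a).h (k - 1)
      (g + 1) d ((c a).nx (k - 1) s)) ?_))).congr ?_
    · have e5 : (c a).gq (mk k g 0 0 0 0 0) = g := min_eq_left (le_of_add_le_right hk)
      have e6 : (c a).kq (mk k g 0 0 0 0 0) = k := e3
      simp only [jT, g1, z0, e5, e6]
      exact hH h0 s hs d
    · have h2 := Pr.h_mem h.toOK (k - 1) (g + 1) d ((c a).nx (k - 1) s)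
      rw [cl_eq h2.1 h2.2, Pr.prev, Pr.preve, if_neg h1, Pr.nx, Pr.nx, Pr.n, Pr.n,
        mod_nm_mod _ (Nat.sub_le _ _)]
  · have h1 : 0 ≤ (c a).prev k g d ((c a).nx k s) := by
      rw [Pr.prev, Pr.preve]
      split_ifs
      · rfl
      · exact mul_nonneg zero_le_two (Pr.ia_h0 _ _ _ _ _)
    rw [Pr.h_eq, cl, max_eq_right (le_min zero_le_one (le_max_of_le_right h1))]

theorem sI_of (hw : (prog c).WF a) (h : (c a).Gd (c a).F) (hk : k + g ≤ (c a).K)
    (hT : TabI c a k g) (hH : HI c a k g) : SI c a k g := by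
  intro l hl s hs d hq
  have e1 : kT c a (mk k g 0 l 0 0 0) = k := min_eq_left (le_of_add_le_left hk)
  have e2 : gT c a (mk k g 0 l 0 0 0) = g := min_eq_left (le_of_add_le_right hk)
  have h1 := far_lt h hk hs hq
  have h2 : ∀ n d, ∀ s ∈ (prog c).box a, (prog c).Val a n (fn rd (cN (.HH d) (kT c) (gT c) z0))
      (mk k g 0 l 0 0 0) s (rd ((c a).h k g d ((c a).nx k s))) := fun n d s hs =>
    Val.ap1 (Val.cal hw (by simp only [e1, e2, z0]; exact hH s hs d))
  refine ⟨⟨hk, zero_le_one, hl, Nat.two_pow_pos _, rfl, rfl, fun _ => rfl, trivial⟩,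
    ((val_tw h hk hT hs rfl rfl hl hq sgF).guard fun _ => (h2 _ d s hs).guard fun _ =>
      Val.hop ((hT (kT c) (gT c) (vr .lab) _ _ e1 e2 hl s hs d).2.2 hq).1
        (h2 _ (!d) _ (mv_mem (by omega) hs h1))).congr ?_⟩
  rw [show (c a).nx k ((c a).mv k s ((c a).tp (c a).F k g (env s) d
    (vr Cr.lab a (mk k g 0 l 0 0 0)) ((c a).nx k s))) = _ from nx_mv h1 s]
  cases d
  · exact congrArg _ (mul_comm _ _)
  · rfl

theorem top_H (hw : (prog c).WF a) (h : (c a).Gd (c a).F) (hk : k ≤ (c a).K) (hL : LevI c a k)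
    (hx : (c a).x0 < (c a).n k) (d : Bool) :
    (∀ s ∈ (prog c).box a, s ∈ (prog c).cD a (.TH d) (mk k 0 0 0 0 0 0) true) ∧
      (∑ s ∈ (prog c).box a, ((prog c).cE a (.TH d) (mk k 0 0 0 0 0 0)).val s) / #((prog c).box a) =
        (c a).h k 0 d (c a).x0 / (c a).n (c a).K := by
  have e1 : kT c a (mk k 0 0 0 0 0 0) = k := min_eq_left hk
  have h1 : ∀ s ∈ (prog c).box a, (prog c).PVal a (.TH d) (mk k 0 0 0 0 0 0) s
      (if s .pos = (c a).x0 then (c a).h k 0 d (c a).x0 else 0) := fun s hs =>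
    ⟨⟨hk, zero_le_one, NL_pos _, Nat.two_pow_pos _, rfl, rfl, fun _ => rfl, rfl, rfl⟩,
      Val.guard_ite (Val.tst.congr (by simp only [decide_eq_true_eq])) fun h0 => Val.cal hw (by
        have := (hL 0 hk).2.1 s hs d
        rw [Pr.nx, h0, Nat.mod_eq_of_lt hx] at this
        simp only [e1, z0]
        exact this)⟩
  refine ⟨fun s hs => (ok_of hw (h1 s hs)).1, ?_⟩
  rw [sum_congr rfl fun s hs => (ok_of hw (h1 s hs)).2]
  have hb : ∀ r, 0 < (c a).bd r := fun r => by
    rcases r with _ | _ | ⟨_, _ | _⟩ <;> exact Nat.two_pow_pos _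
  exact (bavg_pin (bd := (c a).bd) (i := .pos) (hx.trans_le (nm_le _ hk)) _).trans
    (by rw [bavg_const hb]; rfl)

theorem top_W (hw : (prog c).WF a) (h : (c a).Gd (c a).F) (hk : k ≤ (c a).K) (hL : LevI c a k)
    (hx : (c a).x0 < (c a).n k) (hy : (c a).y0 < (c a).n k) :
    (∀ s ∈ (prog c).box a, s ∈ (prog c).cD a .TW (mk k 0 0 0 0 0 0) true) ∧
      (∑ s ∈ (prog c).box a, ((prog c).cE a .TW (mk k 0 0 0 0 0 0)).val s) / #((prog c).box a) =
        (c a).rw k (c a).x0 (c a).y0 / 2 ^ (c a).ell k (c a).x0 (c a).y0 / (c a).n (c a).K := by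
  classical
  obtain ⟨hT, -, hS⟩ := hL 0 hk
  have e1 : ∀ l, kT c a (update (mk k 0 0 0 0 0 0) .lab l) = k := fun _ => min_eq_left hk
  have hr : ∀ x y, (c a).rw k x y ≠ 0 → (c a).sig k 0 x y ≠ 0 := fun x y h0 h1 => h0 (by
    rw [Pr.rw, h1, mul_zero, ite_self])
  have h1 : ∀ s ∈ (prog c).box a, (prog c).PVal a .TW (mk k 0 0 0 0 0 0) s
      (if s .pos = (c a).x0 then ∑ y ∈ range ((c a).n k), if (c a).Rel (c a).F k 0 (env s) (c a).x0 y
        then (if y = (c a).y0 then (c a).rw k (c a).x0 y else 0) else 0 else 0) := fun s hs => by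
    refine ⟨⟨hk, zero_le_one, NL_pos _, Nat.two_pow_pos _, rfl, rfl, fun _ => rfl, rfl, rfl⟩,
      Val.guard_ite (Val.tst.congr (by simp only [decide_eq_true_eq])) fun h0 => ?_⟩
    have hO := Pr.tabOk (g := 0) h hk (eok_env hs)
    have e2 : (c a).nx k s = (c a).x0 := by rw [Pr.nx, h0, Nat.mod_eq_of_lt hx]
    refine (Val.ap1 (Val.sum (f := fun l => (c a).tom (c a).F k 0 (env s) true l ((c a).nx k s) *
      if (c a).tp (c a).F k 0 (env s) true l ((c a).nx k s) = (c a).y0 then (c a).rw k ((c a).nx k s)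
        ((c a).tp (c a).F k 0 (env s) true l ((c a).nx k s)) else 0) fun l hl => ?_)).congr ?_
    · obtain ⟨-, h2, h3⟩ := hT (kT c) z0 (vr .lab) (update (mk k 0 0 0 0 0 0) .lab l)
        ((prog c).sz .TW a (mk k 0 0 0 0 0 0)) (e1 l) rfl hl s hs true
      refine h2.guard fun h4 => ?_
      have h5 := hO.q_of_o _ _ _ h4
      have h6 := far_lt (g := 0) h hk hs h5
      obtain ⟨h7, h8, -⟩ := h3 h5
      refine ((h8.app (Val.cal hw (by simp only [e1]; exact hS l hl s hs true h5))).guard fun _ =>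
        Val.hop h7 Val.tst).congr ?_
      have h9 := Pr.w_mem h.toOK (nx_lt _ k s) h6
      have h10 := Pr.sig_mem (c a).toPr k 0 ((c a).nx k s)
        ((c a).tp (c a).F k 0 (env s) true l ((c a).nx k s))
      simp only [e1, decide_eq_true_eq, mul_ite, mul_one, mul_zero, sw, cond_true, vr, update_self]
        at h6 h9 ⊢
      rw [nx_mv h6, cl_eq h9.1 h9.2, cl_eq h10.1 h10.2, Pr.rw, Pr.nx, Pr.v_mod]
    · have h2 := hO.sum true _ (nx_lt _ k s) (fun y => if y = (c a).y0 then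
        (c a).rw k ((c a).nx k s) y else 0) fun y h2 => by
          have := Pr.tau_of_sig (hr _ _ fun h3 => h2 (by rw [h3, ite_self]))
          exact le_trans (by norm_num) this.le
      change cl (∑ l ∈ range (c a).NL, _) = _
      rw [h2, e2]
      have h3 := Pr.rw_mem h.toOK k (c a).x0 (c a).y0
      refine cl_eq (sum_nonneg fun y _ => ?_) ?_
      · split_ifs
        exacts [(Pr.rw_mem h.toOK _ _ _).1, le_rfl, le_rfl]
      · rw [sum_eq_single (c a).y0 (fun y _ h4 => by rw [if_neg h4, ite_self])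
          fun h4 => absurd (mem_range.2 hy) h4, if_pos rfl]
        split_ifs
        exacts [h3.2, zero_le_one]
  refine ⟨fun s hs => (ok_of hw (h1 s hs)).1, ?_⟩
  rw [sum_congr rfl fun s hs => (ok_of hw (h1 s hs)).2]
  have hb : ∀ r, 0 < (c a).bd r := fun r => by
    rcases r with _ | _ | ⟨_, _ | _⟩ <;> exact Nat.two_pow_pos _
  refine (bavg_pin (bd := (c a).bd) (i := .pos) (hx.trans_le (nm_le _ hk)) _).trans
    (congrArg (· / _) ?_)
  rw [bavg_mean (hb (.e (rl false, true))), ← bavg_const hb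
    ((c a).rw k (c a).x0 (c a).y0 / 2 ^ (c a).ell k (c a).x0 (c a).y0)]
  refine bavg_congr fun s hs => ?_
  have e2 : ∀ t, env (update (update s (.e (rl false, true)) t) .pos (c a).x0) =
      update (env s) (rl false, true) t := fun t => by
    rw [← env_upd]
    exact funext fun j => update_of_ne (by simp) _ _
  have h2 := Pr.avg_rel (g := 0) h hk (eok_env (c := c) hs) true (c a).x0
    fun y => if y = (c a).y0 then (c a).rw k (c a).x0 y else 0
  simp only [e2, mean]
  refine ((congrArg (_ / ·) (by push_cast [Pr.bd]; rfl)).trans h2).trans ?_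
  rw [sum_eq_single (c a).y0 (fun y _ h3 => by rw [if_neg h3, zero_div, ite_self])
    fun h3 => absurd (mem_range.2 hy) h3, if_pos rfl]
  split_ifs with h3
  · rfl
  · by_contra h4
    exact h3 (Pr.ia_st (hr _ _ fun h5 => h4 (by rw [h5, zero_div])))

end Vale.Agent.P313.NL2
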