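import Vale.Agent.P313.Full.HiName
import Vale.Agent.P313.NL.CPLay

/-! The ideal tables on the hierarchy of chains: weights, visibility, load statistics. -/

namespace Vale.Agent.P313.NL2

open Finset Vale.Agent.P313.Hi Vale.Agent.P313.NL

/-- The parameters: graph, number of stages, half of the length of a register, word size. -/
structure Pr where
  N : ℕ
  A0 : ℕ → ℕ → ℕ
  n0 : ℕ
  K : ℕ
  m : ℕ
  lk : ℕ

/-- The number of thinning bits per age. -/
noncomputable def cc : ℕ := 3 * a + 3 * B + 11

/-- The number of wildcard bits per age. -/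
noncomputable def cw : ℕ := 2 * B + 2

/-- The logarithm of the bound for the expected number of visible entries. -/
noncomputable def c5 : ℕ := 4 * a + 5 * B + 20

/-- A function of a pair, seen from the near end `v` (`d = true`: the source). -/
def sw {β : Sort*} (d : Bool) (F : ℕ → ℕ → β) (v f : ℕ) : β := bif d then F v f else F f v

/-- The ages at which the weight is read. -/
def tA (g : ℕ) : Prop := g = 0 ∨ g = 2 ^ Nat.log 2 g

/-- The scaled weight. -/
noncomputable def sc (g : ℕ) (w : ℝ) : ℝ := min 1 (w * 2 ^ ((B + 2) * g))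

/-- The ramp at the level where an entry is created. -/
noncomputable def r0 (o : ℝ) : ℝ := cl (o * 2 ^ (B + 4) - 1)

/-- The ramp at the test ages. -/
noncomputable def r1 (o : ℝ) : ℝ := cl (o * 2 ^ (B + 2) - 1)

/-- The guard against overload. -/
noncomputable def rd (h : ℝ) : ℝ := cl (3 - 4 * h)

open Classical in
/-- The load of an entry with raw visibility `t` and weight `w`. -/
noncomputable def muF (g : ℕ) (t w : ℝ) : ℝ := cl (4 * t - 3) * if tA g then sc g w else 1

open Classical in
/-- The visibility without the guards. -/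
noncomputable def sgF (g : ℕ) (t w : ℝ) : ℝ := cl (8 * t - 7) * if tA g then r1 (sc g w) else 1

/-- `1 - χ_B` of a normalised statistic. -/
noncomputable def uns (t : ℝ) : ℝ := 1 - chi B (2 ^ (B + 1) * t)

/-- The factor of a class on the side `d`, as a function of the two normalised statistics
(`s` for the incoming edges, `t` for the outgoing edges). -/
noncomputable def fac (d : Bool) (c : G) (s t : ℝ) : ℝ :=
  bif d then zeta c.1 (2 ^ (B + 1) * s) * chi c.2.1 (2 ^ (B + 1) * t)
  else chi c.1 (2 ^ (B + 1) * s) * zeta c.2.1 (2 ^ (B + 1) * t)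

/-- The signature of a name on one side: the view, the level of the other view, the code of the
next digit. -/
structure Sg where
  l : ℕ
  lam : ℕ
  wt : Bool
  ol : ℕ
  c : ℕ

namespace Sg

variable (S T : Sg)

/-- The view. -/
def vw : View := ⟨S.l, S.lam, S.wt⟩

/-- The next digit. -/
noncomputable def dg : Dig := Hi.dig S.c

/-- The index on the next level. -/
noncomputable def l' (d : Bool) : ℕ := S.l + (S.dg.ed d).1

/-- The index of a pair. -/
def ell : ℕ := max S.l T.l

/-- The index of a pair on the next level. -/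
noncomputable def ell' : ℕ := max (S.l' true) (T.l' false)

/-- The difference of the two indices. -/
def gap : ℕ := (S.l - T.l) + (T.l - S.l)

/-- The difference of the two indices on the next level. -/
noncomputable def gap' : ℕ := (S.l' true - T.l' false) + (T.l' false - S.l' true)

/-- The edges on the side `d` of the name of the next level are merged edges. -/
def mrg (d : Bool) : Prop := (S.dg.ed d).2.2.1 = 2

/-- The digits fit. -/
def ft : Prop := vld S.c ∧ vld T.c ∧ fit S.vw T.vw (S.dg.ed true) (T.dg.ed false)

/-- The edge approves the elimination of its target. -/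
def P1 : Prop := T.ol ≤ S.ol + 2

/-- The edge approves the elimination of its source. -/
def P2 : Prop := S.ol ≤ T.ol + 2

/-- Both classes are not saturated. -/
def nsat : Prop := (S.dg.1.2.1 : ℕ) < B ∧ (T.dg.1.1 : ℕ) < B

/-- The exponent of the number of clones. -/
noncomputable def gs : ℕ := S.dg.1.2.1 + T.dg.1.1

open Classical in
/-- The part of an entry of weight `t` which goes to the pair of the next level. -/
noncomputable def part (t : ℝ) : ℝ :=
  if (S.dg.ed true).2.2.1 = 0 then
    if S.dg.1.2.2 = false then 1 - if S.nsat T ∧ S.wt = false then phi t else 0 else 0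
  else if (S.dg.1.2.2 = true ↔ S.P2 T) ∧ S.nsat T ∧ S.wt = false then
    if S.P1 T ∧ T.dg.1.2.2 = true then phi t - phi t / 4 else phi t
  else 0

/-- The weight on the next level of an entry which is not merged; `w` is the weight, `c` the
product of the factors of the classes. -/
noncomputable def wU (w c : ℝ) : ℝ := w * 2 ^ (S.ell' T - S.ell T) * S.part T w * c / 2 ^ S.gs T

open Classical in
/-- The weight of a merged entry; `x` is the thinned weight of the paths. -/
noncomputable def wM (x c : ℝ) : ℝ :=
  if S.nsat T then c * (x * 2 ^ S.gap T) / 2 ^ (S.gs T + 2) else 0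

/-- The tests at the midpoint; `i` and `o` are the levels of its in-view and of its out-view. -/
def mid (i o : ℕ) : Prop :=
  o ≤ S.ol + 2 ∧ i ≤ T.ol + 2 ∧ (S.dg.1.2.2 = true ↔ S.ol ≤ o + 2)

end Sg

namespace Pr

variable (p : Pr)

/-- The number of names. -/
noncomputable def n (k : ℕ) : ℕ := nm p.n0 k

/-- The views. -/
noncomputable def v (d : Bool) (k x : ℕ) : View := vw d p.N p.n0 p.K k x

/-- The signature. -/
noncomputable def sn (d : Bool) (k x : ℕ) : Sg :=
  ⟨(p.v d k x).l, (p.v d k x).lam, (p.v d k x).wt, (p.v (!d) k x).lam, cd p.n0 k x⟩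

/-- The index of a pair. -/
noncomputable def ell (k x y : ℕ) : ℕ := (p.sn true k x).ell (p.sn false k y)

/-- The difference of the two indices. -/
noncomputable def gap (k x y : ℕ) : ℕ := (p.sn true k x).gap (p.sn false k y)

/-- The edges on the side `d` of the name `x` of the level `k + 1` are merged edges. -/
def mrg (d : Bool) (k x : ℕ) : Prop := (p.sn d k x).mrg d

/-- The edges on the side `d` of the name `x` are created on the level `k`. -/
def new (d : Bool) (k x : ℕ) : Prop := k = 0 ∨ p.mrg d (k - 1) x

/-- The digits fit. -/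
def ft : ℕ → ℕ → ℕ → Prop
  | 0, _, _ => True
  | k + 1, x, y => (p.sn true k x).ft (p.sn false k y)

/-- The structural conditions on a pair at the age `g`. -/
def st (k g x y : ℕ) : Prop := x < p.n k ∧ y < p.n k ∧ p.gap k x y ≤ B * g ∧ p.ft k x y

section eta

variable (η : ℕ → ℕ → Bool → ℕ → ℝ)

/-- The hierarchy for given normalised statistics. -/
noncomputable def Le (k : ℕ) : Lv :=
  lv p.N p.n0 p.K p.A0 (fun k v => 2 ^ (B + 1) * η k 0 false v)
    (fun k v => 2 ^ (B + 1) * η k 0 true v) k

/-- The weight. -/
noncomputable def we (k x y : ℕ) : ℝ := (p.Le η k).S x y * 2 ^ p.ell k x y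

open Classical in
/-- The raw visibility. -/
noncomputable def taue : ℕ → ℕ → ℕ → ℕ → ℝ
  | 0, g, x, y => if p.st 0 g x y then r0 (sc g (p.we η 0 x y)) else 0
  | k + 1, g, x, y => if p.st (k + 1) g x y then
      if p.mrg true k x then r0 (sc g (p.we η (k + 1) x y))
      else sgF (g + 1) (taue k (g + 1) (x % p.n k) (y % p.n k)) (p.we η k (x % p.n k) (y % p.n k)) *
        (rd (η k (g + 1) true (x % p.n k)) * rd (η k (g + 1) false (y % p.n k))) else 0

/-- The visibility. -/
noncomputable def sige (k g x y : ℕ) : ℝ :=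
  sgF g (p.taue η k g x y) (p.we η k x y) * (rd (η k g true x) * rd (η k g false y))

/-- The load of an entry. -/
noncomputable def mue (k g x y : ℕ) : ℝ := muF g (p.taue η k g x y) (p.we η k x y)

open Classical in
/-- The statistic of the parent. -/
noncomputable def preve (k g : ℕ) (d : Bool) (v : ℕ) : ℝ :=
  if p.new d k v then 0 else 2 * η (k - 1) (g + 1) d (v % p.n (k - 1))

/-- The thinned visible load. -/
noncomputable def sge (k g : ℕ) (d : Bool) (v : ℕ) : ℝ :=
  ∑ f ∈ range (p.n k), sw d (fun x y => p.mue η k g x y / 2 ^ (p.ell k x y + cc * g)) v f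

/-- The statistic in terms of the statistics of the lower levels. -/
noncomputable def Hn (k g : ℕ) (d : Bool) (v : ℕ) : ℝ :=
  min 1 (max (p.sge η k g d v / 2 ^ (B + 1)) (p.preve η k g d v))

end eta

/-- The normalised statistic. -/
noncomputable def h (k : ℕ) : ℕ → Bool → ℕ → ℝ :=
  p.Hn (fun i => if _ : i < k then h i else 0) k
termination_by k

/-- The hierarchy. -/
noncomputable abbrev L : ℕ → Lv := p.Le p.h

/-- The weight. -/
noncomputable abbrev w : ℕ → ℕ → ℕ → ℝ := p.we p.h

/-- The visibility. -/
noncomputable abbrev sig : ℕ → ℕ → ℕ → ℕ → ℝ := p.sige p.h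

/-- The raw visibility. -/
noncomputable abbrev tau : ℕ → ℕ → ℕ → ℕ → ℝ := p.taue p.h

/-- The load of an entry. -/
noncomputable abbrev mu : ℕ → ℕ → ℕ → ℕ → ℝ := p.mue p.h

/-- The statistic of the parent. -/
noncomputable abbrev prev : ℕ → ℕ → Bool → ℕ → ℝ := p.preve p.h

/-- The thinned visible load. -/
noncomputable abbrev sg : ℕ → ℕ → Bool → ℕ → ℝ := p.sge p.h

/-- The factor of the name `x` of the level `k + 1` on the side `d`. -/
noncomputable def fc (d : Bool) (k x : ℕ) : ℝ :=
  fac d (dg p.n0 k x).1 (p.h k 0 false (x % p.n k)) (p.h k 0 true (x % p.n k))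

/-- The ready visible weight. -/
noncomputable def rw (k x y : ℕ) : ℝ :=
  if (p.v true k x).wt = false then p.w k x y * phi (p.w k x y) * p.sig k 0 x y else 0

/-- The factor of a midpoint. -/
noncomputable def md (k u : ℕ) : ℝ := uns (p.h k 0 false u) * uns (p.h k 0 true u)

open Classical in
/-- The weight of the path through `u` of the merged pair `x`, `y` of the level `k + 1`. -/
noncomputable def zi (k x u y : ℕ) : ℝ :=
  if (p.sn true k x).mid (p.sn false k y) (p.v false k u).lam (p.v true k u).lam then
    p.rw k (x % p.n k) u * p.md k u * p.rw k u (y % p.n k)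
  else 0

/-- The number of wildcard bits. -/
noncomputable def wd (g : ℕ) : ℕ := p.lk + cw * (g + 1)

/-- The positions on which the hash values of a pair must agree. -/
noncomputable def Q (k g x y : ℕ) : Finset ℕ :=
  range (p.ell k x y) ∪ Ico (B * p.K) (B * p.K + cc * g)

/-- The hypotheses on the graph and on the parameters. -/
structure OK : Prop where
  sub : F43.Sub (F43.mat p.N p.A0 2)
  two : 2 ≤ p.N
  deg : ∀ y, #{x ∈ range p.N | p.A0 x y ≠ 0} ≤ 2
  hN : p.N ≤ 2 ^ p.n0
  hm : p.n0 + a * p.K + (B + C + 2) * p.K + cc * p.K ≤ p.m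
  big : a ≤ p.lk
  hlk : 2 * p.m < 2 ^ p.lk

open Classical in
/-- The hash function is good. -/
structure Good (F : ℕ → ℕ) : Prop where
  up : ∀ k g, k + g ≤ p.K → ∀ d x U t, U < p.n p.K →
    #{f ∈ range (p.n k) | sw d (p.tau k g) x f ≠ 0 ∧ Ag (sw d (p.Q k g) x f) (F (f ^^^ U)) t} ≤
      2 ^ p.lk
  low : ∀ k g, k + 1 + g ≤ p.K → ∀ x y U t, U < p.n p.K → p.mrg true k x →
    p.tau (k + 1) g x y ≠ 0 → ∃ z < p.n k, p.sig k 0 (x % p.n k) z = 1 ∧ p.sig k 0 z (y % p.n k) = 1 ∧
      Ag (Ico (p.wd g) (p.ell k x y)) (F (z ^^^ U)) t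

end Pr

end Vale.Agent.P313.NL2
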