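import Vale.Agent.P313.NL2.IdealA

/-! The ideal tables: names, indices and the recursions for the weights. -/

namespace Vale.Agent.P313.NL2.Pr

open Finset Vale.Agent.P313.Hi Vale.Agent.P313.NL

variable {p : Pr} {k g x y v : ℕ} {d : Bool}

theorem sn_mod (p : Pr) (d : Bool) (k x : ℕ) : p.sn d k (x % p.n (k + 1)) = p.sn d k x := by
  simp only [sn, Pr.v, n, vw_mod _ _ _ _ _ (Nat.le_succ k), cd_mod (Nat.lt_succ_self k)]

theorem v_mod (p : Pr) (d : Bool) (k x : ℕ) : p.v d k (x % p.n k) = p.v d k x :=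
  vw_mod _ _ _ _ _ le_rfl

theorem IB.ell_eq (p : Pr) (k x y : ℕ) : p.ell k x y = max (p.v true k x).l (p.v false k y).l := rfl

theorem IB.gap_eq (p : Pr) (k x y : ℕ) : p.gap k x y =
    ((p.v true k x).l - (p.v false k y).l) + ((p.v false k y).l - (p.v true k x).l) := rfl

theorem IB.l_succ (p : Pr) (d : Bool) (k x : ℕ) : (p.v d k x).l ≤ (p.v d (k + 1) x).l ∧
    (p.v d (k + 1) x).l ≤ (p.v d k x).l + B := by
  simpa only [mul_one, Pr.v] using vw_l_add d p.N p.n0 p.K x k 1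

theorem ell_mod (p : Pr) (k x y : ℕ) : p.ell k (x % p.n k) (y % p.n k) = p.ell k x y := by
  rw [IB.ell_eq, IB.ell_eq, v_mod, v_mod]

theorem ell_succ (p : Pr) (k x y : ℕ) :
    p.ell (k + 1) x y = (p.sn true k x).ell' (p.sn false k y) := rfl

theorem gap_succ (p : Pr) (k x y : ℕ) :
    p.gap (k + 1) x y = (p.sn true k x).gap' (p.sn false k y) := rfl

theorem ell_le (p : Pr) (k x y : ℕ) : p.ell k x y ≤ B * k :=
  max_le (vw_l_le _ _ _ _ _ _) (vw_l_le _ _ _ _ _ _)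

theorem ell_mono (p : Pr) (k x y : ℕ) :
    p.ell k x y ≤ p.ell (k + 1) x y ∧ p.ell (k + 1) x y ≤ p.ell k x y + B := by
  have h1 := IB.l_succ p true k x
  have h2 := IB.l_succ p false k y
  rw [IB.ell_eq, IB.ell_eq]
  omega

theorem gap_le (p : Pr) (k x y : ℕ) : p.gap k x y ≤ p.gap (k + 1) x y + B := by
  have h1 := IB.l_succ p true k x
  have h2 := IB.l_succ p false k y
  rw [IB.gap_eq, IB.gap_eq]
  omega

theorem new_iff (h : p.ft k x y) : p.new true k x ↔ p.new false k y := by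
  cases k with
  | zero => simp [new]
  | succ k =>
    simp only [new, Nat.add_sub_cancel, mrg, Sg.mrg]
    rw [h.2.2.1]

theorem ell_mrg (h : p.ft (k + 1) x y) (hm : p.mrg true k x) :
    p.ell (k + 1) x y = p.ell k x y := by
  obtain ⟨-, -, -, -, h1, h2, -⟩ := h
  have h3 : ((p.sn true k x).dg.ed true).2.2.1 ≠ 0 := by
    rw [show ((p.sn true k x).dg.ed true).2.2.1 = 2 from hm]
    decide
  rw [dl_wait (Or.inl h3)] at h1 h2
  rw [ell_succ, Sg.ell', Sg.l', Sg.l', h1, h2]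
  exact max_chunk _ _ _ 0

theorem sn_lt (ok : p.OK) (hk : k ≤ p.K) (d : Bool) (x : ℕ) : (p.sn d k x).l < 2 ^ p.lk ∧
    (p.sn d k x).lam < 2 ^ p.lk ∧ (p.sn d k x).ol < 2 ^ p.lk ∧ (p.sn d k x).c < 2 ^ p.lk := by
  have h1 := ok.hm
  have h2 := ok.hlk
  have h3 := Nat.mul_le_mul_left B hk
  have h4 := Nat.mul_le_mul_left (C + 1) hk
  have h5 : (B + C + 2) * p.K = B * p.K + (C + 1) * p.K + p.K := by ring
  have h6 : ∀ d, (p.v d k x).lam < 2 ^ p.lk := fun d =>
    (vw_lam_le d p.N p.n0 p.K k x).trans_lt (by omega)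
  exact ⟨(vw_l_le d p.N p.n0 p.K k x).trans_lt (by omega), h6 _, h6 _,
    (cd_lt _ _ _).trans_le (Nat.pow_le_pow_right two_pos ok.big)⟩

theorem IB.w_zero (p : Pr) (x y : ℕ) :
    p.w 0 x y = if x < p.N ∧ y < p.N then (p.A0 x y : ℝ) / 2 else 0 :=
  (congrArg (_ * ·) (pow_zero (2 : ℝ))).trans (mul_one _)

theorem w_zero (hx : x < p.N) (hy : y < p.N) : p.w 0 x y = p.A0 x y / 2 := by
  rw [IB.w_zero, if_pos ⟨hx, hy⟩]

open Classical in
theorem tau_zero (ok : p.OK) (g x y : ℕ) :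
    p.tau 0 g x y = if x < p.N ∧ y < p.N ∧ p.A0 x y ≠ 0 then 1 else 0 := by
  have h0 : r0 (sc g 0) = 0 := by
    rw [sc, zero_mul, min_eq_right zero_le_one, r0]
    exact cl_of_le (by norm_num)
  rw [show p.tau 0 g x y = if p.st 0 g x y then r0 (sc g (p.w 0 x y)) else 0 from rfl, IB.w_zero]
  by_cases h : x < p.N ∧ y < p.N ∧ p.A0 x y ≠ 0
  · have h1 : p.N ≤ p.n 0 := ok.hN.trans_eq (nm_zero _).symm
    have h2 : (1 : ℝ) ≤ p.A0 x y := Nat.one_le_cast.2 (Nat.pos_of_ne_zero h.2.2)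
    have h3 : (1 : ℝ) ≤ 2 ^ ((B + 2) * g) := one_le_pow₀ one_le_two
    have h4 : (1 : ℝ) ≤ 2 ^ B := one_le_pow₀ one_le_two
    have h5 : 1 / 2 ≤ sc g ((p.A0 x y : ℝ) / 2) := le_min (by norm_num) (by nlinarith)
    rw [if_pos h, if_pos ⟨h.1.trans_le h1, h.2.1.trans_le h1, Nat.zero_le _, trivial⟩,
      if_pos ⟨h.1, h.2.1⟩, r0, pow_add]
    exact cl_of_ge (by nlinarith)
  · rw [if_neg h]
    split_ifs with h1 h2
    · rw [not_not.1 fun h3 => h ⟨h2.1, h2.2, h3⟩, Nat.cast_zero, zero_div, h0]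
    · exact h0
    · rfl

theorem IB.vo (p : Pr) (k x : ℕ) : (p.L k).vo (x % p.n k) = p.v true k x := lv_vo_mod ..

theorem IB.vi (p : Pr) (k x : ℕ) : (p.L k).vi (x % p.n k) = p.v false k x := lv_vi_mod ..

theorem IB.out (p : Pr) (k x : ℕ) :
    (p.L k).out (x % p.n k, (p.sn true k x).dg.1) = p.fc true k x := by
  rw [Lv.out, L_hc, L_hr]
  rfl

theorem IB.inn (p : Pr) (k x : ℕ) :
    (p.L k).inn (x % p.n k, (p.sn false k x).dg.1) = p.fc false k x := by
  rw [Lv.inn, L_hc, L_hr]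
  rfl

theorem IB.w_succ (h : p.st (k + 1) g x y) : p.w (k + 1) x y =
    (p.L k).T ((p.sn true k x).dg.ed true).2.2.1 (x % p.n k, (p.sn true k x).dg.1)
      (y % p.n k, (p.sn false k y).dg.1) / 2 ^ (p.sn true k x).gs (p.sn false k y) *
        2 ^ p.ell (k + 1) x y := by
  have h1 := (lv_S_succ p.N p.n0 p.K p.A0 (fun k v => 2 ^ (B + 1) * p.h k 0 false v)
    (fun k v => 2 ^ (B + 1) * p.h k 0 true v) k x y).trans (if_pos h.2.2.2)
  rw [Nat.mod_eq_of_lt (show x < nm p.n0 (k + 1) from h.1),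
    Nat.mod_eq_of_lt (show y < nm p.n0 (k + 1) from h.2.1)] at h1
  exact congrArg (· * _) h1

theorem w_U (ok : p.OK) (h : p.st (k + 1) g x y) (hm : ¬p.mrg true k x) :
    p.w (k + 1) x y = (p.sn true k x).wU (p.sn false k y) (p.w k (x % p.n k) (y % p.n k))
      (p.fc true k x * p.fc false k y) := by
  classical
  have h1 : p.w k (x % p.n k) (y % p.n k) *
      2 ^ ((p.sn true k x).ell' (p.sn false k y) - (p.sn true k x).ell (p.sn false k y)) =
      (p.L k).S (x % p.n k) (y % p.n k) * 2 ^ p.ell (k + 1) x y := by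
    rw [Pr.w, we, ell_mod, mul_assoc, ← pow_add]
    exact congrArg (_ * 2 ^ ·) (Nat.add_sub_of_le (ell_mono p k x y).1)
  have h2 : (p.L k).T ((p.sn true k x).dg.ed true).2.2.1 (x % p.n k, (p.sn true k x).dg.1)
      (y % p.n k, (p.sn false k y).dg.1) = (p.L k).S (x % p.n k) (y % p.n k) *
        (p.sn true k x).part (p.sn false k y) (p.w k (x % p.n k) (y % p.n k)) *
          (p.fc true k x * p.fc false k y) := by
    by_cases hS : (p.L k).S (x % p.n k) (y % p.n k) = 0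
    · have h3 : ((p.sn true k x).dg.ed true).2.2.1 ≠ 2 := hm
      generalize ((p.sn true k x).dg.ed true).2.2.1 = o at h3
      fin_cases o <;> simp [Lv.T, Lv.Nb, Lv.Cm, Lv.Fb, hS] at h3 ⊢
    have h3 : (p.L k).fr (x % p.n k, (p.sn true k x).dg.1) (y % p.n k, (p.sn false k y).dg.1) =
        if (p.sn true k x).nsat (p.sn false k y) ∧ (p.sn true k x).wt = false then
          phi (p.w k (x % p.n k) (y % p.n k)) else 0 := by
      have h4 := (inv ok k).sy _ _ hS
      rw [IB.vo, IB.vi] at h4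
      rw [Lv.fr, Lv.rdy, IB.vo, ← ite_and]
      refine if_ctx_congr Iff.rfl (fun h5 => ?_) fun _ => rfl
      rw [Pr.w, we, ell_mod, IB.ell_eq, ← (h4.1 h5.2).1, max_self]
    have h4 : (p.L k).P1 (x % p.n k) (y % p.n k) ↔ (p.sn true k x).P1 (p.sn false k y) := by
      rw [Lv.P1, IB.vo, IB.vi]
      rfl
    have h5 : (p.L k).P2 (x % p.n k) (y % p.n k) ↔ (p.sn true k x).P2 (p.sn false k y) := by
      rw [Lv.P2, IB.vo, IB.vi]
      rfl
    have h6 : ((p.sn true k x).dg.ed true).2.2.1 ≠ 2 := hm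
    rw [Sg.part]
    generalize ((p.sn true k x).dg.ed true).2.2.1 = o at h6
    have h7 : ∀ (b : Bool) (q : Prop), b = decide q ↔ (b = true ↔ q) := fun b q => by
      cases b <;> simp
    simp only [Lv.T, Lv.Nb, Lv.Cm, Lv.Fb, IB.out, IB.inn, h3, h4, h5, h7]
    fin_cases o
    · simp only [Fin.zero_eta, if_true]
      split_ifs <;> ring
    · simp only [Fin.mk_one, one_ne_zero, if_false, if_true, ite_and]
      split_ifs <;> ring
    · exact absurd rfl h6
  rw [IB.w_succ h, Sg.wU, h1, h2]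
  ring

theorem IB.mid (p : Pr) (k u : ℕ) : (p.L k).mid u = p.md k u := by
  rw [Lv.mid, L_hc, L_hr]
  rfl

theorem IB.term (ok : p.OK) {u w : ℕ × G} {m : ℕ} (hu : u.1 < p.n k) (hw : w.1 < p.n k)
    (hm : m < p.n k) :
    (p.L k).fo u * (p.L k).fi w * ((p.L k).om u.1 m * (p.L k).mid m * (p.L k).om m w.1) *
        2 ^ ((p.v true k u.1).l + (p.v false k w.1).l) =
      (p.L k).fo u * (p.L k).fi w * (p.rw k u.1 m * p.md k m * p.rw k m w.1) := by
  have h1 := (div_eq_iff (by positivity)).1 (rw_eq ok hu hm)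
  have h2 := (div_eq_iff (by positivity)).1 (rw_eq ok hm hw)
  rw [← Lv.om] at h1 h2
  by_cases h : (p.L k).fo u * (p.L k).fi w *
    ((p.L k).om u.1 m * (p.L k).mid m * (p.L k).om m w.1) = 0
  · rw [h, h1, h2, ← IB.mid]
    linear_combination -(p.sig k 0 u.1 m * 2 ^ p.ell k u.1 m * p.sig k 0 m w.1 *
      2 ^ p.ell k m w.1) * h
  · obtain ⟨h3, h4⟩ := (p.L k).use_of_term h
    rw [sig_of_use ok hu hm h3, mul_one] at h1
    rw [sig_of_use ok hm hw h4, mul_one] at h2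
    have h5 := right_ne_zero_of_mul h
    rw [(ell_of_rw ok (h1 ▸ mul_ne_zero (left_ne_zero_of_mul (left_ne_zero_of_mul h5))
      (by positivity))).1] at h1
    rw [(ell_of_rw ok (h2 ▸ mul_ne_zero (right_ne_zero_of_mul h5) (by positivity))).2] at h2
    rw [h1, h2, ← IB.mid]
    ring

theorem w_M (ok : p.OK) (h : p.st (k + 1) g x y) (hm : p.mrg true k x) :
    p.w (k + 1) x y = (p.sn true k x).wM (p.sn false k y)
      ((∑ u ∈ range (p.n k), p.zi k x u y) / 2 ^ p.ell k x y) (p.fc true k x * p.fc false k y) := by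
  classical
  have hx : x % p.n k < p.n k := mod_nm_lt _ _ _
  have hy : y % p.n k < p.n k := mod_nm_lt _ _ _
  have h1 : (p.L k).fo (x % p.n k, (p.sn true k x).dg.1) *
      (p.L k).fi (y % p.n k, (p.sn false k y).dg.1) =
      if (p.sn true k x).nsat (p.sn false k y) then p.fc true k x * p.fc false k y else 0 := by
    simp only [Lv.fo, Lv.fi, IB.out, IB.inn, ite_zero_mul_ite_zero]
    exact if_congr Iff.rfl rfl rfl
  have h2 : (2 : ℝ) ^ ((p.v true k x).l + (p.v false k y).l) *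
      2 ^ (p.sn true k x).gap (p.sn false k y) = 2 ^ p.ell k x y * 2 ^ p.ell k x y := by
    rw [← pow_add, ← pow_add, ← Pr.gap, IB.gap_eq, IB.ell_eq]
    exact congrArg _ (by omega)
  have h3 : (p.L k).Mg (x % p.n k, (p.sn true k x).dg.1) (y % p.n k, (p.sn false k y).dg.1) *
      2 ^ ((p.v true k x).l + (p.v false k y).l) =
      (if (p.sn true k x).nsat (p.sn false k y) then p.fc true k x * p.fc false k y else 0) *
        (∑ u ∈ range (p.n k), p.zi k x u y) / 4 := by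
    rw [Lv.Mg_eq, L_n, ← h1, sum_mul, mul_sum, sum_div]
    refine sum_congr rfl fun u hu => ?_
    have hu := mem_range.1 hu
    have h4 := IB.term (u := (x % p.n k, (p.sn true k x).dg.1))
      (w := (y % p.n k, (p.sn false k y).dg.1)) ok hx hy hu
    have h5 := IB.vo p k u
    have h6 := IB.vi p k u
    rw [Nat.mod_eq_of_lt hu] at h5 h6
    rw [v_mod, v_mod] at h4
    have h7 : ((p.L k).P1 (x % p.n k) u ∧ (p.sn true k x).dg.1.2.2 =
        decide ((p.L k).P2 (x % p.n k) u) ∧ (p.L k).P2 u (y % p.n k)) ↔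
        (p.sn true k x).mid (p.sn false k y) (p.v false k u).lam (p.v true k u).lam := by
      rw [Bool.eq_iff_iff, decide_eq_true_iff, Lv.P1, Lv.P2, Lv.P2, IB.vo, IB.vi, h5, h6]
      exact and_congr_right fun _ => and_comm
    rw [zi]
    by_cases h8 : (p.sn true k x).mid (p.sn false k y) (p.v false k u).lam (p.v true k u).lam
    · rw [if_pos (h7.2 h8), if_pos h8, ← h4]
      ring
    · rw [if_neg (mt h7.1 h8), if_neg h8]
      ring
  have h4 : (2 : ℝ) ^ ((p.v true k x).l + (p.v false k y).l) ≠ 0 := by positivity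
  rw [IB.w_succ h, ell_mrg h.2.2.2 hm, show ((p.sn true k x).dg.ed true).2.2.1 = 2 from hm, Lv.T,
    if_neg (by decide), if_neg (by decide), eq_div_of_mul_eq h4 h3, Sg.wM, pow_add _ _ 2]
  split_ifs
  · rw [eq_div_of_mul_eq h4 ((mul_comm _ _).trans h2)]
    field_simp
    ring
  · simp

theorem fc_mem (p : Pr) (d : Bool) (k x : ℕ) : 0 ≤ p.fc d k x ∧ p.fc d k x ≤ 1 := by
  cases d
  · rw [← IB.inn]
    exact ⟨Lv.inn_nonneg _ _, Lv.inn_le_one _ _⟩
  · rw [← IB.out]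
    exact ⟨Lv.out_nonneg _ _, Lv.out_le_one _ _⟩

theorem md_mem (p : Pr) (k x : ℕ) : 0 ≤ p.md k x ∧ p.md k x ≤ 1 := by
  rw [← IB.mid]
  exact ⟨Lv.mid_nonneg _ _, Lv.mid_le_one _ _⟩

end Vale.Agent.P313.NL2.Pr
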