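import Vale.Agent.P313.NL2.IdealA
import Vale.Agent.P313.NL2.IdealB
import Vale.Agent.P313.RedDeg

/-! The ideal tables: the statistics are admissible, and few entries are visible. -/

namespace Vale.Agent.P313.NL2.Pr

open Finset Vale.Agent.P313.Hi Vale.Agent.P313.NL

variable {p : Pr} {k g x y v : ℕ} {d : Bool}

theorem is_cl_le_max (t : ℝ) : cl t ≤ max 0 t := max_le_max le_rfl (min_le_right _ _)

theorem is_cl_sub_le {t : ℝ} (h : 0 ≤ t) : cl (t - 1) ≤ t :=
  (is_cl_le_max _).trans (max_le h (by linarith))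

theorem is_lt_of_cl {t : ℝ} (h : cl t ≠ 0) : 0 < t := not_le.1 fun h' => h (cl_of_le h')

theorem is_sc_le (g : ℕ) (w : ℝ) : sc g w ≤ w * 2 ^ ((B + 2) * g) := min_le_right _ _

theorem is_sc_ge {w : ℝ} (h : 0 ≤ w) (g : ℕ) : 0 ≤ sc g w := le_min zero_le_one (by positivity)

theorem is_two_pow_le {m n : ℕ} (h : m ≤ n) : (2 : ℝ) ^ m ≤ 2 ^ n := pow_le_pow_right₀ one_le_two h

theorem is_S_ge (ok : p.OK) (k x y : ℕ) : 0 ≤ (p.L k).S x y := (inv ok k).S_nonneg x y

theorem is_w_ge (ok : p.OK) (k x y : ℕ) : 0 ≤ p.w k x y := mul_nonneg (is_S_ge ok k x y) (by positivity)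

theorem is_w_div (p : Pr) (k x y c : ℕ) :
    p.w k x y * 2 ^ c / 2 ^ p.ell k x y = (p.L k).S x y * 2 ^ c := by
  change (p.L k).S x y * 2 ^ p.ell k x y * 2 ^ c / 2 ^ p.ell k x y = _
  field_simp

theorem is_sw_le {F G : ℕ → ℕ → ℝ} (h : ∀ x y, F x y ≤ G x y) (d : Bool) (v f : ℕ) :
    sw d F v f ≤ sw d G v f := by cases d <;> exact h _ _

theorem is_sw_ge {F : ℕ → ℕ → ℝ} (h : ∀ x y, 0 ≤ F x y) (d : Bool) (v f : ℕ) : 0 ≤ sw d F v f := by
  cases d <;> exact h _ _

theorem is_sum_mod (p : Pr) (k : ℕ) (F : ℕ → ℝ) :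
    ∑ f ∈ range (p.n (k + 1)), F (f % p.n k) = 2 ^ a * ∑ f ∈ range (p.n k), F f := by
  rw [n, nm_succ, n, sum_range_mul_eq (nm_pos _ _) (2 ^ a) fun x _ => F x, mul_sum]
  simp

/-- The upper bound for the statistic on the side `d`. -/
noncomputable def is_up (p : Pr) (d : Bool) (k v : ℕ) : ℝ := bif d then upR p.L k v else upC p.L k v

/-- The load on the side `d`. -/
noncomputable def is_ld (p : Pr) (d : Bool) (k v : ℕ) : ℝ := ∑ f ∈ range (p.n k), sw d (p.L k).S v f

theorem is_up_zero (p : Pr) (d : Bool) (v : ℕ) : p.is_up d 0 v = p.is_ld d 0 v := by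
  rw [is_ld, ← L_n]
  cases d <;> rfl

theorem is_up_succ (p : Pr) (d : Bool) (k v : ℕ) :
    p.is_up d (k + 1) v = p.is_ld d (k + 1) v + p.is_up d k (v % p.n k) / 2 ^ (a + 1) := by
  rw [is_ld, ← L_n, ← L_n]
  cases d <;> rfl

theorem is_ld_ge (ok : p.OK) (d : Bool) (k v : ℕ) : 0 ≤ p.is_ld d k v :=
  sum_nonneg fun _ _ => is_sw_ge (is_S_ge ok k) _ _ _

theorem is_up_ge (ok : p.OK) (d : Bool) : ∀ k v, 0 ≤ p.is_up d k v
  | 0, v => is_up_zero p d v ▸ is_ld_ge ok d 0 v
  | k + 1, v => by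
    rw [is_up_succ]
    exact add_nonneg (is_ld_ge ok _ _ _) (div_nonneg (is_up_ge ok d k _) (by positivity))

theorem is_ld_le (ok : p.OK) (d : Bool) : ∀ k v, p.is_ld d k v ≤ p.is_up d k v
  | 0, v => (is_up_zero p d v).ge
  | k + 1, v => by
    rw [is_up_succ]
    exact le_add_of_nonneg_right (div_nonneg (is_up_ge ok d k _) (by positivity))

theorem is_up_le (ok : p.OK) (d : Bool) (k v : ℕ) :
    p.is_up d k (v % p.n k) ≤ p.is_up d (k + 1) v * 2 ^ (a + 1) := by
  rw [← div_le_iff₀ (by positivity), is_up_succ]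
  exact le_add_of_nonneg_left (is_ld_ge ok _ _ _)

theorem is_sum_le_up (ok : p.OK) {F : ℕ → ℝ} {c c' : ℕ} (hc : c ≤ c')
    (h : ∀ f, F f ≤ sw d (fun x y => (p.L k).S x y * 2 ^ c) v f) :
    ∑ f ∈ range (p.n k), F f ≤ p.is_up d k v * 2 ^ c' := by
  refine le_trans ?_ (mul_le_mul (is_ld_le ok d k v) (is_two_pow_le hc) (by positivity) (is_up_ge ok _ _ _))
  rw [is_ld, sum_mul]
  exact sum_le_sum fun f _ => (h f).trans_eq (by cases d <;> rfl)

theorem is_sig_le_sgF (p : Pr) (k g x y : ℕ) : p.sig k g x y ≤ sgF g (p.tau k g x y) (p.w k x y) := by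
  refine mul_le_of_le_one_right (mul_nonneg (cl_nonneg _) ?_)
    (mul_le_one₀ (cl_le_one _) (cl_nonneg _) (cl_le_one _))
  split_ifs
  exacts [cl_nonneg _, zero_le_one]

theorem is_sig_le_tau (p : Pr) (k g x y : ℕ) : p.sig k g x y ≤ p.tau k g x y := by
  have h := tau_mem p k g x y
  refine (is_sig_le_sgF p k g x y).trans ((mul_le_of_le_one_right (cl_nonneg _) ?_).trans
    ((is_cl_le_max _).trans (max_le h.1 (by linarith [h.2]))))
  split_ifs
  exacts [cl_le_one _, le_rfl]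

theorem is_sig_test (ok : p.OK) (ht : tA g) (k x y : ℕ) :
    p.sig k g x y / 2 ^ p.ell k x y ≤ (p.L k).S x y * 2 ^ ((B + 2) * g + (B + 2)) := by
  rw [← is_w_div]
  refine div_le_div_of_nonneg_right ((is_sig_le_sgF p k g x y).trans ?_) (by positivity)
  rw [sgF, if_pos ht, pow_add, ← mul_assoc]
  exact (mul_le_of_le_one_left (cl_nonneg _) (cl_le_one _)).trans ((is_cl_sub_le (mul_nonneg
    (is_sc_ge (is_w_ge ok k x y) g) (by positivity))).trans
      (mul_le_mul_of_nonneg_right (is_sc_le _ _) (by positivity)))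

theorem is_tau_le_new (ok : p.OK) (h : p.ft k x y → p.new true k x) :
    p.tau k g x y / 2 ^ p.ell k x y ≤ (p.L k).S x y * 2 ^ ((B + 2) * g + (B + 4)) := by
  by_cases h0 : p.tau k g x y = 0
  · rw [h0, zero_div]
    exact mul_nonneg (is_S_ge ok k x y) (by positivity)
  rw [← is_w_div, tau_new (st_of_tau h0) (h (st_of_tau h0).2.2.2), pow_add, ← mul_assoc]
  exact div_le_div_of_nonneg_right ((is_cl_sub_le (mul_nonneg (is_sc_ge (is_w_ge ok k x y) g)
    (by positivity))).trans (mul_le_mul_of_nonneg_right (is_sc_le _ _) (by positivity))) (by positivity)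

theorem is_ell_par (p : Pr) (k x y : ℕ) :
    (2 : ℝ) ^ p.ell k (x % p.n k) (y % p.n k) ≤ 2 ^ p.ell (k + 1) x y := by
  rw [ell_mod]
  exact is_two_pow_le (ell_mono p k x y).1

theorem is_tau_le_old (h : p.ft (k + 1) x y → ¬p.new true (k + 1) x) :
    p.tau (k + 1) g x y / 2 ^ p.ell (k + 1) x y ≤
      p.sig k (g + 1) (x % p.n k) (y % p.n k) / 2 ^ p.ell k (x % p.n k) (y % p.n k) := by
  by_cases h0 : p.tau (k + 1) g x y = 0
  · rw [h0, zero_div]
    exact div_nonneg (sig_mem _ _ _ _ _).1 (by positivity)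
  rw [tau_old (st_of_tau h0) fun e => h (st_of_tau h0).2.2.2 (Or.inr e)]
  exact div_le_div_of_nonneg_left (sig_mem _ _ _ _ _).1 (by positivity) (is_ell_par p k x y)

/-- The raw visible load. -/
noncomputable def is_Dt (p : Pr) (k g : ℕ) (d : Bool) (v : ℕ) : ℝ :=
  ∑ f ∈ range (p.n k), sw d (fun x y => p.tau k g x y / 2 ^ p.ell k x y) v f

/-- The visible load. -/
noncomputable def is_Ds (p : Pr) (k g : ℕ) (d : Bool) (v : ℕ) : ℝ :=
  ∑ f ∈ range (p.n k), sw d (fun x y => p.sig k g x y / 2 ^ p.ell k x y) v f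

theorem is_Dt_le (ok : p.OK) {c : ℕ} (hc : (B + 2) * g + (B + 4) ≤ c)
    (h : ∀ k v, p.is_Ds k (g + 1) d v ≤ p.is_up d k v * 2 ^ c) (k v : ℕ) :
    p.is_Dt k g d v ≤ p.is_up d k v * 2 ^ (c + (2 * a + 1)) := by
  by_cases hn : p.new d k v
  · refine is_sum_le_up ok (hc.trans (Nat.le_add_right _ _)) fun f => ?_
    cases d
    exacts [is_tau_le_new ok fun e => (new_iff e).2 hn, is_tau_le_new ok fun _ => hn]
  obtain ⟨k, rfl⟩ := Nat.exists_eq_succ_of_ne_zero fun e : k = 0 => hn (Or.inl e)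
  calc p.is_Dt (k + 1) g d v ≤ ∑ f ∈ range (p.n (k + 1)), sw d (fun x y => p.sig k (g + 1) x y /
        2 ^ p.ell k x y) (v % p.n k) (f % p.n k) := sum_le_sum fun f _ => by
        cases d
        exacts [is_tau_le_old fun e e' => hn ((new_iff e).1 e'), is_tau_le_old fun _ => hn]
    _ = 2 ^ a * p.is_Ds k (g + 1) d (v % p.n k) := is_sum_mod p k _
    _ ≤ 2 ^ a * (p.is_up d (k + 1) v * 2 ^ (a + 1) * 2 ^ c) := mul_le_mul_of_nonneg_left
        ((h _ _).trans (mul_le_mul_of_nonneg_right (is_up_le ok d k v) (by positivity)))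
        (by positivity)
    _ = _ := by ring

theorem is_Ds_le (ok : p.OK) (d : Bool) : ∀ j g, tA (g + j) → ∀ k v,
    p.is_Ds k g d v ≤ p.is_up d k v * 2 ^ ((B + 2) * (g + j) + (B + 4) + (2 * a + 1) * j)
  | 0, g, ht, k, v => is_sum_le_up ok (by simp) fun f => is_sw_le (is_sig_test ok ht k) d v f
  | j + 1, g, ht, k, v => by
    have := is_Dt_le ok (by nlinarith) (is_Ds_le ok d j (g + 1) (by rwa [add_right_comm])) k v
    rw [add_right_comm g, add_assoc _ _ (2 * a + 1), ← mul_add_one] at this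
    exact (sum_le_sum fun f _ => is_sw_le (fun x y => div_le_div_of_nonneg_right
      (is_sig_le_tau p k g x y) (by positivity)) d v f).trans this

theorem is_sg_mul (p : Pr) (k g : ℕ) (d : Bool) (v : ℕ) : p.sg k g d v * 2 ^ (cc * g) =
    ∑ f ∈ range (p.n k), sw d (fun x y => p.mu k g x y / 2 ^ p.ell k x y) v f := by
  rw [sg, sge, sum_mul]
  refine sum_congr rfl fun f _ => ?_
  cases d <;> simp only [sw, cond, mu, pow_add] <;> field_simp

theorem is_sg_le (ok : p.OK) (k g : ℕ) (d : Bool) (v : ℕ) :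
    p.sg k g d v * 2 ^ ((a + 2) * g) ≤ p.is_up d k v := by
  suffices h : ∃ c, c + (a + 2) * g ≤ cc * g ∧ p.sg k g d v * 2 ^ (cc * g) ≤ p.is_up d k v * 2 ^ c by
    obtain ⟨c, h1, h2⟩ := h
    obtain ⟨e, h3⟩ := Nat.exists_eq_add_of_le h1
    refine le_of_mul_le_mul_right (le_trans (le_of_eq ?_) (h2.trans (mul_le_mul_of_nonneg_left
      (is_two_pow_le (Nat.le_add_right c e)) (is_up_ge ok _ _ _)))) (by positivity)
    rw [h3]
    ring
  rw [is_sg_mul]
  by_cases ht : tA g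
  · refine ⟨(B + 2) * g, by rw [← add_mul]; exact Nat.mul_le_mul_right _ (by unfold cc; omega),
      is_sum_le_up ok le_rfl fun f => is_sw_le (fun x y => ?_) d v f⟩
    rw [← is_w_div, mu, mue, muF, if_pos ht]
    exact div_le_div_of_nonneg_right ((mul_le_of_le_one_left (is_sc_ge (is_w_ge ok k x y) g)
      (cl_le_one _)).trans (is_sc_le _ _)) (by positivity)
  have h0 : g ≠ 0 := fun e => ht (Or.inl e)
  obtain ⟨j, hj⟩ := Nat.exists_eq_add_of_lt (Nat.lt_pow_succ_log_self one_lt_two g)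
  have h1 : j + 1 ≤ g := by
    have := Nat.pow_log_le_self 2 h0
    rw [Nat.succ_eq_add_one, pow_succ] at hj
    omega
  have h2 : tA (g + 1 + j) := Or.inr (by rw [add_right_comm, ← hj, Nat.log_pow one_lt_two])
  refine ⟨_, ?_, le_trans (sum_le_sum fun f _ => is_sw_le (fun x y => ?_) d v f)
    (is_Dt_le ok (by nlinarith) (is_Ds_le ok d j (g + 1) h2) k v)⟩
  · obtain ⟨i, rfl⟩ := Nat.exists_eq_add_of_le h1
    unfold cc
    nlinarith [Nat.zero_le (a * i), Nat.zero_le (B * i), Nat.zero_le (B * j)]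
  · have h := tau_mem p k g x y
    rw [mu, mue, muF, if_neg ht, mul_one]
    exact div_le_div_of_nonneg_right ((is_cl_le_max _).trans (max_le h.1 (by linarith [h.2])))
      (by positivity)

theorem is_h_le (ok : p.OK) (d : Bool) :
    ∀ k g v, 2 ^ (B + 1) * p.h k g d v * 2 ^ ((a + 2) * g) ≤ p.is_up d k v := by
  intro k
  induction k using Nat.strong_induction_on with
  | _ k ih =>
  intro g v
  rw [h_eq]
  refine le_trans (mul_le_mul_of_nonneg_right (mul_le_mul_of_nonneg_left (min_le_right _ _)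
    (by positivity)) (by positivity)) ?_
  rcases le_total (p.sg k g d v / 2 ^ (B + 1)) (p.prev k g d v) with h | h
  · rw [max_eq_right h, prev, preve]
    split_ifs with hn
    · simpa using is_up_ge ok d k v
    obtain ⟨k, rfl⟩ := Nat.exists_eq_succ_of_ne_zero fun e : k = 0 => hn (Or.inl e)
    refine le_of_mul_le_mul_right (le_trans (le_of_eq ?_)
      ((ih k (Nat.lt_succ_self k) (g + 1) _).trans (is_up_le ok d k v))) (by positivity)
    simp only [Nat.succ_eq_add_one, Nat.add_sub_cancel]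
    ring
  · rw [max_eq_left h, mul_div_cancel₀ _ (by positivity)]
    exact is_sg_le ok k g d v

theorem stat (ok : p.OK) (k : ℕ) : Stat p.L k :=
  ⟨low ok k, fun z _ => by simpa [L_hc, is_up] using is_h_le ok false k 0 z,
    fun x _ => by simpa [L_hr, is_up] using is_h_le ok true k 0 x⟩

open Classical in
/-- The usable part of the kernel. -/
noncomputable def is_us (p : Pr) (k x y : ℕ) : ℝ := if (p.L k).use x y then (p.L k).S x y else 0

theorem is_us_ge (ok : p.OK) (k x y : ℕ) : 0 ≤ p.is_us k x y := by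
  unfold is_us
  split_ifs
  exacts [is_S_ge ok k x y, le_rfl]

theorem is_sum_us (ok : p.OK) (d : Bool) (hv : v < p.n k) :
    ∑ f ∈ range (p.n k), sw d (p.is_us k) v f ≤ 2 ^ (B + 2) := by
  have h : ∀ d, 2 * (2 ^ (B + 1) * p.h k 0 d v) ≤ 2 ^ (B + 2) := fun d => by
    rw [pow_succ' _ (B + 1)]
    exact mul_le_mul_of_nonneg_left (mul_le_of_le_one_right (by positivity) (h_mem ok _ _ _ _).2)
      zero_le_two
  rw [← L_n] at hv ⊢
  cases d
  · have := (low ok k).hc v hv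
    rw [sum_filter, L_hc] at this
    exact this.trans (h _)
  · have := (low ok k).hr v hv
    rw [sum_filter, L_hr] at this
    exact this.trans (h _)

theorem is_S_mrg (ok : p.OK) (hx : x < p.n (k + 1)) (hy : y < p.n (k + 1)) (hm : p.mrg true k x) :
    (p.L (k + 1)).S x y ≤ ∑ m ∈ range (p.n k), p.is_us k (x % p.n k) m * p.is_us k m (y % p.n k) := by
  have h0 := sum_nonneg (s := range (p.n k)) fun m _ =>
    mul_nonneg (is_us_ge ok k (x % p.n k) m) (is_us_ge ok k m (y % p.n k))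
  have h := lv_S_succ p.N p.n0 p.K p.A0 (fun k v => 2 ^ (B + 1) * p.h k 0 false v)
    (fun k v => 2 ^ (B + 1) * p.h k 0 true v) k x y
  rw [Nat.mod_eq_of_lt (b := nm _ _) hx, Nat.mod_eq_of_lt (b := nm _ _) hy,
    show ((dg p.n0 k x).ed true).2.2.1 = 2 from hm] at h
  refine h.trans_le ?_
  split_ifs
  swap
  · exact h0
  refine (div_le_self (Lv.Mg_nonneg (is_S_ge ok k) _ _) (one_le_pow₀ one_le_two)).trans ?_
  rw [Lv.Mg_eq, L_n]
  refine sum_le_sum fun m _ => ?_
  have h1 := mul_nonneg (is_us_ge ok k (x % p.n k) m) (is_us_ge ok k m (y % p.n k))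
  split_ifs
  swap
  · exact h1
  generalize (dg p.n0 k x).1 = c
  generalize (dg p.n0 k y).1 = c'
  change (p.L k).fo (x % p.n k, c) * (p.L k).fi (y % p.n k, c') * ((p.L k).om (x % p.n k) m *
    (p.L k).mid m * (p.L k).om m (y % p.n k)) / 4 ≤ _
  by_cases e : (p.L k).fo (x % p.n k, c) * (p.L k).fi (y % p.n k, c') * ((p.L k).om (x % p.n k) m *
    (p.L k).mid m * (p.L k).om m (y % p.n k)) = 0
  · rw [e, zero_div]
    exact h1
  have h2 := (p.L k).use_of_term e
  have h3 := (p.L k).om_nonneg (is_S_ge ok k)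
  have h4 := mul_nonneg (mul_nonneg (h3 (x % p.n k) m) ((p.L k).mid_nonneg m)) (h3 m (y % p.n k))
  rw [is_us, is_us, if_pos h2.1, if_pos h2.2]
  refine (div_le_self (mul_nonneg (mul_nonneg (Lv.fo_nonneg _ _) (Lv.fi_nonneg _ _)) h4)
    (by norm_num)).trans ((mul_le_of_le_one_left h4 (mul_le_one₀ (Lv.fo_le_one _ _)
      (Lv.fi_nonneg _ _) (Lv.fi_le_one _ _))).trans (mul_le_mul ((mul_le_of_le_one_right (h3 _ _)
        (Lv.mid_le_one _ _)).trans (Lv.om_le _ (is_S_ge ok k) _ _)) (Lv.om_le _ (is_S_ge ok k) _ _)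
          (h3 _ _) (is_S_ge ok k _ _)))

theorem is_one_le_new (ok : p.OK) (h0 : p.tau (k + 1) g x y ≠ 0) (hm : p.mrg true k x) :
    (1 : ℝ) / 2 ^ (p.ell (k + 1) x y + cc * g) ≤
      2 ^ (B + 4) * ∑ m ∈ range (p.n k), p.is_us k (x % p.n k) m * p.is_us k m (y % p.n k) := by
  have hs := st_of_tau h0
  rw [tau_new hs (Or.inr hm)] at h0
  have h1 := (sub_pos.1 (is_lt_of_cl h0)).le.trans
    (mul_le_mul_of_nonneg_right (is_sc_le _ _) (by positivity))
  refine le_trans ?_ (mul_le_mul_of_nonneg_left (is_S_mrg ok hs.1 hs.2.1 hm) (by positivity))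
  rw [div_le_iff₀ (by positivity), pow_add _ (p.ell _ _ _)]
  refine h1.trans ((mul_le_mul_of_nonneg_right (mul_le_mul_of_nonneg_left (is_two_pow_le
    (Nat.mul_le_mul_right g (show B + 2 ≤ cc by unfold cc; omega))) (is_w_ge ok _ _ _))
      (by positivity)).trans_eq ?_)
  change (p.L (k + 1)).S x y * 2 ^ p.ell (k + 1) x y * _ * _ = _
  ring

theorem is_one_le_mu (h : p.sig k g x y ≠ 0) : 1 ≤ 2 ^ (B + 3) * p.mu k g x y := by
  have h1 : 1 / 2 ≤ cl (4 * p.tau k g x y - 3) :=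
    le_max_of_le_right (le_min (by norm_num) (by linarith [tau_of_sig h]))
  have h2 := right_ne_zero_of_mul (left_ne_zero_of_mul h)
  have h3 : (1 : ℝ) ≤ 2 ^ (B + 2) := one_le_pow₀ one_le_two
  rw [mu, mue, muF, pow_succ _ (B + 2)]
  split_ifs at h2 ⊢
  · nlinarith [sub_pos.1 (is_lt_of_cl h2)]
  · nlinarith

theorem is_one_le_old (h0 : p.tau (k + 1) g x y ≠ 0) (hm : ¬p.mrg true k x) :
    (1 : ℝ) / 2 ^ (p.ell (k + 1) x y + cc * g) ≤ 2 ^ (B + 3 + cc) *
      (p.mu k (g + 1) (x % p.n k) (y % p.n k) /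
        2 ^ (p.ell k (x % p.n k) (y % p.n k) + cc * (g + 1))) := by
  rw [tau_old (st_of_tau h0) hm] at h0
  have h1 := is_one_le_mu h0
  refine (div_le_div₀ (zero_le_one.trans h1) h1 (by positivity) (show
    (2 : ℝ) ^ p.ell k (x % p.n k) (y % p.n k) * 2 ^ (cc * g) ≤ _ by
      rw [pow_add]
      exact mul_le_mul_of_nonneg_right (is_ell_par p k x y) (by positivity))).trans_eq ?_
  rw [mul_add_one, pow_add _ (B + 3), pow_add _ _ (cc * g + cc), pow_add _ (cc * g)]
  field_simp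

theorem is_mu_ge (ok : p.OK) (k g x y : ℕ) : 0 ≤ p.mu k g x y := by
  refine mul_nonneg (cl_nonneg _) ?_
  split_ifs
  exacts [is_sc_ge (is_w_ge ok k x y) g, zero_le_one]

open Classical in
theorem cnt_tau (ok : p.OK) (k g : ℕ) (d : Bool) (v : ℕ) :
    ∑ f ∈ range (p.n k) with sw d (p.tau k g) v f ≠ 0, (1 : ℝ) / 2 ^ (sw d (p.ell k) v f + cc * g) ≤
      2 ^ c5 := by
  rcases k with _ | k
  · refine (sum_le_card_nsmul _ _ 1 fun f _ => div_le_one_of_le₀ (one_le_pow₀ one_le_two)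
      (by positivity)).trans ?_
    rw [nsmul_one]
    refine le_trans (Nat.cast_le.2 (show _ ≤ 2 from ?_)) ((by norm_num : ((2 : ℕ) : ℝ) ≤ 2 ^ 1).trans
      (is_two_pow_le (by unfold c5; omega)))
    have h : ∀ {x y}, p.tau 0 g x y ≠ 0 → x < p.N ∧ y < p.N ∧ p.A0 x y ≠ 0 := fun h =>
      by_contra fun h' => h (by rw [tau_zero ok, if_neg h'])
    cases d
    · exact (card_le_card fun f hf => mem_filter.2 ⟨mem_range.2 (h (mem_filter.1 hf).2).1,
        (h (mem_filter.1 hf).2).2.2⟩).trans (ok.deg v)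
    · by_cases hv : v < p.N
      · exact (card_le_card fun f hf => mem_filter.2 ⟨mem_range.2 (h (mem_filter.1 hf).2).2.1,
          (h (mem_filter.1 hf).2).2.2⟩).trans (Red.sub_row_card ok.sub hv)
      · exact (card_eq_zero.2 (filter_eq_empty_iff.2 fun f _ hf => hv (h hf).1)).trans_le two_pos.le
  have key : ∀ (F : ℕ → ℝ) (c e : ℕ), (∀ f, 0 ≤ F f) → (∀ f, sw d (p.tau (k + 1) g) v f ≠ 0 →
      (1 : ℝ) / 2 ^ (sw d (p.ell (k + 1)) v f + cc * g) ≤ 2 ^ c * F (f % p.n k)) →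
      ∑ f ∈ range (p.n k), F f ≤ 2 ^ e → c + a + e ≤ c5 →
      ∑ f ∈ range (p.n (k + 1)) with sw d (p.tau (k + 1) g) v f ≠ 0,
        (1 : ℝ) / 2 ^ (sw d (p.ell (k + 1)) v f + cc * g) ≤ 2 ^ c5 := fun F c e h1 h2 h3 h4 => by
    refine (sum_le_sum fun f hf => h2 f (mem_filter.1 hf).2).trans
      ((sum_le_sum_of_subset_of_nonneg (filter_subset _ _) fun f _ _ =>
        mul_nonneg (by positivity) (h1 _)).trans (le_trans ?_ (is_two_pow_le h4)))
    rw [← mul_sum, is_sum_mod, pow_add, pow_add, mul_assoc]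
    gcongr
  have hv : v % p.n k < p.n k := mod_nm_lt _ _ _
  by_cases hn : p.new d (k + 1) v
  · refine key (fun f => ∑ m ∈ range (p.n k), sw d (p.is_us k) (v % p.n k) m * sw d (p.is_us k) m f)
      (B + 4) (B + 2 + (B + 2)) (fun f => sum_nonneg fun m _ =>
        mul_nonneg (is_sw_ge (is_us_ge ok k) _ _ _) (is_sw_ge (is_us_ge ok k) _ _ _)) (fun f hf => ?_) ?_
      (by unfold c5; omega)
    · cases d
      · exact (is_one_le_new ok hf (((new_iff (st_of_tau hf).2.2.2).2 hn).resolve_left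
          k.succ_ne_zero)).trans_eq (congrArg _ (sum_congr rfl fun _ _ => mul_comm _ _))
      · exact is_one_le_new ok hf (hn.resolve_left k.succ_ne_zero)
    · rw [sum_comm, pow_add]
      refine le_trans (sum_le_sum fun m hm => ?_) ((sum_mul _ _ _).symm.trans_le
        (mul_le_mul_of_nonneg_right (is_sum_us ok d hv) (by positivity)))
      rw [← mul_sum]
      exact mul_le_mul_of_nonneg_left (is_sum_us ok d (mem_range.1 hm)) (is_sw_ge (is_us_ge ok k) _ _ _)
  have hm : ∀ {x y}, p.tau (k + 1) g x y ≠ 0 → ¬p.new false (k + 1) y → ¬p.mrg true k x :=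
    fun h h' e => h' ((new_iff (st_of_tau h).2.2.2).1 (Or.inr e))
  by_cases hh : p.h k (g + 1) d (v % p.n k) < 1
  · refine key (sw d (fun x y => p.mu k (g + 1) x y / 2 ^ (p.ell k x y + cc * (g + 1)))
      (v % p.n k)) (B + 3 + cc) (B + 1) (is_sw_ge (fun x y => div_nonneg (is_mu_ge ok _ _ _ _)
        (by positivity)) _ _) (fun f hf => ?_) ?_ (by unfold c5 cc; omega)
    · cases d
      exacts [is_one_le_old hf (hm hf hn), is_one_le_old hf fun e => hn (Or.inr e)]
    · rw [h_eq, min_lt_iff, lt_self_iff_false, false_or, max_lt_iff,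
        div_lt_one (by positivity)] at hh
      exact hh.1.le
  · have h0 : rd (p.h k (g + 1) d (v % p.n k)) = 0 := cl_of_le (by linarith [not_lt.1 hh])
    rw [filter_eq_empty_iff.2 fun f _ hf => ?_, sum_empty]
    · positivity
    cases d
    · refine hf ((tau_old (st_of_tau hf) (hm hf hn)).trans ?_)
      rw [sig, sige, h0, mul_zero, mul_zero]
    · refine hf ((tau_old (st_of_tau hf) fun e => hn (Or.inr e)).trans ?_)
      rw [sig, sige, h0, zero_mul, mul_zero]

end Vale.Agent.P313.NL2.Pr
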