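import Vale.Agent.P313.NL2.Tab
import Vale.Agent.P313.NL2.IdealB
import Vale.Agent.P313.NL.CP

/-! The tables with short labels: registers, windows, from raw candidates to labels, averages over
the shift of the values. -/

namespace Vale.Agent.P313.NL2

open Finset Function Vale.Agent.P313.Hi Vale.Agent.P313.NL Vale.Agent.P313.KH Vale.Agent.P313.Full

theorem TM.exists_fld (w : ℕ) : ∀ (n : ℕ) (f : ℕ → ℕ), (∀ i < n, f i < 2 ^ w) →
    ∃ u < 2 ^ (n * w), ∀ i < n, fld w u i = f i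
  | 0, _, _ => ⟨0, Nat.two_pow_pos _, fun _ h => absurd h (Nat.not_lt_zero _)⟩
  | n + 1, f, hf => by
    obtain ⟨u, hu, h⟩ := exists_fld w n (fun i => f (i + 1)) fun i hi => hf _ (by omega)
    have h0 := hf 0 (by omega)
    refine ⟨f 0 + 2 ^ w * u, ?_, fun i hi => ?_⟩
    · rw [add_mul, one_mul, pow_add, mul_comm (2 ^ (n * w))]
      have := Nat.mul_le_mul_left (2 ^ w) hu
      rw [Nat.mul_succ] at this
      omega
    · cases i with
      | zero =>
        rw [fld, mul_zero, pow_zero, Nat.div_one, Nat.add_mul_mod_self_left, Nat.mod_eq_of_lt h0]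
      | succ i =>
        rw [← h i (by omega), fld, fld, mul_add, mul_one, pow_add, mul_comm (2 ^ (w * i)),
          ← Nat.div_div_eq_div_mul, Nat.add_mul_div_left _ _ (Nat.two_pow_pos _),
          Nat.div_eq_of_lt h0, zero_add]

theorem exists_fld (w : ℕ) (f : ℕ → ℕ) (hf : ∀ i < 15, f i < 2 ^ w) :
    ∃ u < 2 ^ (15 * w), ∀ i < 15, fld w u i = f i := TM.exists_fld w 15 f hf

theorem hf_hf (b : Bool) (e : Env) : hf b (hf b e) = e := by
  funext i
  simp [hf]

theorem xr_apply (e : Env) (i : Ix) (v : ℕ) (j : Ix) :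
    xr e i v j = e j ^^^ if j = i then v else 0 := by
  rw [xr, update_apply]
  split_ifs with h
  · rw [h]
  · rw [Nat.xor_zero]

theorem ag_symm {Q : Finset ℕ} {u v : ℕ} : Ag Q u v ↔ Ag Q v u :=
  forall₂_congr fun _ _ => eq_comm

theorem rl_ne (d : Bool) : rl d ≠ rl (!d) := by cases d <;> decide

theorem TM.bt_flip (t p q : ℕ) : bt (t ^^^ 2 ^ p) q = if q = p then 1 - bt t q else bt t q := by
  rw [bt_eq, bt_eq, Nat.testBit_xor, Nat.testBit_two_pow]
  by_cases h : q = p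
  · cases t.testBit q <;> simp [h]
  · simp [h, Ne.symm h]

theorem TM.cnt_ag {M w : ℕ} {Q : Finset ℕ} (hQ : Q ⊆ range M) :
    (∑ t ∈ range (2 ^ M), if Ag Q t w then (1 : ℝ) else 0) * 2 ^ #Q = 2 ^ M := by
  induction Q using Finset.induction_on with
  | empty => simp [Ag]
  | insert p Q hp ih =>
    have h1 := sum_xor (Nat.pow_lt_pow_right one_lt_two (mem_range.1 (hQ (mem_insert_self _ _))))
      fun t => if Ag (insert p Q) t w then (1 : ℝ) else 0
    rw [← ih ((subset_insert _ _).trans hQ), card_insert_of_notMem hp, pow_succ', ← mul_assoc,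
      mul_two]
    nth_rewrite 2 [← h1]
    rw [← sum_add_distrib]
    refine congrArg (· * _) (sum_congr rfl fun t _ => ?_)
    have h2 : Ag Q (t ^^^ 2 ^ p) w ↔ Ag Q t w :=
      forall₂_congr fun q hq => by rw [bt_flip, if_neg fun h : q = p => hp (h ▸ hq)]
    have h3 : ∀ t, Ag (insert p Q) t w ↔ bt t p = bt w p ∧ Ag Q t w := fun t =>
      forall_mem_insert _ _ _
    have h4 := bt_lt t p
    have h5 := bt_lt w p
    simp only [h3, h2, bt_flip, if_true]
    by_cases h6 : Ag Q t w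
    · by_cases h7 : bt t p = bt w p
      · rw [if_pos ⟨h7, h6⟩, if_neg (by omega), if_pos h6, add_zero]
      · rw [if_neg fun h => h7 h.1, if_pos ⟨by omega, h6⟩, if_pos h6, zero_add]
    · simp [h6]

namespace Pr

variable {p : Pr} {F : ℕ → ℕ} {k g ty u x y : ℕ} {e : Env} {d b : Bool} {R : Raw}

theorem win_iff (_ok : p.OK) {lo len v v' : ℕ} (h : lo + len ≤ 2 * p.m) :
    p.win v lo len = p.win v' lo len ↔ Ag (Ico lo (lo + len)) v v' := by
  rw [win, win, min_eq_left (by omega), min_eq_left (by omega)]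
  have h1 : ∀ v i, i < len → bt (v / 2 ^ lo % 2 ^ len) i = bt v (lo + i) := fun v i hi => by
    rw [bt_mod hi, bt, bt, Nat.div_div_eq_div_mul, ← pow_add]
  refine ⟨fun h2 q hq => ?_, fun h2 => eq_of_bt (Nat.mod_lt _ (Nat.two_pow_pos _))
    (Nat.mod_lt _ (Nat.two_pow_pos _)) fun i hi => ?_⟩
  · have hq := mem_Ico.1 hq
    obtain ⟨i, rfl⟩ := Nat.exists_eq_add_of_le hq.1
    rw [← h1 v i (by omega), h2, h1 v' i (by omega)]
  · rw [h1 v i hi, h1 v' i hi]
    exact h2 _ (mem_Ico.2 (by omega))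

theorem dt_lt (p : Pr) (k g ty u : ℕ) (d : Bool) : p.dt k g ty u d < p.n (k + 1) := by
  rw [dt, n, n, nm_succ]
  exact Nat.mul_lt_mul_of_pos_left (Nat.mod_lt _ (Nat.two_pow_pos _)) (nm_pos _ _)

theorem EOk.xr (he : p.EOk e) (i : Ix) {v : ℕ} (h1 : i.2 = false → v < p.n p.K)
    (h2 : i.2 = true → v < 2 ^ (2 * p.m)) : p.EOk (xr e i v) := fun r => by
  rw [xr_apply, xr_apply]
  refine ⟨Nat.xor_lt_two_pow (he r).1 ?_, Nat.xor_lt_two_pow (he r).2 ?_⟩ <;> split_ifs with h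
  exacts [h1 (h ▸ rfl), Nat.two_pow_pos _, h2 (h ▸ rfl), Nat.two_pow_pos _]

theorem OK.room (ok : p.OK) (hg : g ≤ p.K) : B * p.K + cc * g ≤ p.m := by
  have h1 := ok.hm
  have h2 := Nat.mul_le_mul_left cc hg
  have h3 := Nat.mul_le_mul_right p.K (show B ≤ B + C + 2 by omega)
  omega

theorem wc_lt (ok : p.OK) (hg : g + 1 ≤ p.K) (ty u : ℕ) : p.wc g ty u < 2 ^ (2 * p.m) := by
  unfold wc
  split_ifs
  · refine (Nat.mul_lt_mul_of_pos_right (Nat.mod_lt _ (Nat.two_pow_pos _))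
      (Nat.two_pow_pos _)).trans_le ?_
    have := ok.room hg
    rw [← pow_add]
    rw [mul_add, mul_one] at this
    exact Nat.pow_le_pow_right two_pos (by omega)
  · exact Nat.mod_lt _ (Nat.two_pow_pos _)

theorem EOk.ent (ok : p.OK) (he : p.EOk e) (hk : k + 1 + g ≤ p.K) (ty u : ℕ) :
    p.EOk (p.ent k g ty u e) := by
  have h1 : ∀ d, p.dt k g ty u d < p.n p.K := fun d =>
    (p.dt_lt k g ty u d).trans_le (nm_le _ (by omega))
  exact ((he.xr _ (fun _ => h1 _) (by simp)).xr _ (fun _ => h1 _) (by simp)).xr _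
    (by split_ifs <;> simp) fun _ => wc_lt ok (by omega) ty u

theorem EOk.hf (he : p.EOk e) (b : Bool) : p.EOk (hf b e) := fun _ => he _

theorem EOk.upd (he : p.EOk e) (r : Fin 3) {v : ℕ} (hv : v < 2 ^ (2 * p.m)) :
    p.EOk (update e (r, true) v) := fun r' => by
  refine ⟨by rw [update_of_ne (by simp)]; exact (he r').1, ?_⟩
  rw [update_apply]
  split_ifs
  exacts [hv, (he r').2]

theorem ent_ent (p : Pr) (k g ty u : ℕ) (e : Env) : p.ent k g ty u (p.ent k g ty u e) = e := by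
  have h : ∀ s a b c : ℕ, s ^^^ a ^^^ b ^^^ c ^^^ a ^^^ b ^^^ c = s := fun s a b c => by
    rw [show s ^^^ a ^^^ b ^^^ c ^^^ a ^^^ b ^^^ c = s ^^^ (a ^^^ a) ^^^ (b ^^^ b) ^^^ (c ^^^ c) by
      ac_rfl]
    simp
  funext i
  simp only [ent, xr_apply, h]

theorem Rel.typ (h : sw d (p.Rel F k g e) x y) : p.typ (!d) k y = p.typ d k x := by
  classical
  cases d
  · exact if_congr (new_iff h.1.2.2.2) rfl rfl
  · exact if_congr (new_iff h.1.2.2.2).symm rfl rfl

theorem Rel.lt (h : sw d (p.Rel F k g e) x y) : x < p.n k ∧ y < p.n k := by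
  cases d
  exacts [⟨h.1.2.1, h.1.1⟩, ⟨h.1.1, h.1.2.1⟩]

theorem RawOk.cand (h : p.RawOk F k g ty e R) : (p.cand k g ty R).Ok where
  nonneg d u x := mul_nonneg (h.nonneg d u x) (rp_nonneg _ _)
  le_one d u x := mul_le_one₀ (h.le_one d u x) (rp_nonneg _ _) (rp_le_one _ _)
  lt d u _ x hx h0 := (Rel.lt (h.snd d u x hx (left_ne_zero_of_mul h0)).1).2
  inv d u _ x hx h0 := (h.snd d u x hx (left_ne_zero_of_mul h0)).2.2

theorem typ_le (p : Pr) (d : Bool) (k x : ℕ) : p.typ d k x ≤ 1 := by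
  unfold typ
  split_ifs <;> norm_num

theorem sw_not {β : Sort*} (d : Bool) (G : ℕ → ℕ → β) (x y : ℕ) : sw (!d) G y x = sw d G x y := by
  cases d <;> rfl

/-- The relation seen from the end `d`. -/
theorem rel_iff : sw d (p.Rel F k g e) x y ↔ sw d (p.st k g) x y ∧
    Ag (sw d (p.Q k g) x y) (F (y ^^^ e (rl (!d), false))) (val F e d x ^^^ e (rl (!d), true)) := by
  cases d
  · exact and_congr_right' (ag_xor _ _ _ _)
  · exact and_congr_right' (ag_symm.trans (ag_xor _ _ _ _))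

/-- Completeness of the raw candidates, seen from the end `d`. -/
theorem RawOk.cmp' (h : p.RawOk F k g ty e R) (h1 : sw d (p.Rel F k g e) x y)
    (h2 : p.typ d k x = ty) (h3 : 3 / 4 ≤ sw d (p.tau k g) x y) : ∃ u < p.nl g ty,
      R.ps d u x = 1 ∧ R.ps (!d) u y = 1 ∧ R.en d u x = y ∧ R.en (!d) u y = x := by
  cases d
  · obtain ⟨u, hu, a1, a2, a3⟩ := h.cmp y x h1 ((Rel.typ h1).trans h2) h3
    exact ⟨u, hu, a2, a1, a3 ▸ (h.snd true u y h1.1.1 (by rw [a1]; norm_num)).2.2, a3⟩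
  · obtain ⟨u, hu, a1, a2, a3⟩ := h.cmp x y h1 h2 h3
    exact ⟨u, hu, a1, a2, a3, a3 ▸ (h.snd true u x h1.1.1 (by rw [a1]; norm_num)).2.2⟩

open Classical in
/-- There are few ends of strong candidates. -/
theorem RawOk.few (h : p.Gd F) (hk : k + g ≤ p.K) (he : p.EOk e) (hR : p.RawOk F k g ty e R)
    (d : Bool) (hx : x < p.n k) : ∃ s : Finset ℕ, #s ≤ 2 ^ p.lk ∧
      ∀ u, 1 / 4 < (p.cand k g ty R).f d u x → (p.cand k g ty R).en d u x ∈ s := by
  refine ⟨_, h.up k g hk d x _ (val F e d x ^^^ e (rl (!d), true)) (he (rl !d)).1, fun u hu => ?_⟩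
  obtain ⟨h1, h2⟩ := mul_ne_zero_iff.1 (lt_trans (by norm_num) hu).ne'
  have h3 := (hR.snd d u x hx h1).1
  have h4 : sw d (p.tau k g) x (R.en d u x) ≠ 0 := by linarith [lt_of_rp h2]
  exact mem_filter.2 ⟨mem_range.2 (Rel.lt h3).2, h4, (rel_iff.1 h3).2⟩

theorem OK.n_le (ok : p.OK) (hk : k ≤ p.K) : p.n k ≤ 2 ^ (2 * p.m) :=
  (nm_le _ hk).trans (Nat.pow_le_pow_right two_pos (by have := ok.hm; omega))

theorem OK.W_ge (ok : p.OK) : 2 * (2 * p.m * (2 * 2 ^ p.lk) ^ 2 + 1) ≤ p.W := by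
  have h1 := ok.hlk
  have h2 : p.W = 16 * (2 ^ p.lk * (2 ^ p.lk) ^ 2) := by
    rw [W, wl]
    ring
  have h3 := Nat.mul_le_mul_right ((2 ^ p.lk) ^ 2) h1
  have h4 : 1 ≤ (2 ^ p.lk) ^ 2 := Nat.one_le_pow _ _ (Nat.two_pow_pos _)
  rw [h2]
  nlinarith

/-- A perfect label for a visible matching pair. -/
theorem RawOk.lab (h : p.Gd F) (hk : k + g ≤ p.K) (he : p.EOk e) (hR : p.RawOk F k g ty e R)
    (h1 : sw d (p.Rel F k g e) x y) (h2 : p.typ d k x = ty) (h3 : 3 / 4 ≤ sw d (p.tau k g) x y) :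
    ∃ l < p.NL, (p.cand k g ty R).q p.W d l x = 1 ∧ (p.cand k g ty R).q p.W (!d) l y = 1 ∧
      (p.cand k g ty R).pt p.W d l x = y := by
  obtain ⟨u, hu, a1, a2, a3, a4⟩ := hR.cmp' h1 h2 h3
  obtain ⟨s, hs, hs'⟩ := hR.few h hk he d (Rel.lt h1).1
  obtain ⟨t, ht, ht'⟩ := hR.few h hk he (!d) (Rel.lt h1).2
  refine Cand.exists_lab hR.cand (h.toOK.n_le (by omega)) h.toOK.W_ge (Rel.lt h1).1 hu ?_ a3 ?_
    s t hs ht (fun u _ => hs' u) fun u _ => ht' u
  · simp only [Pr.cand, a1, a3, one_mul]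
    exact rp_eq_one (by linarith)
  · simp only [Pr.cand, a2, a4, one_mul, sw_not]
    exact rp_eq_one (by linarith)

theorem tabOk_of (h : p.Gd F) (hk : k + g ≤ p.K) (he : p.EOk e)
    (hR : ∀ ty ≤ 1, p.RawOk F k g ty e (p.raw F k g ty e)) : p.TabOk F k g e := by
  classical
  have hR' := fun d x => hR _ (p.typ_le d k x)
  have snd : ∀ d l, ∀ x < p.n k, p.tq F k g e d l x ≠ 0 →
      sw d (p.Rel F k g e) x (p.tp F k g e d l x) ∧
        p.tp F k g e (!d) l (p.tp F k g e d l x) = x := by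
    intro d l x hx hq
    obtain ⟨u, w⟩ := Cand.wit_of_q (hR' d x).cand hx hq
    have h1 := ((hR' d x).snd d u x hx (left_ne_zero_of_mul (lt_trans (by norm_num) w.f).ne')).1
    have h2 : sw d (p.Rel F k g e) x (p.tp F k g e d l x) :=
      (congrArg (sw d (p.Rel F k g e) x) w.en).mp h1
    refine ⟨h2, ?_⟩
    have h3 := w.symm.pt (hR' d x).cand
    rw [tp, lp, cAt, Rel.typ h2]
    exact h3
  refine ⟨fun _ _ _ => ⟨Cand.q_nonneg, Cand.q_le_one⟩,
    fun _ _ _ => ⟨Cand.om_nonneg, Cand.om_le_q.trans Cand.q_le_one⟩,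
    fun _ _ _ => Cand.q_ne_of_om, snd, fun x y h1 h2 => ?_, fun d x hx G hG => ?_⟩
  · obtain ⟨l, hl, a1, a2, a3⟩ := (hR' true x).lab (d := true) h hk he h1 rfl h2
    refine ⟨l, hl, a1, ?_, a3⟩
    rw [tq, lq, cAt, show p.typ false k y = _ from Rel.typ (d := true) h1]
    exact a2
  · refine Eq.trans (sum_congr rfl fun l _ => ?_) (Cand.sum_om_mul (W := p.W) (d := d)
      (hR' d x).cand hx (fun y => if sw d (p.Rel F k g e) x y then G y else 0) fun y _ hy => ?_)
    · by_cases h1 : p.tom F k g e d l x = 0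
      · exact (mul_eq_zero_of_left h1 _).trans (mul_eq_zero_of_left h1 _).symm
      · exact congrArg _ (if_pos (snd d l x hx (Cand.q_ne_of_om h1)).1).symm
    · split_ifs at hy with h1
      · obtain ⟨l, hl, a1, -, a3⟩ := (hR' d x).lab h hk he h1 rfl (hG y hy)
        exact ⟨l, hl, a1, a3⟩
      · exact absurd rfl hy

open Classical in
/-- A random shift matches with probability `2 ^ (-#Q)`. -/
theorem avg_ag {M v w : ℕ} {Q : Finset ℕ} (hQ : Q ⊆ range M) (hv : v < 2 ^ M) :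
    (∑ t ∈ range (2 ^ M), if Ag Q (v ^^^ t) w then (1 : ℝ) else 0) / 2 ^ M = 1 / 2 ^ #Q := by
  have h1 := sum_xor hv fun t => if Ag Q t w then (1 : ℝ) else 0
  simp only [Nat.xor_comm v]
  rw [h1, div_eq_div_iff (by positivity) (by positivity), TM.cnt_ag hQ, one_mul]

theorem card_Q (hk : k ≤ p.K) (g x y : ℕ) : #(p.Q k g x y) = p.ell k x y + cc * g := by
  have h1 := (p.ell_le k x y).trans (Nat.mul_le_mul_left B hk)
  rw [Q, card_union_of_disjoint (disjoint_left.2 fun q h2 h3 => by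
    have := mem_range.1 h2
    have := mem_Ico.1 h3
    omega), card_range, Nat.card_Ico, Nat.add_sub_cancel_left]

theorem Q_subset (ok : p.OK) (hk : k + g ≤ p.K) (x y : ℕ) : p.Q k g x y ⊆ range (2 * p.m) := by
  have h1 := (p.ell_le k x y).trans (Nat.mul_le_mul_left B (show k ≤ p.K by omega))
  have h2 := ok.room (show g ≤ p.K by omega)
  intro q hq
  simp only [Q, mem_union, mem_range, mem_Ico] at hq ⊢
  omega

theorem val_lt (h : p.Gd F) (he : p.EOk e) (d : Bool) (x : ℕ) : val F e d x < 2 ^ (2 * p.m) :=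
  Nat.xor_lt_two_pow (h.hF _) (he _).2

open Classical in
/-- The average over the shift of the far values. -/
theorem avg_rel (h : p.Gd F) (hk : k + g ≤ p.K) (he : p.EOk e) (d : Bool) (x : ℕ) (G : ℕ → ℝ) :
    (∑ t ∈ range (2 ^ (2 * p.m)), ∑ y ∈ range (p.n k),
      if sw d (p.Rel F k g (update e (rl (!d), true) t)) x y then G y else 0) / 2 ^ (2 * p.m) =
    ∑ y ∈ range (p.n k),
      if sw d (p.st k g) x y then G y / 2 ^ (sw d (p.ell k) x y + cc * g) else 0 := by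
  rw [sum_comm, sum_div]
  refine sum_congr rfl fun y _ => ?_
  have h1 : ∀ t, sw d (p.Rel F k g (update e (rl (!d), true) t)) x y ↔ sw d (p.st k g) x y ∧
      Ag (sw d (p.Q k g) x y) (val F e d x ^^^ t) (F (y ^^^ e (rl (!d), false))) := fun t => by
    rw [rel_iff, ag_symm, update_self, update_of_ne (by simp), val, val, update_of_ne (by simp),
      update_of_ne (by simp [rl_ne])]
  have h2 : sw d (p.Q k g) x y ⊆ range (2 * p.m) ∧
      #(sw d (p.Q k g) x y) = sw d (p.ell k) x y + cc * g := by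
    cases d <;> exact ⟨Q_subset h.toOK hk _ _, card_Q (by omega) _ _ _⟩
  simp only [h1]
  split_ifs with h3
  · rw [← h2.2, div_eq_mul_one_div (G y), ← avg_ag (w := F (y ^^^ e (rl (!d), false))) h2.1
      (val_lt h he d x), ← mul_div_assoc, mul_sum]
    simp only [h3, true_and, mul_ite, mul_one, mul_zero]
  · simp [h3]

end Pr

end Vale.Agent.P313.NL2
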