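import Vale.Agent.P313.NL2.Prog
import Vale.Agent.P313.NL2.TabM
import Vale.Agent.P313.Full.Box

/-! States and contexts of the program for the tables with short labels. -/

namespace Vale.Agent.P313.NL2

open Finset Function Vale.Agent.P313.Hi Vale.Agent.P313.NL Vale.Agent.P313.KH Vale.Agent.P313.Full
  Vale.Agent.P313.Full.Tm

/-! ### Contexts -/

section cx

variable (k g ty l u x1 x2 v : ℕ)

@[simp] theorem mk_k : mk k g ty l u x1 x2 .k = k := rfl
@[simp] theorem mk_g : mk k g ty l u x1 x2 .g = g := rfl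
@[simp] theorem mk_ty : mk k g ty l u x1 x2 .ty = ty := rfl
@[simp] theorem mk_lab : mk k g ty l u x1 x2 .lab = l := rfl
@[simp] theorem mk_u : mk k g ty l u x1 x2 .u = u := rfl
@[simp] theorem mk_x1 : mk k g ty l u x1 x2 .x1 = x1 := rfl
@[simp] theorem mk_x2 : mk k g ty l u x1 x2 .x2 = x2 := rfl

@[simp] theorem upd_lab : update (mk k g ty l u x1 x2) .lab v = mk k g ty v u x1 x2 := by
  funext r
  cases r <;> simp

@[simp] theorem upd_u : update (mk k g ty l u x1 x2) .u v = mk k g ty l v x1 x2 := by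
  funext r
  cases r <;> simp

@[simp] theorem upd_x1 : update (mk k g ty l u x1 x2) .x1 v = mk k g ty l u v x2 := by
  funext r
  cases r <;> simp

@[simp] theorem upd_x2 : update (mk k g ty l u x1 x2) .x2 v = mk k g ty l u x1 v := by
  funext r
  cases r <;> simp

theorem mk_eq (q : Cx) : mk (q .k) (q .g) (q .ty) (q .lab) (q .u) (q .x1) (q .x2) = q := by
  funext r
  cases r <;> rfl

end cx

/-! ### States -/

@[simp] theorem env_lift (f : Env → Env) (s : St) : env (lift f s) = f (env s) := rfl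

@[simp] theorem lift_pos (f : Env → Env) (s : St) : lift f s .pos = s .pos := rfl

@[simp] theorem lift_ch (f : Env → Env) (s : St) : lift f s .ch = s .ch := rfl

theorem St.ext' {s s' : St} (h1 : s .pos = s' .pos) (h2 : s .ch = s' .ch) (h3 : env s = env s') :
    s = s' := by
  funext r
  cases r with
  | pos => exact h1
  | ch => exact h2
  | e i => exact congrFun h3 i

theorem lift_lift {f : Env → Env} (h : ∀ e, f (f e) = e) (s : St) : lift f (lift f s) = s :=
  St.ext' rfl rfl (h _)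

@[simp] theorem env_upd_pos (s : St) (v : ℕ) : env (update s .pos v) = env s := by
  funext i
  simp [env]

@[simp] theorem env_upd_ch (s : St) (v : ℕ) : env (update s .ch v) = env s := by
  funext i
  simp [env]

@[simp] theorem env_upd_e (s : St) (i : Ix) (v : ℕ) :
    env (update s (.e i) v) = update (env s) i v := by
  funext j
  by_cases h : j = i
  · subst h
    simp [env]
  · simp [env, h]

theorem rl_not (d : Bool) : rl (!d) ≠ rl d := by cases d <;> decide

namespace Pr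

variable {p : Pr} {k g ty u y z : ℕ} {s : St} {q : Cx}

theorem n_pos (p : Pr) (k : ℕ) : 0 < p.n k := nm_pos _ _

theorem nx_lt (p : Pr) (k : ℕ) (s : St) : p.nx k s < p.n k := Nat.mod_lt _ (p.n_pos k)

theorem nx_mod (p : Pr) (k : ℕ) (s : St) : p.nx (k + 1) s % p.n k = p.nx k s :=
  mod_nm_mod _ (Nat.le_succ k) _

@[simp] theorem nx_lift (f : Env → Env) : p.nx k (lift f s) = p.nx k s := rfl

@[simp] theorem nx_upd_ch (v : ℕ) : p.nx k (update s .ch v) = p.nx k s := by simp [nx]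

@[simp] theorem nx_upd_e (i : Ix) (v : ℕ) : p.nx k (update s (.e i) v) = p.nx k s := by simp [nx]

@[simp] theorem env_mv : env (p.mv k s y) = env s := env_upd_pos _ _

@[simp] theorem mv_ch : p.mv k s y .ch = s .ch := by simp [mv]

theorem mv_pos : p.mv k s y .pos = y + p.n k * (s .pos / p.n k) := update_self ..

theorem nx_mv (hy : y < p.n k) : p.nx k (p.mv k s y) = y := by
  rw [nx, mv_pos, Nat.add_mul_mod_self_left, Nat.mod_eq_of_lt hy]

theorem mv_nx (p : Pr) (k : ℕ) (s : St) : p.mv k s (p.nx k s) = s := by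
  rw [mv, nx, Nat.mod_add_div, update_eq_self]

theorem mv_mv (hy : y < p.n k) : p.mv k (p.mv k s y) z = p.mv k s z := by
  rw [mv, mv_pos, Nat.add_mul_div_left _ _ (p.n_pos k), Nat.div_eq_of_lt hy, zero_add, mv,
    update_idem, mv]

theorem lift_mv (f : Env → Env) : lift f (p.mv k s y) = p.mv k (lift f s) y :=
  St.ext' (by rw [lift_pos, mv_pos, mv_pos, lift_pos]) (by simp) (by simp)

theorem mem_box : s ∈ box p.bd ↔ s .pos < p.n p.K ∧ s .ch < 2 ^ (2 * p.m) ∧ p.EOk (env s) := by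
  rw [Full.mem_box]
  refine ⟨fun h => ⟨h .pos, h .ch, fun r => ⟨h (.e (r, false)), h (.e (r, true))⟩⟩, fun h r => ?_⟩
  rcases r with _ | _ | ⟨r, _ | _⟩
  exacts [h.1, h.2.1, (h.2.2 r).1, (h.2.2 r).2]

theorem bd_pos (p : Pr) (r : Sr) : 0 < p.bd r := by
  rcases r with _ | _ | ⟨r, _ | _⟩
  exacts [p.n_pos _, Nat.two_pow_pos _, p.n_pos _, Nat.two_pow_pos _]

theorem mv_mem (hk : k ≤ p.K) (hs : s ∈ box p.bd) (hy : y < p.n k) : p.mv k s y ∈ box p.bd := by
  refine update_mem_box hs ?_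
  obtain ⟨c, hc⟩ : p.n k ∣ p.n p.K := nm_dvd p.n0 hk
  have h1 : s .pos < p.n k * c := hc ▸ (mem_box.1 hs).1
  have h2 := Nat.mul_le_mul_left (p.n k) (Nat.div_lt_of_lt_mul h1)
  change _ < p.n p.K
  rw [hc]
  rw [Nat.mul_succ] at h2
  omega

theorem lift_mem {f : Env → Env} (hs : s ∈ box p.bd) (h : p.EOk (f (env s))) :
    lift f s ∈ box p.bd := mem_box.2 ⟨(mem_box.1 hs).1, (mem_box.1 hs).2.1, h⟩

theorem hf_mem (hs : s ∈ box p.bd) (b : Bool) : lift (hf b) s ∈ box p.bd :=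
  lift_mem hs ((mem_box.1 hs).2.2.hf b)

theorem kq_eq (h : q .k ≤ p.K) : p.kq q = q .k := min_eq_left h

theorem gq_eq (h : q .g ≤ p.K) : p.gq q = q .g := min_eq_left h

theorem _root_.Vale.Agent.P313.NL2.tyq_eq (h : q .ty ≤ 1) : tyq q = q .ty := min_eq_left h

theorem pe_eq (h : q .k = k + 1) (hk : k + 1 + q .g ≤ p.K) (ht : q .ty ≤ 1) :
    p.pe q = lift (p.ent k (q .g) (q .ty) (q .u)) := by
  rw [pe, kq_eq (by omega), gq_eq (by omega), tyq_eq ht, h, Nat.add_sub_cancel]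

theorem pe_pe (p : Pr) (q : Cx) (s : St) : p.pe q (p.pe q s) = s := lift_lift (p.ent_ent _ _ _ _) s

@[simp] theorem env_pf : env (p.pf q s) = env (p.pe q s) := env_upd_pos _ _

@[simp] theorem pf_ch : p.pf q s .ch = s .ch := by simp [pf, pe]

theorem pf_pos : p.pf q s .pos = s .pos ^^^ (p.dt (p.kq q - 1) (p.gq q) (tyq q) (q .u) true ^^^
    p.dt (p.kq q - 1) (p.gq q) (tyq q) (q .u) false) := update_self ..

theorem pf_pf (p : Pr) (q : Cx) (s : St) : p.pf q (p.pf q s) = s :=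
  St.ext' (by rw [pf_pos, pf_pos, Nat.xor_xor_cancel_right]) (by simp)
    (by rw [env_pf, pe, env_lift, env_pf, pe, env_lift, ent_ent])

theorem pe_mem (ok : p.OK) (h : q .k = k + 1) (hk : k + 1 + q .g ≤ p.K) (ht : q .ty ≤ 1)
    (hs : s ∈ box p.bd) : p.pe q s ∈ box p.bd := by
  rw [pe_eq h hk ht]
  exact lift_mem hs ((mem_box.1 hs).2.2.ent ok hk _ _)

theorem pf_mem (ok : p.OK) (h : q .k = k + 1) (hk : k + 1 + q .g ≤ p.K) (ht : q .ty ≤ 1)
    (hs : s ∈ box p.bd) : p.pf q s ∈ box p.bd := by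
  refine update_mem_box (pe_mem ok h hk ht hs) ?_
  have h1 : ∀ d, p.dt (p.kq q - 1) (p.gq q) (tyq q) (q .u) d < p.n p.K := fun d =>
    (p.dt_lt _ _ _ _ d).trans_le (nm_le _ (by rw [kq_eq (by omega)]; omega))
  exact Nat.xor_lt_two_pow (mem_box.1 hs).1 (Nat.xor_lt_two_pow (h1 true) (h1 false))

theorem dt_mod (p : Pr) (k g ty u : ℕ) (d : Bool) (x : ℕ) :
    (x ^^^ p.dt k g ty u d) % p.n k = x % p.n k := by
  rw [dt, mul_comm]
  exact xor_mul_mod le_rfl _ _

/-- The exchange of the digit: the name `y` below and the digit `c` give the name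
`y + n k * c'` after the exchange. -/
theorem xor_dt {c c' t : ℕ} (hy : y < p.n k) (hc : c < 2 ^ a) (hc' : c' < 2 ^ a) :
    (y + p.n k * (c + 2 ^ a * t)) ^^^ (p.n k * c ^^^ p.n k * c') =
      y + p.n k * c' + p.n (k + 1) * t := by
  have h0 : p.n (k + 1) = p.n k * 2 ^ a := nm_succ _ _
  have h1 : ∀ c < 2 ^ a, y + p.n k * (c + 2 ^ a * t) =
      (y ^^^ c * p.n k) ^^^ t * p.n (k + 1) := fun c hc => by
    have h2 : y + p.n k * c < p.n (k + 1) := by
      have := Nat.mul_le_mul_left (p.n k) hc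
      rw [Nat.mul_succ] at this
      omega
    have h4 : y + p.n k * c = y ^^^ c * p.n k := add_mul_eq_xor hy c
    have h5 : _ + p.n (k + 1) * t = _ ^^^ t * p.n (k + 1) := add_mul_eq_xor h2 t
    rw [← h4, ← h5, h0]
    ring
  have h3 : y + p.n k * c' + p.n (k + 1) * t = y + p.n k * (c' + 2 ^ a * t) := by
    rw [h0]
    ring
  rw [h3, h1 c hc, h1 c' hc', mul_comm (p.n k) c, mul_comm (p.n k) c']
  refine Nat.eq_of_testBit_eq fun i => ?_
  simp only [Nat.testBit_xor]
  generalize y.testBit i = b1, (c * p.n k).testBit i = b2, (c' * p.n k).testBit i = b3,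
    (t * p.n (k + 1)).testBit i = b4
  revert b1 b2 b3 b4
  decide

theorem div_eq (p : Pr) (k x : ℕ) : x / p.n k = cd p.n0 k x + 2 ^ a * (x / p.n (k + 1)) := by
  rw [n, n, nm_succ, ← Nat.div_div_eq_div_mul, cd, Nat.mod_add_div]

theorem nx_pf (h : q .k = k + 1) (hk : k + 1 ≤ p.K) : p.nx k (p.pf q s) = p.nx k s := by
  rw [nx, pf_pos, ← Nat.xor_assoc, kq_eq (by omega), h, Nat.add_sub_cancel, dt_mod, dt_mod, nx]

/-- The state after a move on the level below. -/
theorem conj_eq {d : Bool} (h : q .k = k + 1) (hk : k + 1 + q .g ≤ p.K) (ht : q .ty ≤ 1)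
    (hx : cd p.n0 k (s .pos) = (p.sl (q .g) (q .ty) (q .u) d).c) (hy : y < p.n k) :
    (bif !d then p.pe q else p.pf q) (p.mv k ((bif d then p.pe q else p.pf q) s) y) =
      p.mv (k + 1) s (y + p.dt k (q .g) (q .ty) (q .u) (!d)) := by
  have h1 : ∀ s, p.pf q s .pos = s .pos ^^^ (p.dt k (q .g) (q .ty) (q .u) true ^^^
      p.dt k (q .g) (q .ty) (q .u) false) := fun s => by
    rw [pf_pos, kq_eq (by omega), gq_eq (by omega), tyq_eq ht, h, Nat.add_sub_cancel]
  have h2 : p.dt k (q .g) (q .ty) (q .u) d = p.n k * cd p.n0 k (s .pos) := by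
    rw [dt, ← hx, Nat.mod_eq_of_lt (cd_lt _ _ _)]
  have h0 : p.n (k + 1) = p.n k * 2 ^ a := nm_succ _ _
  cases d
  · refine St.ext' ?_ (by simp [pe]) (by simp [pe, ent_ent])
    have h3 := xor_dt (t := s .pos / p.n (k + 1)) (p.nx_lt k s) (cd_lt p.n0 k (s .pos))
      (Nat.mod_lt (p.sl (q .g) (q .ty) (q .u) true).c (Nat.two_pow_pos a))
    rw [← div_eq, nx, Nat.mod_add_div] at h3
    change p.mv k (p.pf q s) y .pos = _
    rw [mv_pos, mv_pos, h1, h2, Nat.xor_comm (p.dt _ _ _ _ _), dt, h3, Bool.not_false, dt, h0,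
      mul_assoc, add_assoc, ← mul_add, Nat.add_mul_div_left _ _ (p.n_pos k),
      Nat.div_eq_of_lt (Nat.mod_lt _ (p.n_pos k))]
    ring
  · refine St.ext' ?_ (by simp [pe]) (by simp [pe, ent_ent])
    change p.pf q (p.mv k (p.pe q s) y) .pos = _
    rw [h1, mv_pos, mv_pos, h2, pe, lift_pos, div_eq, Bool.not_true, dt,
      xor_dt hy (cd_lt _ _ _) (Nat.mod_lt _ (Nat.two_pow_pos a))]

end Pr

variable {α : Type} {c : α → In} {a : α} {k g ty : ℕ}

theorem box_eq (c : α → In) (a : α) : (prog c).box a = box (c a).bd := rfl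

theorem eok_env {s : St} (hs : s ∈ (prog c).box a) : (c a).EOk (env s) := (Pr.mem_box.1 hs).2.2

theorem side_eq (m : ℕ) : 2 ^ m * 2 ^ m = 2 ^ (2 * m) := by rw [← pow_add, two_mul]

theorem vR_ok {r : Sr} (h : (c a).bd r = 2 ^ (2 * (c a).m)) (q : Cx) :
    (vR c r).Ok a q ((prog c).box a) :=
  lens_coord (Nat.two_pow_pos _) (h.trans (side_eq _).symm)

theorem vO_ok (q : Cx) : (vO : Full.View α Sr Cr).Ok a q ((prog c).box a) :=
  ⟨fun _ _ => Nat.one_pos, fun _ h _ _ => h, fun _ _ v h => by simp [vO] at h ⊢; omega,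
    fun _ _ => rfl, fun _ _ _ _ _ _ => rfl⟩

/-- The average over a register. -/
theorem val_avg {r : Sr} {n : ℕ} {e : Tr α} {q : Cx} {s : St} {f : ℕ → ℝ}
    (h : ∀ t < 2 ^ (2 * (c a).m), (prog c).Val a n e q (update s r t) (f t)) :
    (prog c).Val a n (avg (vR c r) e) q s
      ((∑ t ∈ range (2 ^ (2 * (c a).m)), f t) / 2 ^ (2 * (c a).m)) := by
  have h1 := Pg.Val.avg (V := vR c r) (f := f) fun t ht => h t (side_eq _ ▸ ht)
  refine h1.congr ?_
  simp only [vR, side_eq]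
  norm_cast

theorem NL_pos (p : Pr) : 0 < p.NL := by
  unfold Pr.NL Pr.W
  positivity

open Classical in
theorem val_aT (hw : (prog c).WF a) {dir : Bool → Bool} {t : Pn} {kf gf lf : α → Cx → ℕ} {q : Cx}
    {n : ℕ} {s : St} {v : ℝ} (h : (prog c).PVal a t (mk (kf a q) (gf a q)
      ((c a).typ (dir true) (kf a q) ((c a).nx (kf a q) s)) (lf a q) 0 0 0) s v) :
    (prog c).Val a n (aT c dir t kf gf lf) q s v := by
  unfold Pr.typ at h
  split_ifs at h with h1
  · exact Pg.Val.altT (decide_eq_true h1) (Pg.Val.cal hw h)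
  · exact Pg.Val.altF (decide_eq_false h1) (Pg.Val.cal hw h)

open Classical in
theorem mov_aM (hw : (prog c).WF a) {kf gf lf : α → Cx → ℕ} {q : Cx} {n : ℕ} {d : Bool}
    {s s' : St} (h : (prog c).PMov a .MV (mk (kf a q) (gf a q)
      ((c a).typ d (kf a q) ((c a).nx (kf a q) s)) (lf a q) 0 0 0) d s (some s'))
    (h' : (c a).typ (!d) (kf a q) ((c a).nx (kf a q) s') =
      (c a).typ d (kf a q) ((c a).nx (kf a q) s)) :
    (prog c).Mov a n (aM c kf gf lf) q d s (some s') := by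
  unfold Pr.typ at h h'
  by_cases h1 : (c a).new d (kf a q) ((c a).nx (kf a q) s)
  · rw [if_pos h1] at h h'
    exact Pg.Mov.altT (decide_eq_true h1) (decide_eq_true (by simpa using h')) (Pg.Mov.cal hw h)
  · rw [if_neg h1] at h h'
    exact Pg.Mov.altF (decide_eq_false h1) (decide_eq_false (by simpa using h')) (Pg.Mov.cal hw h)

/-- A move on the level below is a move on the level. -/
theorem mov_cjE (ok : (c a).OK) {M : Tr α} {q : Cx} {n y : ℕ} {d : Bool} {s : St}
    (h : q .k = k + 1) (hk : k + 1 + q .g ≤ (c a).K) (ht : q .ty ≤ 1) (hs : s ∈ (prog c).box a)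
    (hx : cd (c a).n0 k (s .pos) = ((c a).sl (q .g) (q .ty) (q .u) d).c) (hy : y < (c a).n k)
    (hM : ∀ s' ∈ (prog c).box a, env s' = (c a).ent k (q .g) (q .ty) (q .u) (env s) →
      (c a).nx k s' = (c a).nx k s → (prog c).Mov a n M q d s' (some ((c a).mv k s' y))) :
    (prog c).Mov a n (cjE c M) q d s
      (some ((c a).mv (k + 1) s (y + (c a).dt k (q .g) (q .ty) (q .u) (!d)))) := by
  rw [← Pr.conj_eq h hk ht hx hy]
  refine Pg.Mov.conj (π := fun b a q => bif b then (c a).pe q else (c a).pf q) (hM _ ?_ ?_ ?_)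
  · cases d
    exacts [Pr.pf_mem ok h hk ht hs, Pr.pe_mem ok h hk ht hs]
  · cases d <;> simp [Pr.pe_eq h hk ht]
  · cases d
    exacts [Pr.nx_pf h (by omega), rfl]

/-- The value on the level below. -/
theorem val_inE (ok : (c a).OK) {e : Tr α} {q : Cx} {n : ℕ} {s : St} {v : ℝ}
    (h : q .k = k + 1) (hk : k + 1 + q .g ≤ (c a).K) (ht : q .ty ≤ 1) (hs : s ∈ (prog c).box a)
    (hM : ∀ s' ∈ (prog c).box a, env s' = (c a).ent k (q .g) (q .ty) (q .u) (env s) →
      s' .pos = s .pos → s' .ch = s .ch → (prog c).Val a n e q s' v) :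
    (prog c).Val a n (inE c e) q s v :=
  Pg.Val.aft (hM _ (Pr.pe_mem ok h hk ht hs) (by simp [Pr.pe_eq h hk ht]) rfl rfl)

theorem typ_le (p : Pr) (d : Bool) (k x : ℕ) : p.typ d k x ≤ 1 := by
  unfold Pr.typ
  split_ifs <;> simp

theorem tabI_of (hw : (prog c).WF a)
    (hT : ∀ e, (c a).EOk e → (c a).TabOk (c a).F k g e)
    (hG : ∀ ty ≤ 1, GadI c a k g ty fun e => (c a).cand k g ty ((c a).raw (c a).F k g ty e)) :
    TabI c a k g := by
  rintro kf gf lf q n rfl rfl hl s hs d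
  obtain ⟨h1, h2, h3⟩ := hG _ (typ_le (c a).toPr d (kf a q) ((c a).nx (kf a q) s)) _ hl s hs d
  refine ⟨val_aT hw h1, val_aT hw h2, fun h => ?_⟩
  obtain ⟨h4, h5, h6⟩ := h3 h
  have h7 := ((hT _ (eok_env hs)).snd d _ _ (Pr.nx_lt _ _ s) h).1
  exact ⟨mov_aM hw h4 (by rw [Pr.nx_mv (Pr.Rel.lt h7).2]; exact Pr.Rel.typ h7), val_aT hw h5,
    val_aT hw h6⟩

end Vale.Agent.P313.NL2
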