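import Vale.Agent.P313.NL2.Tab
import Vale.Agent.P313.Full.PgRule

/-! The program for the tables with short labels. -/

namespace Vale.Agent.P313.NL2

open Finset Function Vale.Agent.P313.Hi Vale.Agent.P313.NL Vale.Agent.P313.Full
  Vale.Agent.P313.Full.Tm

/-- The registers: the name, a character, the shifts. -/
inductive Sr | pos | ch | e (i : Ix) deriving DecidableEq

/-- The variables of the context. -/
inductive Cr | k | g | ty | lab | u | x1 | x2 deriving DecidableEq

/-- The procedures. -/
inductive Pn | RM | PS (d : Bool) | RW (d : Bool) | RT (d : Bool) | RF (d : Bool) | GQ (d : Bool)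
  | Gq (d : Bool) | MV | Go (d : Bool) | GW (d : Bool) | GT (d : Bool) | SG (d : Bool)
  | HH (d : Bool) | TH (d : Bool) | TW deriving DecidableEq

instance : Fintype Sr := ⟨{.pos, .ch} ∪ univ.image .e, fun x => by cases x <;> simp⟩

instance : Fintype Cr := ⟨{.k, .g, .ty, .lab, .u, .x1, .x2}, fun x => by cases x <;> simp⟩

instance : Finite Pn := Finite.of_surjective
  (fun p : Fin 15 × Bool => (![.RM, .PS p.2, .RW p.2, .RT p.2, .RF p.2, .GQ p.2, .Gq p.2, .MV,
    .Go p.2, .GW p.2, .GT p.2, .SG p.2, .HH p.2, .TH p.2, .TW] : Fin 15 → Pn) p.1) fun x => by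
  cases x with
  | RM => exact ⟨(0, true), rfl⟩
  | PS d => exact ⟨(1, d), rfl⟩
  | RW d => exact ⟨(2, d), rfl⟩
  | RT d => exact ⟨(3, d), rfl⟩
  | RF d => exact ⟨(4, d), rfl⟩
  | GQ d => exact ⟨(5, d), rfl⟩
  | Gq d => exact ⟨(6, d), rfl⟩
  | MV => exact ⟨(7, true), rfl⟩
  | Go d => exact ⟨(8, d), rfl⟩
  | GW d => exact ⟨(9, d), rfl⟩
  | GT d => exact ⟨(10, d), rfl⟩
  | SG d => exact ⟨(11, d), rfl⟩
  | HH d => exact ⟨(12, d), rfl⟩
  | TH d => exact ⟨(13, d), rfl⟩
  | TW => exact ⟨(14, true), rfl⟩

/-- Contexts. -/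
abbrev Cx : Type := Cr → ℕ

/-- States. -/
abbrev St : Type := Sr → ℕ

/-- The input: parameters, hash function, level and names for the procedures at the top. -/
structure In extends Pr where
  F : ℕ → ℕ
  k0 : ℕ
  x0 : ℕ
  y0 : ℕ

/-- The context with given entries. -/
def mk (k g ty lab u x1 x2 : ℕ) : Cx
  | .k => k
  | .g => g
  | .ty => ty
  | .lab => lab
  | .u => u
  | .x1 => x1
  | .x2 => x2

/-- The shifts in a state. -/
def env (s : St) : Env := fun j => s (.e j)

/-- A map of the shifts as a map of states. -/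
def lift (f : Env → Env) (s : St) : St
  | .e j => f (env s) j
  | r => s r

/-- The weight of a merged entry with a truncated exponent. -/
noncomputable def Sg.wMt (S T : Sg) (g : ℕ) (x c : ℝ) : ℝ :=
  open Classical in
  if S.nsat T then c * (x * 2 ^ min (S.gap T) (B * (g + 1))) / 2 ^ (S.gs T + 2) else 0

namespace Pr

variable (p : Pr)

/-- The bounds of the registers. -/
noncomputable def bd : Sr → ℕ
  | .pos => p.n p.K
  | .ch => 2 ^ (2 * p.m)
  | .e (_, false) => p.n p.K
  | .e (_, true) => 2 ^ (2 * p.m)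

/-- The name of the level `k`. -/
noncomputable def nx (k : ℕ) (s : St) : ℕ := s .pos % p.n k

/-- Replace the name of the level `k`. -/
noncomputable def mv (k : ℕ) (s : St) (y : ℕ) : St :=
  update s .pos (y + p.n k * (s .pos / p.n k))

/-- The level in the context. -/
def kq (q : Cx) : ℕ := min (q .k) p.K

/-- The age in the context. -/
def gq (q : Cx) : ℕ := min (q .g) p.K

/-- The type in the context. -/
def _root_.Vale.Agent.P313.NL2.tyq (q : Cx) : ℕ := min (q .ty) 1

/-- Enter the level below. -/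
noncomputable def pe (q : Cx) : St → St := lift (p.ent (p.kq q - 1) (p.gq q) (tyq q) (q .u))

/-- Leave the level below at the target. -/
noncomputable def pf (q : Cx) (s : St) : St :=
  update (p.pe q s) .pos (s .pos ^^^ (p.dt (p.kq q - 1) (p.gq q) (tyq q) (q .u) true ^^^
    p.dt (p.kq q - 1) (p.gq q) (tyq q) (q .u) false))

open Classical in
/-- `1` at the test ages. -/
noncomputable def _root_.Vale.Agent.P313.NL2.tI (g : ℕ) : ℕ := if tA g then 1 else 0

/-- The cost of a call per bit of a field. -/
noncomputable def _root_.Vale.Agent.P313.NL2.cD : ℕ := 34 + 18 * cSv Cr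

/-- The credit for the test ages. -/
def _root_.Vale.Agent.P313.NL2.Tg (g : ℕ) : ℕ := g + 2 * (g + 1 - 2 ^ Nat.log 2 g)

/-- The potential above the procedures with a type. -/
noncomputable def pm (k g : ℕ) : ℕ := cD * (132 * (k + 1) * p.wl + 7 * cc * Tg g)

/-- The potential above all procedures of a level. -/
noncomputable def pt (k g : ℕ) : ℕ := p.pm k g + 2 * (cD * p.fw g (tI g))

/-- The potential below the procedures with a type. -/
noncomputable def pb (k g ty : ℕ) : ℕ :=
  if k = 0 then 0 else if ty = 0 then p.pt (k - 1) (g + 1) else p.pt (k - 1) 0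

end Pr

/-- The rank of a procedure with a type (`0` for the other procedures). -/
def Pn.rank : Pn → ℕ
  | .RM => 1
  | .PS _ | .RW _ => 2
  | .RT _ => 3
  | .RF _ => 4
  | .GQ _ => 5
  | .Gq _ | .MV | .GW _ | .GT _ => 6
  | .Go _ => 7
  | _ => 0

section terms

variable {α : Type} (c : α → In)

/-- Terms. -/
abbrev Tr (α : Type) : Type := Tm α Sr Cr Pn

/-- A register of length `2 m` as a view. -/
def vR (r : Sr) : Full.View α Sr Cr :=
  ⟨fun a => 2 ^ (c a).m, fun _ _ s => s r, fun _ _ s v => update s r v⟩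

/-- The trivial view. -/
def vO : Full.View α Sr Cr := ⟨fun _ => 1, fun _ _ _ => 0, fun _ _ s _ => s⟩

/-- The level. -/
def kT (a : α) (q : Cx) : ℕ := (c a).kq q

/-- The level below. -/
def jT (a : α) (q : Cx) : ℕ := (c a).kq q - 1

/-- The age. -/
def gT (a : α) (q : Cx) : ℕ := (c a).gq q

/-- The next age. -/
def g1 (a : α) (q : Cx) : ℕ := (c a).gq q + 1

/-- The age `0`. -/
def z0 (_ : α) (_ : Cx) : ℕ := 0

/-- A variable. -/
def vr (x : Cr) (_ : α) (q : Cx) : ℕ := q x

/-- The label for the level below. -/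
noncomputable def lT (b : Bool) (a : α) (q : Cx) : ℕ := (c a).lb ((c a).gq q) (tyq q) (q .u) b

/-- The number of raw labels. -/
noncomputable def nlT (a : α) (q : Cx) : ℕ := (c a).nl ((c a).gq q) (tyq q)

/-- The number of labels. -/
def NLT (a : α) (_ : Cx) : ℕ := (c a).NL

/-- The signature of the end `d`. -/
noncomputable def sT (d : Bool) (a : α) (q : Cx) : Sg := (c a).sl ((c a).gq q) (tyq q) (q .u) d

open Classical in
/-- The call of a procedure with a type on the level `k` at the age `g` with the label `l`;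
`dir d` is the end at which the type is read. -/
noncomputable def aT (dir : Bool → Bool) (t : Pn) (k g l : α → Cx → ℕ) : Tr α :=
  alt (fun d a q s => decide ((c a).new (dir d) (k a q) ((c a).nx (k a q) s)))
    (cal t fun a q => mk (k a q) (g a q) 1 (l a q) 0 0 0)
    (cal t fun a q => mk (k a q) (g a q) 0 (l a q) 0 0 0)

/-- The same for a number in the direction `d`. -/
noncomputable def aN (d : Bool) (t : Bool → Pn) (k g l : α → Cx → ℕ) : Tr α :=
  aT c (fun _ => d) (t d) k g l

/-- The move along a label. -/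
noncomputable def aM (k g l : α → Cx → ℕ) : Tr α := aT c id .MV k g l

/-- The call of a procedure without a type. -/
noncomputable def cN (t : Pn) (k g l : α → Cx → ℕ) : Tr α :=
  cal t fun a q => mk (k a q) (g a q) 0 (l a q) 0 0 0

/-- The call of a raw procedure. -/
noncomputable def cR (t : Pn) : Tr α := cal t fun _ q => mk (q .k) (q .g) (q .ty) 0 (q .u) 0 0

/-- The call of a procedure of the gadget with the label in the variable `x`. -/
noncomputable def cG (t : Pn) (x : Cr) : Tr α := cal t fun _ q => mk (q .k) (q .g) (q .ty) (q x) 0 0 0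

/-- The value on the level below. -/
noncomputable def inE (e : Tr α) : Tr α := aft (fun a q => (c a).pe q) e

/-- The value with the registers of a half. -/
def inH (b : Bool) (e : Tr α) : Tr α := aft (fun _ _ => lift (hf b)) e

/-- A move on the level below. -/
noncomputable def cjE (M : Tr α) : Tr α :=
  seq (Tm.inv fun a q => (c a).pe q) (seq M (Tm.inv fun a q => (c a).pf q))

/-- The half of a path at the end `b`. -/
noncomputable def hM (b : Bool) (l : α → Cx → ℕ) : Tr α :=
  seq (Tm.inv fun _ _ => lift (hf b)) (seq (aM c (jT c) z0 l) (Tm.inv fun _ _ => lift (hf b)))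

/-- The case of the level `0`. -/
def if0 (e₁ e₂ : Tr α) : Tr α := cas (fun _ q => decide (q .k = 0)) e₁ e₂

/-- The case of old entries. -/
def ifU (e₁ e₂ : Tr α) : Tr α := cas (fun _ q => decide (q .ty = 0)) e₁ e₂

open Classical in
/-- The raw move. -/
noncomputable def bRM : Tr α :=
  if0 (mloc (fun d a q s => decide ((c a).dom0 d (q .u) ((c a).nx 0 s)))
      fun d a q s => (c a).mv 0 s ((c a).en0 d (q .u) ((c a).nx 0 s)))
    (cjE c (ifU (aM c (jT c) (g1 c) (lT c true))
      (seq (hM c true (lT c true)) (hM c false (lT c false)))))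

open Classical in
/-- The tests at the end `d`. -/
noncomputable def tsT (d : Bool) : Tr α := tst fun a q s => decide
  ((c a).tst (c a).F (jT c a q) (gT c a q) (tyq q) (q .u) (env s) d ((c a).nx (kT c a q) s))

open Classical in
/-- The strength of a raw label. -/
noncomputable def bPS (d : Bool) : Tr α :=
  if0 (tst fun a q s => decide
      ((c a).ok0 (c a).F (gT c a q) (tyq q) (env s) d (q .u) ((c a).nx 0 s)))
    (guard (guard (tsT c d) (inE c (ifU (aN c d .Gq (jT c) (g1 c) (lT c true))
      (guard (inH d (aN c d .Gq (jT c) z0 (lT c d)))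
        (hop d (hM c d (lT c d)) (inH (!d) (aN c d .Gq (jT c) z0 (lT c !d))))))))
      (hop d (cR .RM) (tsT c !d)))

/-- The factor of the class at the end `d`. -/
noncomputable def fcT (d : Bool) : Tr α :=
  app (fun a q s x y => fac d (dg (c a).n0 (jT c a q) (s .pos)).1 x y)
    (cN (.HH false) (jT c) z0 z0) (cN (.HH true) (jT c) z0 z0)

/-- The product of the factors of both classes. -/
noncomputable def ccT (d : Bool) : Tr α := guard (fcT c d) (hop d (cR .RM) (fcT c !d))

/-- The ready visible weight of a label on the level `k`. -/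
noncomputable def rwT (d : Bool) (k l : α → Cx → ℕ) : Tr α :=
  app (fun a q s w t => if ((c a).v d (k a q) (s .pos)).wt = false then cl w * phi w * cl t else 0)
    (aN c d .GW k z0 l) (cN (.SG d) k z0 l)

/-- The character at the name of the level `k`. -/
noncomputable def chT (k : α → Cx → ℕ) : Tr α :=
  loc fun a q s => chr (2 * (c a).m) (s .ch) ((c a).nx (k a q) s)

open Classical in
/-- The factor of the midpoint. -/
noncomputable def mdT : Tr α :=
  guard (tst fun a q s => decide ((sT c true a q).mid (sT c false a q)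
      ((c a).v false (jT c a q) (s .pos)).lam ((c a).v true (jT c a q) (s .pos)).lam))
    (app (fun _ _ _ x y => uns x * uns y) (cN (.HH false) (jT c) z0 z0) (cN (.HH true) (jT c) z0 z0))

/-- The sum over the entries of the half `b`, weighted with the ready visible weight. -/
noncomputable def smT (d b : Bool) (x : Cr) (e : Tr α) : Tr α :=
  Tm.sum (NLT c) x (guard (inH b (aN c d .Go (jT c) z0 (vr x)))
    (guard (inH b (rwT c d (jT c) (vr x))) (hop d (hM c b (vr x)) e)))

/-- The thinned weight of the paths. -/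
noncomputable def xT (d : Bool) : Tr α :=
  avg (vR c .ch) (guard (hop d (cR .RM) (chT c (jT c))) (inE c (avg (vR c (.e (2, true)))
    (smT c d d .x1 (guard (mdT c) (smT c d (!d) .x2 (chT c (jT c))))))))

/-- The weight of a raw label. -/
noncomputable def bRW (d : Bool) : Tr α :=
  if0 (loc fun a q s =>
      cl ((sw d (c a).A0 ((c a).nx 0 s) ((c a).en0 d (q .u) ((c a).nx 0 s)) : ℕ) / 2))
    (ifU (app (fun a q _ w x => cl ((sT c true a q).wU (sT c false a q) (cl w) (cl x)))
        (inE c (aN c d .GW (jT c) (g1 c) (lT c true))) (ccT c d))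
      (app (fun a q _ w x => cl ((sT c true a q).wMt (sT c false a q) (gT c a q)
        (clp ((c a).NL ^ 2) w) (cl x))) (xT c d) (ccT c d)))

/-- The raw visibility of a raw label. -/
noncomputable def bRT (d : Bool) : Tr α :=
  ifU (if0 (cst 0) (inE c (cN (.SG d) (jT c) (g1 c) (lT c true))))
    (ap1 (fun a q _ w => r0 (sc (gT c a q) w)) (cR (.RW d)))

/-- A fixed function of one number. -/
def fn (φ : ℝ → ℝ) (e : Tr α) : Tr α := ap1 (fun _ _ _ => φ) e

/-- The strength of a candidate. -/
noncomputable def bRF (d : Bool) : Tr α := guard (cR (.PS d)) (fn (rp 2) (cR (.RT d)))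

/-- The residue of the end `d` for the label in the variable `x`. -/
noncomputable def okT (x : Cr) (d : Bool) : Tr α :=
  tst fun a q s => decide (okL (c a).W (q x) d ((c a).nx (kT c a q) s))

/-- The sum of the weights of the candidates times the values of `e` at their ends. -/
noncomputable def yT (d : Bool) (e : Tr α) : Tr α :=
  Tm.sum (nlT c) .u (guard (fn (rp 1) (cR (.RF d))) (hop d (cR .RM) (guard (okT c .lab !d) e)))

/-- Half of the collision statistic. -/
noncomputable def bGQ (d : Bool) : Tr α :=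
  app (fun a q _ x y => cl ((clp (nlT c a q) x ^ 2 - y) / 2)) (yT c d (cst 1))
    (avg (vR c .ch) (ap1 (fun a q _ x => clp (nlT c a q) x ^ 2) (yT c d (chT c (kT c)))))

/-- The guard against collisions. -/
noncomputable def dnT (i : ℝ) (d : Bool) : Tr α := fn (fun t => dn i (2 * t)) (cG (.GQ d) .lab)

/-- The test of the search. -/
noncomputable def fT (d : Bool) : Tr α :=
  guard (dnT 2 d) (guard (fn (rp 2) (cR (.RF d))) (hop d (cR .RM) (okT c .lab !d)))

/-- The move along a label. -/
noncomputable def bMV : Tr α := search vO (nlT c) .u (fT c true) (fT c false) (cR .RM)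

/-- The quality of a label. -/
noncomputable def bGq (d : Bool) : Tr α :=
  guard (okT c .lab d) (guard (dnT 1 d) (fn cl (Tm.sum (nlT c) .u (guard (fn (rp 3) (cR (.RF d)))
    (hop d (cR .RM) (guard (okT c .lab !d) (guard (dnT 1 !d) (fn (rp 3) (cR (.RF !d))))))))))

/-- The normalised quality of a label. -/
noncomputable def bGo (d : Bool) : Tr α :=
  guard (cG (.Gq d) .lab) (fn inv1 (Tm.sum (NLT c) .x1
    (guard (hop d (cG .MV .lab) (okT c .x1 !d)) (cG (.Gq d) .x1))))

/-- The common value of the raw number `t` on the candidates which pass the test. -/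
noncomputable def rat (d : Bool) (t : Pn) : Tr α :=
  app (fun a q _ x y => cl (clp (nlT c a q) x * inv1 y))
    (Tm.sum (nlT c) .u (guard (fT c d) (cR t))) (Tm.sum (nlT c) .u (fT c d))

/-- A function of the raw visibility and of the weight of the label. -/
noncomputable def twT (d : Bool) (φ : ℕ → ℝ → ℝ → ℝ) : Tr α :=
  app (fun a q _ t w => φ (gT c a q) t (cl w)) (aN c d .GT (kT c) (gT c) (vr .lab))
    (aN c d .GW (kT c) (gT c) (vr .lab))

/-- The visibility of a label. -/
noncomputable def bSG (d : Bool) : Tr α :=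
  guard (twT c d sgF) (guard (fn rd (cN (.HH d) (kT c) (gT c) z0))
    (hop d (aM c (kT c) (gT c) (vr .lab)) (fn rd (cN (.HH !d) (kT c) (gT c) z0))))

open Classical in
/-- The statistic. -/
noncomputable def bHH (d : Bool) : Tr α :=
  app (fun _ _ _ x y => cl (max (x / 2 ^ (B + 1)) y))
    (avg (vR c (.e (rl (!d), true))) (Tm.sum (NLT c) .lab
      (guard (aN c d .Go (kT c) (gT c) (vr .lab)) (twT c d muF))))
    (if0 (cst 0) (alt (fun _ a q s => decide ((c a).new d (kT c a q) ((c a).nx (kT c a q) s)))
      (cst 0) (fn (fun t => 2 * cl t) (cN (.HH d) (jT c) (g1 c) z0))))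

/-- The start at the given name. -/
noncomputable def atT (e : Tr α) : Tr α := guard (tst fun a _ s => decide (s .pos = (c a).x0)) e

/-- The ready visible weight of the given pair. -/
noncomputable def bTW : Tr α :=
  atT c (fn cl (Tm.sum (NLT c) .lab (guard (aN c true .Go (kT c) z0 (vr .lab))
    (guard (rwT c true (kT c) (vr .lab)) (hop true (aM c (kT c) z0 (vr .lab))
      (tst fun a q s => decide ((c a).nx (kT c a q) s = (c a).y0)))))))

/-- The bodies of the procedures. -/
noncomputable def body : Pn → Tr α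
  | .RM => bRM c
  | .PS d => bPS c d
  | .RW d => bRW c d
  | .RT d => bRT c d
  | .RF d => bRF d
  | .GQ d => bGQ c d
  | .Gq d => bGq c d
  | .MV => bMV c
  | .Go d => bGo c d
  | .GW d => rat c d (.RW d)
  | .GT d => rat c d (.RT d)
  | .SG d => bSG c d
  | .HH d => bHH c d
  | .TH d => atT c (cN (.HH d) (kT c) z0 z0)
  | .TW => bTW c

/-- The width of a field in a procedure. -/
noncomputable def fwT (t : Pn) (a : α) (q : Cx) : ℕ :=
  (c a).fw (gT c a q) (if t.rank = 0 then tI (gT c a q) else tyq q)

/-- The program. -/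
noncomputable def prog : Pg α Sr Cr Pn where
  bd a := (c a).bd
  body := body c
  mvp t := decide (t = .RM ∨ t = .MV)
  rg := 0
  adm t a q := q .k + q .g ≤ (c a).K ∧ q .ty ≤ 1 ∧ q .lab < (c a).NL ∧
    q .u < (c a).nl (q .g) (q .ty) ∧ q .x1 = 0 ∧ q .x2 = 0 ∧ (t.rank = 0 ∨ 5 ≤ t.rank → q .u = 0) ∧
    match t with
    | .HH _ => q .lab = 0
    | .TH _ | .TW => q .lab = 0 ∧ q .g = 0
    | _ => True
  sz t a q := 32 * fwT c t a q
  pot t a q := match t with
    | .HH _ => (c a).pm (q .k) (q .g) + cD * fwT c t a q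
    | .SG _ => (c a).pt (q .k) (q .g)
    | .TH _ | .TW => (c a).pt (q .k) (q .g) + cD * fwT c t a q
    | _ => (c a).pb (q .k) (q .g) (q .ty) + t.rank * (cD * fwT c t a q)

/-! ### The specifications -/

variable (a : α)

/-- The raw procedures compute the raw candidates. -/
def RawI (k g ty : ℕ) : Prop := ∀ u < (c a).nl g ty, ∀ s ∈ (prog c).box a, ∀ d,
  (prog c).PVal a (.PS d) (mk k g ty 0 u 0 0) s
      (((c a).raw (c a).F k g ty (env s)).ps d u ((c a).nx k s)) ∧
    (((c a).raw (c a).F k g ty (env s)).ps d u ((c a).nx k s) ≠ 0 →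
      (prog c).PMov a .RM (mk k g ty 0 u 0 0) d s
        (some ((c a).mv k s (((c a).raw (c a).F k g ty (env s)).en d u ((c a).nx k s)))) ∧
      (prog c).PVal a (.RW d) (mk k g ty 0 u 0 0) s (sw d ((c a).w k) ((c a).nx k s)
        (((c a).raw (c a).F k g ty (env s)).en d u ((c a).nx k s))) ∧
      (prog c).PVal a (.RT d) (mk k g ty 0 u 0 0) s (sw d ((c a).tau k g) ((c a).nx k s)
        (((c a).raw (c a).F k g ty (env s)).en d u ((c a).nx k s))))

/-- The procedures of the gadget compute the labels of the candidates `C (env s)`. -/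
def GadI (k g ty : ℕ) (C : Env → Cand) : Prop := ∀ l < (c a).NL, ∀ s ∈ (prog c).box a, ∀ d,
  (prog c).PVal a (.Gq d) (mk k g ty l 0 0 0) s ((C (env s)).q (c a).W d l ((c a).nx k s)) ∧
    (prog c).PVal a (.Go d) (mk k g ty l 0 0 0) s ((C (env s)).om (c a).W d l ((c a).nx k s)) ∧
    ((C (env s)).q (c a).W d l ((c a).nx k s) ≠ 0 →
      (prog c).PMov a .MV (mk k g ty l 0 0 0) d s
        (some ((c a).mv k s ((C (env s)).pt (c a).W d l ((c a).nx k s)))) ∧
      (prog c).PVal a (.GW d) (mk k g ty l 0 0 0) s (sw d ((c a).w k) ((c a).nx k s)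
        ((C (env s)).pt (c a).W d l ((c a).nx k s))) ∧
      (prog c).PVal a (.GT d) (mk k g ty l 0 0 0) s (sw d ((c a).tau k g) ((c a).nx k s)
        ((C (env s)).pt (c a).W d l ((c a).nx k s))))

/-- The calls with a type on the level `k` at the age `g`, from any context. -/
def TabI (k g : ℕ) : Prop := ∀ (kf gf lf : α → Cx → ℕ) (q : Cx) (n : ℕ), kf a q = k → gf a q = g →
  lf a q < (c a).NL → ∀ s ∈ (prog c).box a, ∀ d,
  (prog c).Val a n (aN c d .Gq kf gf lf) q s
      ((c a).tq (c a).F k g (env s) d (lf a q) ((c a).nx k s)) ∧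
    (prog c).Val a n (aN c d .Go kf gf lf) q s
      ((c a).tom (c a).F k g (env s) d (lf a q) ((c a).nx k s)) ∧
    ((c a).tq (c a).F k g (env s) d (lf a q) ((c a).nx k s) ≠ 0 →
      (prog c).Mov a n (aM c kf gf lf) q d s
        (some ((c a).mv k s ((c a).tp (c a).F k g (env s) d (lf a q) ((c a).nx k s)))) ∧
      (prog c).Val a n (aN c d .GW kf gf lf) q s (sw d ((c a).w k) ((c a).nx k s)
        ((c a).tp (c a).F k g (env s) d (lf a q) ((c a).nx k s))) ∧
      (prog c).Val a n (aN c d .GT kf gf lf) q s (sw d ((c a).tau k g) ((c a).nx k s)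
        ((c a).tp (c a).F k g (env s) d (lf a q) ((c a).nx k s))))

/-- The statistic is computed. -/
def HI (k g : ℕ) : Prop := ∀ s ∈ (prog c).box a, ∀ d,
  (prog c).PVal a (.HH d) (mk k g 0 0 0 0 0) s ((c a).h k g d ((c a).nx k s))

/-- The visibility is computed. -/
def SI (k g : ℕ) : Prop := ∀ l < (c a).NL, ∀ s ∈ (prog c).box a, ∀ d,
  (c a).tq (c a).F k g (env s) d l ((c a).nx k s) ≠ 0 →
    (prog c).PVal a (.SG d) (mk k g 0 l 0 0 0) s (sw d ((c a).sig k g) ((c a).nx k s)
      ((c a).tp (c a).F k g (env s) d l ((c a).nx k s)))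

/-- Everything on the level `k` is computed. -/
def LevI (k : ℕ) : Prop := ∀ g, k + g ≤ (c a).K → TabI c a k g ∧ HI c a k g ∧ SI c a k g

/-- The parts of the input are computable. -/
structure InSP {A : Type} [Vale.Agent.Lib.Space.Enc A α] (Bu : Vale.Agent.Lib.Space.Bud A) :
    Prop where
  N : Vale.Agent.Lib.Space.SP Bu fun a => (c a).N
  A0 : Vale.Agent.Lib.Space.SP Bu fun z : α × ℕ × ℕ => (c z.1).A0 z.2.1 z.2.2
  n0 : Vale.Agent.Lib.Space.SP Bu fun a => (c a).n0
  K : Vale.Agent.Lib.Space.SP Bu fun a => (c a).K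
  m : Vale.Agent.Lib.Space.SP Bu fun a => (c a).m
  lk : Vale.Agent.Lib.Space.SP Bu fun a => (c a).lk
  F : Vale.Agent.Lib.Space.SP Bu fun z : α × ℕ => (c z.1).F z.2
  k0 : Vale.Agent.Lib.Space.SP Bu fun a => (c a).k0
  x0 : Vale.Agent.Lib.Space.SP Bu fun a => (c a).x0
  y0 : Vale.Agent.Lib.Space.SP Bu fun a => (c a).y0
  pw : Vale.Agent.Lib.Space.PBd Bu fun a =>
    2 ^ ((c a).n0 + (c a).m + ((c a).K + 1) * ((c a).lk + 1))

end terms

end Vale.Agent.P313.NL2
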