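import Vale.Agent.P313.NL2.Lay
import Vale.Agent.P313.NL2.RawM

/-! The raw procedures on the levels above `0`: the common parts, the old entries. -/

namespace Vale.Agent.P313.NL2

open Finset Function Vale.Agent.P313.Hi Vale.Agent.P313.NL Vale.Agent.P313.KH Vale.Agent.P313.Full
  Vale.Agent.P313.Full.Tm Vale.Agent.Lib.Space Vale.Agent.P313.Full.Pg

variable {α : Type} {c : α → In} {a : α} {k g ty u n y : ℕ} {d : Bool} {s : St} {v : ℝ}

theorem iu_cl {t : ℝ} (h : 0 ≤ t ∧ t ≤ 1) : cl t = t := by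
  rw [cl, min_eq_right h.2, max_eq_right h.1]

theorem iu_lb (p : Pr) (g ty u : ℕ) (b : Bool) : p.lb g ty u b < p.NL := Nat.mod_lt _ (NL_pos p)

theorem iu_add_dt {p : Pr} (hy : y < p.n k) (g ty u : ℕ) (d : Bool) :
    y + p.dt k g ty u d < p.n (k + 1) ∧ (y + p.dt k g ty u d) % p.n k = y := by
  refine ⟨?_, by rw [Pr.dt, Nat.add_mul_mod_self_left, Nat.mod_eq_of_lt hy]⟩
  have h := Nat.mul_le_mul_left (p.n k) (Nat.succ_le_of_lt
    (Nat.mod_lt (p.sl g ty u d).c (Nat.two_pow_pos Hi.a)))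
  rw [Nat.mul_succ] at h
  rw [Pr.dt, show p.n (k + 1) = p.n k * 2 ^ Hi.a from nm_succ _ _]
  omega

/-- The signatures of a pair which passes both tests. -/
theorem iu_sn {p : Pr} {F x : _} {e : Env} (h₁ : p.tst F k g ty u e d x)
    (h₂ : p.tst F k g ty u e (!d) y) :
    p.sl g ty u true = sw d (fun x _ => p.sn true k x) x y ∧
      p.sl g ty u false = sw d (fun _ y => p.sn false k y) x y := by
  cases d
  exacts [⟨h₂.1.symm, h₁.1.symm⟩, ⟨h₁.1.symm, h₂.1.symm⟩]

section ctx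

variable (hk : k + 1 + g ≤ (c a).K) (hty : ty ≤ 1)
include hk

theorem iu_kT : kT c a (mk (k + 1) g ty 0 u 0 0) = k + 1 := min_eq_left (show k + 1 ≤ _ by omega)

theorem iu_jT : jT c a (mk (k + 1) g ty 0 u 0 0) = k := congrArg (· - 1) (iu_kT hk)

theorem iu_gT : gT c a (mk (k + 1) g ty 0 u 0 0) = g := min_eq_left (show g ≤ _ by omega)

theorem iu_g1 : g1 c a (mk (k + 1) g ty 0 u 0 0) = g + 1 := congrArg (· + 1) (iu_gT hk)

include hty

omit hk in
theorem iu_tyq : tyq (mk (k + 1) g ty 0 u 0 0) = ty := min_eq_left hty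

theorem iu_lT (b : Bool) : lT c b a (mk (k + 1) g ty 0 u 0 0) = (c a).lb g ty u b := by
  rw [lT, iu_tyq hty]
  exact congrArg ((c a).lb · ty u b) (iu_gT hk)

theorem iu_sT (b : Bool) : sT c b a (mk (k + 1) g ty 0 u 0 0) = (c a).sl g ty u b := by
  rw [sT, iu_tyq hty]
  exact congrArg ((c a).sl · ty u b) (iu_gT hk)

theorem iu_adm (hu : u < (c a).nl g ty) {t : Pn} (h1 : 0 < t.rank) (h2 : t.rank < 5) :
    (prog c).adm t a (mk (k + 1) g ty 0 u 0 0) := by
  refine ⟨hk, hty, NL_pos _, hu, rfl, rfl, fun h => by omega, ?_⟩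
  cases t <;> trivial

open Classical in
/-- The tests. -/
theorem iu_tsT : (prog c).Val a n (tsT c d) (mk (k + 1) g ty 0 u 0 0) s
    (if (c a).tst (c a).F k g ty u (env s) d ((c a).nx (k + 1) s) then 1 else 0) := by
  refine Val.tst.congr ?_
  rw [iu_jT hk, iu_gT hk, iu_tyq hty, iu_kT hk]
  exact if_congr decide_eq_true_iff rfl rfl

theorem iu_inE {e : Tr α}
    (h : (prog c).Val a n e (mk (k + 1) g ty 0 u 0 0) (lift ((c a).ent k g ty u) s) v) :
    (prog c).Val a n (inE c e) (mk (k + 1) g ty 0 u 0 0) s v :=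
  Val.aft (by rwa [Pr.pe_eq rfl hk hty])

/-- The raw move from the move inside. -/
theorem iu_RM (ok : (c a).OK) (hs : s ∈ (prog c).box a) (hu : u < (c a).nl g ty)
    (hd : (c a).sn d k ((c a).nx (k + 1) s) = (c a).sl g ty u d) (hy : y < (c a).n k)
    (hM : ∀ n, ∀ t ∈ (prog c).box a, env t = (c a).ent k g ty u (env s) →
      (c a).nx k t = (c a).nx k s → (prog c).Mov a n (ifU (aM c (jT c) (g1 c) (lT c true))
        (seq (hM c true (lT c true)) (hM c false (lT c false)))) (mk (k + 1) g ty 0 u 0 0) d t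
        (some ((c a).mv k t y))) :
    (prog c).PMov a .RM (mk (k + 1) g ty 0 u 0 0) d s
      (some ((c a).mv (k + 1) s (y + (c a).dt k g ty u (!d)))) :=
  ⟨iu_adm hk hty hu one_pos (by decide), Mov.casF rfl (mov_cjE ok rfl hk hty hs
    ((cd_mod (Nat.lt_succ_self k) _).symm.trans (congrArg Sg.c hd)) hy (hM _))⟩

variable (hw : (prog c).WF a)
include hw

open Classical in
/-- The strength from the value inside and the raw move. -/
theorem iu_PS (hu : u < (c a).nl g ty)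
    (hv : ∀ n, (c a).tst (c a).F k g ty u (env s) d ((c a).nx (k + 1) s) →
      (prog c).Val a n (ifU (aN c d .Gq (jT c) (g1 c) (lT c true))
        (guard (inH d (aN c d .Gq (jT c) z0 (lT c d)))
          (hop d (hM c d (lT c d)) (inH (!d) (aN c d .Gq (jT c) z0 (lT c !d))))))
        (mk (k + 1) g ty 0 u 0 0) (lift ((c a).ent k g ty u) s) v)
    (hM : (c a).tst (c a).F k g ty u (env s) d ((c a).nx (k + 1) s) → v ≠ 0 → y < (c a).n (k + 1) ∧
      (prog c).PMov a .RM (mk (k + 1) g ty 0 u 0 0) d s (some ((c a).mv (k + 1) s y))) :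
    (prog c).PVal a (.PS d) (mk (k + 1) g ty 0 u 0 0) s
      ((if (c a).tst (c a).F k g ty u (env s) d ((c a).nx (k + 1) s) then 1 else 0) * v *
        if (c a).tst (c a).F k g ty u (env s) (!d) y then 1 else 0) := by
  refine ⟨iu_adm hk hty hu two_pos (show 2 < 5 by decide), Val.casF rfl (Val.guard
    ((iu_tsT hk hty).guard fun h => iu_inE hk hty (hv _ (by simpa using h))) fun h => ?_)⟩
  obtain ⟨h1, h2⟩ := hM (by simpa using left_ne_zero_of_mul h) (right_ne_zero_of_mul h)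
  refine Val.hop (Mov.cal hw h2) ((iu_tsT hk hty).congr ?_)
  rw [Pr.env_mv, Pr.nx_mv h1]

omit hty

/-- The factor of a class. -/
theorem iu_fcT (hH : HI c a k 0) (hs : s ∈ (prog c).box a) :
    (prog c).Val a n (fcT c d) (mk (k + 1) g ty 0 u 0 0) s
      ((c a).fc d k ((c a).nx (k + 1) s)) := by
  have h : ∀ b, (prog c).Val a n (cN (.HH b) (jT c) z0 z0) (mk (k + 1) g ty 0 u 0 0) s
      ((c a).h k 0 b ((c a).nx k s)) := fun b => Val.cal hw (by rw [iu_jT hk]; exact hH s hs b)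
  refine ((h false).app (h true)).congr ?_
  rw [iu_jT hk, Pr.fc, Pr.nx_mod, Pr.nx, Pr.nx, Pr.n, Pr.n, dg_mod (Nat.lt_succ_self k)]

/-- The product of the factors of both classes. -/
theorem iu_ccT (hH : HI c a k 0) (hs : s ∈ (prog c).box a) (hy : y < (c a).n (k + 1))
    (hM : (prog c).PMov a .RM (mk (k + 1) g ty 0 u 0 0) d s (some ((c a).mv (k + 1) s y))) :
    (prog c).Val a n (ccT c d) (mk (k + 1) g ty 0 u 0 0) s
      (sw d (fun x y => (c a).fc true k x * (c a).fc false k y) ((c a).nx (k + 1) s) y) := by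
  refine ((iu_fcT hk hw hH hs).guard fun _ => Val.hop (Mov.cal hw hM)
    (iu_fcT hk hw hH (Pr.mv_mem (by omega) hs hy))).congr ?_
  rw [Pr.nx_mv hy]
  cases d
  exacts [mul_comm _ _, rfl]

end ctx

/-- The weight and the raw visibility of an old entry. -/
theorem iu_w {p : Pr} {F x : _} {e : Env} (ok : p.OK) (hr : sw d (p.Rel F (k + 1) g e) x y)
    (h₁ : p.tst F k g 0 u e d x) (h₂ : p.tst F k g 0 u e (!d) y) :
    cl ((p.sl g 0 u true).wU (p.sl g 0 u false) (cl (sw d (p.w k) (x % p.n k) (y % p.n k)))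
      (cl (sw d (fun x y => p.fc true k x * p.fc false k y) x y))) = sw d (p.w (k + 1)) x y ∧
    sw d (p.sig k (g + 1)) (x % p.n k) (y % p.n k) = sw d (p.tau (k + 1) g) x y := by
  have hm : ¬(p.sl g 0 u true).mrg true := fun hm => h₁.2.2.2.1.1 hm rfl
  obtain ⟨h8, h9⟩ := iu_sn h₁ h₂
  rw [h8] at hm
  rw [h8, h9]
  have key : ∀ x y, p.Rel F (k + 1) g e x y → ¬p.mrg true k x →
      cl ((p.sn true k x).wU (p.sn false k y) (cl (p.w k (x % p.n k) (y % p.n k)))
        (cl (p.fc true k x * p.fc false k y))) = p.w (k + 1) x y ∧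
      p.sig k (g + 1) (x % p.n k) (y % p.n k) = p.tau (k + 1) g x y := fun x y hr hm => by
    rw [iu_cl (Pr.w_mem ok (Nat.mod_lt _ (p.n_pos k)) (Nat.mod_lt _ (p.n_pos k))),
      iu_cl (Pr.ia_mul (p.fc_mem _ _ _) (p.fc_mem _ _ _)), ← Pr.w_U ok hr.1 hm,
      iu_cl (Pr.w_mem ok hr.1.1 hr.1.2.1), Pr.tau_old hr.1 hm]
    exact ⟨rfl, rfl⟩
  cases d
  exacts [key y x hr hm, key x y hr hm]

theorem rawIU (hw : (prog c).WF a) (h : (c a).Gd (c a).F) (hk : k + 1 + g ≤ (c a).K)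
    (hL : LevI c a k) : RawI c a (k + 1) g 0 := by
  intro u hu s hs d
  have ok := h.toOK
  have hk' : k + (g + 1) ≤ (c a).K := by omega
  obtain ⟨hT, -, hS⟩ := hL (g + 1) hk'
  have hH := (hL 0 (by omega)).2.1
  have hO := fun e he => Pr.tabOk h hk' (e := e) he
  have he := (eok_env hs).ent ok hk 0 u
  have hl := iu_lT (u := u) hk zero_le_one true
  have hs' : lift ((c a).ent k g 0 u) s ∈ (prog c).box a := Pr.lift_mem hs he
  have hI := fun n t ht => hT (jT c) (g1 c) (lT c true) (mk (k + 1) g 0 0 u 0 0) n (iu_jT hk)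
    (iu_g1 hk) (hl ▸ iu_lb _ _ _ _ _) t ht d
  rw [hl] at hI
  have hI' := fun n => hI n _ hs'
  have hS' := hS _ (iu_lb _ g 0 u true) _ hs' d
  have hq := (hO _ he).snd d ((c a).lb g 0 u true) _ ((c a).nx_lt k s)
  have hsnd := (Pr.rawOkU h hk (eok_env hs) hO).snd d u _ ((c a).nx_lt (k + 1) s)
  have hm : ∀ n, ∀ t ∈ (prog c).box a, env t = (c a).ent k g 0 u (env s) →
      (c a).nx k t = (c a).nx k s → (c a).tq (c a).F k (g + 1) ((c a).ent k g 0 u (env s)) d
        ((c a).lb g 0 u true) ((c a).nx k s) ≠ 0 →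
      (prog c).Mov a n (aM c (jT c) (g1 c) (lT c true)) (mk (k + 1) g 0 0 u 0 0) d t
        (some ((c a).mv k t ((c a).tp (c a).F k (g + 1) ((c a).ent k g 0 u (env s)) d
          ((c a).lb g 0 u true) ((c a).nx k s)))) := fun n t ht e1 e2 h2 => by
    have h4 := (hI n t ht).2.2
    rw [e1, e2] at h4
    exact (h4 h2).1
  have e := (c a).nx_mod k s
  rw [Pr.raw, if_pos rfl]
  have hz : (c a).enU k g u ((c a).raw (c a).F k) (env s) d ((c a).nx (k + 1) s) =
      (c a).lp k ((c a).raw (c a).F k) (g + 1) ((c a).ent k g 0 u (env s)) d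
        ((c a).lb g 0 u true) ((c a).nx k s) + (c a).dt k g 0 u (!d) := by rw [Pr.enU, e]
  replace hsnd := fun h0 => (hsnd h0).1
  simp only [Pr.rawU] at hsnd ⊢
  rw [e, hz] at hsnd ⊢
  simp only [env_lift, Pr.nx_lift, Pr.tq, Pr.tp] at hI' hS' hq hm
  clear hI hz
  generalize (c a).lp k ((c a).raw (c a).F k) (g + 1) ((c a).ent k g 0 u (env s)) d
    ((c a).lb g 0 u true) ((c a).nx k s) = z at *
  generalize (c a).lq k ((c a).raw (c a).F k) (g + 1) ((c a).ent k g 0 u (env s)) d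
    ((c a).lb g 0 u true) ((c a).nx k s) = v at *
  have hM := fun (h1 : (c a).tst (c a).F k g 0 u (env s) d ((c a).nx (k + 1) s)) (h2 : v ≠ 0) =>
    iu_RM hk zero_le_one ok hs hu h1.1 (Pr.Rel.lt (hq h2).1).2 fun n t ht e1 e2 =>
      Mov.casT rfl (hm n t ht e1 e2 h2)
  refine ⟨iu_PS hk zero_le_one hw hu (fun n _ => Val.casT rfl (hI' n).1) fun h1 h2 =>
    ⟨(iu_add_dt (Pr.Rel.lt (hq h2).1).2 _ _ _ _).1, hM h1 h2⟩, fun h0 => ?_⟩
  have h1 : (c a).tst (c a).F k g 0 u (env s) d ((c a).nx (k + 1) s) := by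
    simpa using left_ne_zero_of_mul (left_ne_zero_of_mul h0)
  have h2 := right_ne_zero_of_mul (left_ne_zero_of_mul h0)
  have h3 : (c a).tst (c a).F k g 0 u (env s) (!d) (z + (c a).dt k g 0 u (!d)) := by
    simpa using right_ne_zero_of_mul h0
  obtain ⟨h6, h7⟩ := iu_add_dt (Pr.Rel.lt (hq h2).1).2 g 0 u (!d)
  obtain ⟨h8, h9⟩ := iu_w ok (hsnd h0) h1 h3
  rw [h7, e] at h8 h9
  refine ⟨hM h1 h2, ⟨iu_adm hk zero_le_one hu two_pos (show 2 < 5 by decide),
    Val.casF rfl (Val.casT rfl (((iu_inE hk zero_le_one ((hI' _).2.2 h2).2.1).app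
      (iu_ccT hk hw hH hs h6 (hM h1 h2))).congr ?_))⟩,
    iu_adm hk zero_le_one hu three_pos (show 3 < 5 by decide), Val.casT rfl (Val.casF rfl
      ((iu_inE hk zero_le_one (Val.cal hw ?_)).congr h9))⟩
  · rw [iu_sT hk zero_le_one, iu_sT hk zero_le_one, h8]
  · rw [iu_jT hk, iu_g1 hk, hl]
    exact hS' h2

end Vale.Agent.P313.NL2
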