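import Vale.Agent.P313.NL2.Prog
import Vale.Agent.P313.NL2.Raw0

/-! The raw procedures on the level `0`. -/

namespace Vale.Agent.P313.NL2

open Finset Function Vale.Agent.P313.Hi Vale.Agent.P313.NL Vale.Agent.P313.KH Vale.Agent.P313.Full
  Vale.Agent.P313.Full.Tm

variable {α : Type} {c : α → In} {a : α} {k g ty : ℕ}

theorem R0.w_eq {p : Pr} (ok : p.OK) {d : Bool} {x y : ℕ} (h : p.adj d x y) :
    cl ((sw d p.A0 x y : ℕ) / 2) = sw d (p.w 0) x y := by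
  have h1 : p.N ≤ p.n 0 := ok.hN.trans_eq (nm_zero _).symm
  have h2 : ∀ {x y}, x < p.N → y < p.N → cl ((p.A0 x y : ℝ) / 2) = p.w 0 x y := fun hx hy => by
    have h3 := Pr.w_mem ok (hx.trans_le h1) (hy.trans_le h1)
    rw [← Pr.w_zero hx hy, cl, min_eq_right h3.2, max_eq_right h3.1]
  cases d
  exacts [h2 h.2.1 h.1, h2 h.1 h.2.1]

theorem R0.tau_eq {p : Pr} (ok : p.OK) (g : ℕ) {d : Bool} {x y : ℕ} (h : p.adj d x y) :
    r0 (sc g (sw d (p.w 0) x y)) = sw d (p.tau 0 g) x y := by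
  have h1 := Pr.R0.st ok g h
  cases d <;> exact (Pr.tau_new h1 (Or.inl rfl)).symm

theorem rawI0 (hw : (prog c).WF a) (h : (c a).Gd (c a).F) (hg : g ≤ (c a).K) (hty : ty ≤ 1) :
    RawI c a 0 g ty := by
  classical
  intro u hu s _ d
  have hA : ∀ t : Pn, t.rank ≠ 0 → t.rank < 5 → (prog c).adm t a (mk 0 g ty 0 u 0 0) :=
    fun t h1 h2 => ⟨(zero_add g).trans_le hg, hty, Nat.pow_pos (Nat.two_pow_pos _), hu, rfl, rfl,
      fun h3 => by omega, by cases t <;> trivial⟩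
  have e1 : gT c a (mk 0 g ty 0 u 0 0) = g := min_eq_left hg
  have e2 : tyq (mk 0 g ty 0 u 0 0) = ty := min_eq_left hty
  refine ⟨⟨hA _ (by simp [Pn.rank]) (by simp [Pn.rank]), (Pg.Val.tst.casT rfl).congr ?_⟩,
    fun h0 => ?_⟩
  · simp only [e1, e2, decide_eq_true_eq]
    rfl
  have h1 := Pr.R0.of_ps h0
  have hW : (prog c).PVal a (.RW d) (mk 0 g ty 0 u 0 0) s
      (sw d ((c a).w 0) ((c a).nx 0 s) ((c a).en0 d u ((c a).nx 0 s))) :=
    ⟨hA _ (by simp [Pn.rank]) (by simp [Pn.rank]),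
      (Pg.Val.loc.casT rfl).congr (R0.w_eq h.toOK h1.2.1.1)⟩
  refine ⟨⟨hA _ (by simp [Pn.rank]) (by simp [Pn.rank]),
    (Pg.Mov.mloc.casT rfl).congr (if_pos (decide_eq_true h1.2.1))⟩, hW,
    hA _ (by simp [Pn.rank]) (by simp [Pn.rank]),
    ((Pg.Val.cal hw hW).ap1.casF (decide_eq_false h1.1)).congr ?_⟩
  rw [e1]
  exact R0.tau_eq h.toOK g h1.2.1.1

end Vale.Agent.P313.NL2
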