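import Vale.Agent.P313.NL2.RawM

/-! The weight of the paths through a random midpoint. -/

namespace Vale.Agent.P313.NL2.Pr

open Finset Function Vale.Agent.P313.Hi Vale.Agent.P313.NL Vale.Agent.P313.KH Vale.Agent.P313.Full

variable {p : Pr} {F : ℕ → ℕ} {k g x y z t : ℕ} {e : Env} {d : Bool}

theorem xs_tau (h : sw d (p.rw k) x y ≠ 0) : 3 / 4 ≤ sw d (p.tau k 0) x y := by
  have h1 : ∀ x y, p.rw k x y ≠ 0 → 3 / 4 ≤ p.tau k 0 x y := fun x y h => by
    unfold rw at h
    split_ifs at h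
    · linarith [tau_of_sig (right_ne_zero_of_mul h)]
    · exact absurd rfl h
  cases d
  exacts [h1 _ _ h, h1 _ _ h]

theorem xs_mem (ok : p.OK) : 0 ≤ sw d (p.rw k) x y ∧ sw d (p.rw k) x y ≤ 1 := by
  cases d
  exacts [rw_mem ok _ _ _, rw_mem ok _ _ _]

theorem xs_rel (ok : p.OK) (h : sw d (p.rw k) x y ≠ 0) : (sw d (p.Rel F k 0 e) x y ↔
    Ag (range (p.v d k x).l) (val F e d x) (val F e (!d) y)) ∧
      (p.v d k x).l = (p.v (!d) k y).l := by
  have h1 : ∀ x y, p.rw k x y ≠ 0 → (p.Rel F k 0 e x y ↔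
      Ag (range (p.ell k x y)) (val F e true x) (val F e false y)) := fun x y h => by
    have h3 : 3 / 4 ≤ p.tau k 0 x y := xs_tau (d := true) h
    have h2 : p.st k 0 x y := st_of_tau (by linarith : 0 < p.tau k 0 x y).ne'
    simp [Rel, h2, Q]
  cases d
  · obtain ⟨h2, h3⟩ := ell_of_rw ok h
    refine ⟨(h1 _ _ h).trans ?_, h3.symm.trans h2⟩
    rw [h3]
    exact forall₂_congr fun _ _ => eq_comm
  · obtain ⟨h2, h3⟩ := ell_of_rw ok h
    exact ⟨h2 ▸ h1 _ _ h, h2.symm.trans h3⟩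

theorem xs_end (d : Bool) (x : ℕ) : val F (hf d (update e (2, true) t)) d x = val F e d x := by
  cases d <;> simp [val, hf, rl, Equiv.swap_apply_def]

theorem xs_mid (d : Bool) (z : ℕ) :
    val F (hf d (update e (2, true) t)) (!d) z = F (z ^^^ e (2, false)) ^^^ t := by
  cases d <;> simp [val, hf, rl]

open Classical in
/-- The average over the shift of the midpoint. -/
theorem x_avg (h : p.Gd F) (hk : k ≤ p.K) (M : ℕ → ℝ)
    (hA : Ag (range (max (p.v d k x).l (p.v (!d) k y).l)) (val F e d x) (val F e (!d) y)) :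
    (∑ t ∈ range (2 ^ (2 * p.m)), ∑ z ∈ range (p.n k),
      if sw d (p.Rel F k 0 (hf d (update e (2, true) t))) x z then sw d (p.rw k) x z * (M z *
        if sw d (p.Rel F k 0 (hf (!d) (update e (2, true) t))) z y then sw d (p.rw k) z y else 0)
      else 0) / 2 ^ (2 * p.m) =
    (∑ z ∈ range (p.n k), sw d (p.rw k) x z * M z * sw d (p.rw k) z y) /
      2 ^ max (p.v d k x).l (p.v (!d) k y).l := by
  rw [sum_comm, sum_div, sum_div]
  refine sum_congr rfl fun z _ => ?_
  by_cases h1 : sw d (p.rw k) x z = 0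
  · simp [h1]
  by_cases h2 : sw d (p.rw k) z y = 0
  · simp [h2]
  have hr := (room (g := 0) h.toOK hk)
  have hQ : range (max (p.v d k x).l (p.v (!d) k y).l) ⊆ range (2 * p.m) := by
    have h3 : (p.v d k x).l ≤ B * k := vw_l_le _ _ _ _ _ _
    have h4 : (p.v (!d) k y).l ≤ B * k := vw_l_le _ _ _ _ _ _
    exact range_subset_range.2 (by omega)
  have h5 := avg_ag (w := val F e d x) hQ (h.hF (z ^^^ e (2, false)))
  rw [card_range] at h5
  rw [div_eq_mul_one_div _ (2 ^ max _ _ : ℝ), ← h5, ← mul_div_assoc, mul_sum]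
  refine congrArg (· / _) (sum_congr rfl fun t _ => ?_)
  have h6 := (xs_rel (F := F) (e := hf d (update e (2, true) t)) h.toOK h1).1
  obtain ⟨h7, h8⟩ := xs_rel (F := F) (e := hf (!d) (update e (2, true) t)) h.toOK h2
  have h9 := xs_mid (F := F) (e := e) (t := t) (!d) z
  rw [Bool.not_not] at h9
  rw [xs_end, xs_mid] at h6
  rw [xs_end, h9, h8] at h7
  simp only [h6, h7]
  by_cases h0 : Ag (range (max (p.v d k x).l (p.v (!d) k y).l)) (F (z ^^^ e (2, false)) ^^^ t)
    (val F e d x)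
  · have h3 : Ag (range (p.v d k x).l) (val F e d x) (F (z ^^^ e (2, false)) ^^^ t) :=
      fun i hi => (h0 i (by simp at hi ⊢; omega)).symm
    have h4 : Ag (range (p.v (!d) k y).l) (F (z ^^^ e (2, false)) ^^^ t) (val F e (!d) y) :=
      fun i hi => (h0 i (by simp at hi ⊢; omega)).trans (hA i (by simp at hi ⊢; omega))
    rw [if_pos h0, if_pos h3, if_pos h4]
    ring
  · rw [if_neg h0, mul_zero]
    split_ifs with h3 h4
    · refine absurd (fun i hi => ?_) h0
      by_cases h' : i < (p.v d k x).l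
      · exact (h3 i (mem_range.2 h')).symm
      · exact (h4 i (by simp at hi ⊢; omega)).trans (hA i hi).symm
    · simp
    · rfl

open Classical in
/-- The character picks the end. -/
theorem x_pick (hn : p.n k ≤ 2 ^ (2 * p.m)) (hy : y < p.n k) (A : ℕ → ℕ → Prop)
    (A' : ℕ → ℕ → ℕ → Prop) (w M : ℕ → ℝ) (w' : ℕ → ℕ → ℝ) :
    (∑ c ∈ range (2 ^ (2 * p.m)), chr (2 * p.m) c y *
      ((∑ t ∈ range (2 ^ (2 * p.m)), ∑ z ∈ range (p.n k), if A t z then w z * (M z *
        ∑ v ∈ range (p.n k), if A' t z v then w' z v * chr (2 * p.m) c v else 0) else 0) /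
        2 ^ (2 * p.m))) / 2 ^ (2 * p.m) =
    (∑ t ∈ range (2 ^ (2 * p.m)), ∑ z ∈ range (p.n k),
      if A t z then w z * (M z * if A' t z y then w' z y else 0) else 0) / 2 ^ (2 * p.m) := by
  have h1 := avg_chr_pick (hy.trans_le hn) (range (p.n k)) (fun v => (∑ t ∈ range (2 ^ (2 * p.m)),
    ∑ z ∈ range (p.n k), if A t z then w z * (M z * if A' t z v then w' z v else 0) else 0) /
      2 ^ (2 * p.m)) id fun v hv _ => (mem_range.1 hv).trans_le hn
  simp only [id, sum_ite_eq', mem_range, hy, if_true] at h1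
  rw [← h1]
  refine congrArg (· / _) (sum_congr rfl fun c _ => congrArg _ ?_)
  simp only [div_mul_eq_mul_div, ← sum_div, sum_mul]
  refine congrArg (· / _) ?_
  rw [sum_comm (s := range (p.n k))]
  refine sum_congr rfl fun t _ => ?_
  rw [sum_comm]
  refine sum_congr rfl fun z _ => ?_
  split_ifs
  · rw [mul_sum, mul_sum]
    exact sum_congr rfl fun v _ => by split_ifs <;> ring
  · simp

open Classical in
/-- A sum over the entries at a name is at most the number of labels. -/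
theorem TabOk.sum_le (h : p.TabOk F k g e) (hx : x < p.n k) (G : ℕ → ℝ)
    (h1 : ∀ y, G y ≠ 0 → 3 / 4 ≤ sw d (p.tau k g) x y) (h2 : ∀ y, G y ≤ 1) :
    (∑ y ∈ range (p.n k), if sw d (p.Rel F k g e) x y then G y else 0) ≤ p.NL := by
  rw [← h.sum d x hx G h1]
  refine (sum_le_card_nsmul _ _ 1 fun l _ => ?_).trans (by simp)
  exact (mul_le_mul_of_nonneg_left (h2 _) (h.o_mem _ _ _).1).trans
    ((mul_one _).trans_le (h.o_mem _ _ _).2)

end Vale.Agent.P313.NL2.Pr
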