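import Vale.Agent.P313.NL2.Lay
import Vale.Agent.P313.NL2.XSum

/-! The raw procedures at merged names. -/

namespace Vale.Agent.P313.NL2

open Finset Function Vale.Agent.P313.Hi Vale.Agent.P313.NL Vale.Agent.P313.KH Vale.Agent.P313.Full
  Vale.Agent.P313.Full.Tm Vale.Agent.P313.Full.Pg

variable {α : Type} {c : α → In} {a : α} {k g u n : ℕ} {q : Cx} {s : St} {d b : Bool}

theorem im_cl {t : ℝ} (h : 0 ≤ t ∧ t ≤ 1) : cl t = t := by
  rw [cl, min_eq_right h.2, max_eq_right h.1]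

theorem im_w {p : Pr} {F : ℕ → ℕ} {e : Env} {x y : ℕ} (ok : p.OK) (h : sw d (p.Rel F k g e) x y) :
    0 ≤ sw d (p.w k) x y ∧ sw d (p.w k) x y ≤ 1 := by
  obtain ⟨h1, h2⟩ := Pr.Rel.lt h
  cases d
  exacts [Pr.w_mem ok h2 h1, Pr.w_mem ok h1 h2]

/-- The half of a path. -/
theorem im_hM (hT : TabI c a k 0) (hj : jT c a q = k) {lf : α → Cx → ℕ} (hl : lf a q < (c a).NL)
    (hs : s ∈ (prog c).box a)
    (h : (c a).tq (c a).F k 0 (hf b (env s)) d (lf a q) ((c a).nx k s) ≠ 0) :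
    (prog c).Mov a n (hM c b lf) q d s
      (some ((c a).mv k s ((c a).tp (c a).F k 0 (hf b (env s)) d (lf a q) ((c a).nx k s)))) := by
  have h1 := ((hT (jT c) z0 lf q n hj rfl hl _ (Pr.hf_mem hs b) d).2.2 h).1
  refine (Mov.conj (π := fun _ _ _ => lift (hf b)) h1).congr ?_
  rw [Pr.lift_mv, lift_lift (hf_hf b)]
  rfl

/-- The ready visible weight. -/
theorem im_rw (hw : (prog c).WF a) (h : (c a).Gd (c a).F) (hk : k ≤ (c a).K) (hL : LevI c a k)
    {kf lf : α → Cx → ℕ} (hj : kf a q = k) (hl : lf a q < (c a).NL) (hs : s ∈ (prog c).box a)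
    (h0 : (c a).tq (c a).F k 0 (env s) d (lf a q) ((c a).nx k s) ≠ 0) :
    (prog c).Val a n (rwT c d kf lf) q s (sw d ((c a).rw k) ((c a).nx k s)
      ((c a).tp (c a).F k 0 (env s) d (lf a q) ((c a).nx k s))) := by
  obtain ⟨hT, -, hS⟩ := hL 0 hk
  have h1 := ((hT kf z0 lf q n hj rfl hl s hs d).2.2 h0).2.1
  have h2 := hS _ hl s hs d h0
  have h3 := ((Pr.tabOk (g := 0) h hk (eok_env hs)).snd d _ _ (Pr.nx_lt _ _ s) h0).1
  refine (h1.app (Val.cal hw (by simpa only [hj, z0] using h2))).congr ?_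
  obtain ⟨h4, h5⟩ := Pr.Rel.lt h3
  rw [im_cl (im_w h.toOK h3), hj, ← Pr.v_mod _ d k (s .pos)]
  cases d
  · rw [sw, sw, sw, cond_false, cond_false, cond_false, Pr.rw_far h.toOK h5 h4,
      im_cl (Pr.sig_mem _ _ _ _ _)]
    rfl
  · rw [sw, sw, sw, cond_true, cond_true, cond_true, im_cl (Pr.sig_mem _ _ _ _ _)]
    rfl

open Classical in
/-- The sum over the entries of a half. -/
theorem im_sm (hw : (prog c).WF a) (h : (c a).Gd (c a).F) (hk : k ≤ (c a).K) (hL : LevI c a k)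
    {x : Cr} {e : Tr α} {G : ℕ → ℝ} (hj : ∀ l, jT c a (update q x l) = k) (hs : s ∈ (prog c).box a)
    (he : ∀ l < (c a).NL, ∀ y < (c a).n k,
      (prog c).Val a n e (update q x l) ((c a).mv k s y) (G y)) :
    (prog c).Val a n (smT c d b x e) q s (∑ y ∈ range ((c a).n k),
      if sw d ((c a).Rel (c a).F k 0 (hf b (env s))) ((c a).nx k s) y then
        sw d ((c a).rw k) ((c a).nx k s) y * G y else 0) := by
  have hT := Pr.tabOk (g := 0) h hk ((eok_env hs).hf b)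
  rw [← hT.sum d _ (Pr.nx_lt _ _ s) _ fun y hy => Pr.xs_tau (left_ne_zero_of_mul hy)]
  refine Val.sum fun l hl => ?_
  have h1 : vr x a (update q x l) = l := update_self ..
  have h2 : vr x a (update q x l) < (c a).NL := h1.symm ▸ hl
  have h3 := ((hL 0 hk).1 (jT c) z0 (vr x) _ n (hj l) rfl h2 _ (Pr.hf_mem hs b) d).2.1
  rw [h1] at h3
  refine (Val.aft h3).guard fun h4 => ?_
  have h5 := hT.q_of_o d l _ h4
  have h6 := im_rw (n := n) hw h hk hL (hj l) h2 (Pr.hf_mem hs b) (by rw [h1]; exact h5)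
  have h7 := im_hM (n := n) (hL 0 hk).1 (hj l) h2 hs (by rw [h1]; exact h5)
  rw [h1] at h6 h7
  exact (Val.aft h6).guard fun _ =>
    Val.hop h7 (he l hl _ (Pr.Rel.lt (hT.snd d l _ (Pr.nx_lt _ _ s) h5).1).2)

section ctx

variable (hk : k + 1 + g ≤ (c a).K) (l x1 x2 : ℕ)
include hk

theorem im_k : kT c a (mk (k + 1) g 1 l u x1 x2) = k + 1 := Pr.kq_eq (by simp; omega)

theorem im_j : jT c a (mk (k + 1) g 1 l u x1 x2) = k :=
  (congrArg (· - 1) (im_k hk l x1 x2)).trans (Nat.add_sub_cancel _ _)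

theorem im_g : gT c a (mk (k + 1) g 1 l u x1 x2) = g := Pr.gq_eq (by simp; omega)

theorem im_l : lT c b a (mk (k + 1) g 1 l u x1 x2) = (c a).lb g 1 u b :=
  congrArg ((c a).lb · 1 u b) (im_g hk l x1 x2)

theorem im_s : sT c b a (mk (k + 1) g 1 l u x1 x2) = (c a).sl g 1 u b :=
  congrArg ((c a).sl · 1 u b) (im_g hk l x1 x2)

theorem im_adm {t : Pn} (hu : u < (c a).nl g 1) (ht : t = .RM ∨ t = .PS d ∨ t = .RW d ∨ t = .RT d) :
    (prog c).adm t a (mk (k + 1) g 1 0 u 0 0) := by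
  refine ⟨hk, le_rfl, NL_pos _, hu, rfl, rfl, ?_⟩
  rcases ht with rfl | rfl | rfl | rfl <;> simp [Pn.rank]

open Classical in
theorem im_ts : (prog c).Val a n (tsT c d) (mk (k + 1) g 1 l u x1 x2) s
    (if (c a).tst (c a).F k g 1 u (env s) d ((c a).nx (k + 1) s) then 1 else 0) := by
  refine Val.tst.congr ?_
  rw [im_j hk, im_g hk, im_k hk]
  simp [tyq]

end ctx

theorem im_lb (p : Pr) (g ty u : ℕ) (b : Bool) : p.lb g ty u b < p.NL := Nat.mod_lt _ (NL_pos p)

/-- The raw move. -/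
theorem im_mv (h : (c a).Gd (c a).F) (hk : k + 1 + g ≤ (c a).K) (hL : LevI c a k)
    (hu : u < (c a).nl g 1) (hs : s ∈ (prog c).box a)
    (h0 : (c a).sn d k ((c a).nx (k + 1) s) = (c a).sl g 1 u d)
    (h1 : (c a).tq (c a).F k 0 (hf d ((c a).ent k g 1 u (env s))) d ((c a).lb g 1 u d)
      ((c a).nx (k + 1) s % (c a).n k) ≠ 0)
    (h2 : (c a).tq (c a).F k 0 (hf (!d) ((c a).ent k g 1 u (env s))) d ((c a).lb g 1 u (!d))
      ((c a).miM k g u ((c a).raw (c a).F k) (env s) d ((c a).nx (k + 1) s)) ≠ 0) :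
    (prog c).PMov a .RM (mk (k + 1) g 1 0 u 0 0) d s (some ((c a).mv (k + 1) s
      ((c a).enM k g u ((c a).raw (c a).F k) (env s) d ((c a).nx (k + 1) s)))) := by
  have hk' : k ≤ (c a).K := by omega
  have he := (eok_env hs).ent h.toOK hk 1 u
  have h3 := (Pr.Rel.lt ((Pr.tabOk (g := 0) h hk' (he.hf d)).snd d _ _ (Pr.rm_mod _ _ _) h1).1).2
  have h4 := (Pr.Rel.lt ((Pr.tabOk (g := 0) h hk' (he.hf !d)).snd d _ _ h3 h2).1).2
  refine ⟨im_adm (d := d) hk hu (.inl rfl), Mov.casF rfl (mov_cjE h.toOK rfl hk le_rfl hs ?_ h4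
    fun s' hs' e1 e2 => Mov.casF rfl ?_)⟩
  · exact (cd_mod (Nat.lt_succ_self k) _).symm.trans (congrArg Sg.c h0)
  simp only [mk_g, mk_ty, mk_u] at e1
  have h5 := fun (b : Bool) (s : St) => im_hM (n := (prog c).sz .RM a (mk (k + 1) g 1 0 u 0 0))
    (d := d) (b := b) (s := s) (hL 0 hk').1 (im_j (u := u) hk 0 0 0) (lf := lT c b)
    (by rw [im_l hk]; exact im_lb _ _ _ _ _)
  simp only [im_l hk] at h5
  have h6 := h5 d s' hs' (by rw [e1, e2, ← Pr.nx_mod]; exact h1)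
  rw [e1, e2, ← Pr.nx_mod] at h6
  have h7 := h5 (!d) _ (Pr.mv_mem hk' hs' h3) (by rw [Pr.env_mv, e1, Pr.nx_mv h3]; exact h2)
  rw [Pr.env_mv, e1, Pr.nx_mv h3, Pr.mv_mv h3] at h7
  cases d
  exacts [h6.seqF h7, h6.seqT h7]

/-- The strength. -/
theorem im_ps (hw : (prog c).WF a) (h : (c a).Gd (c a).F) (hk : k + 1 + g ≤ (c a).K)
    (hL : LevI c a k) (hu : u < (c a).nl g 1) (hs : s ∈ (prog c).box a) :
    (prog c).PVal a (.PS d) (mk (k + 1) g 1 0 u 0 0) s
      (((c a).rawM (c a).F k ((c a).raw (c a).F k) g (env s)).ps d u ((c a).nx (k + 1) s)) := by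
  classical
  have hk' : k ≤ (c a).K := by omega
  have he := (eok_env hs).ent h.toOK hk 1 u
  have hT := (hL 0 hk').1
  refine ⟨im_adm hk hu (.inr (.inl rfl)), Val.casF rfl (Val.guard (Val.guard (im_ts hk 0 0 0)
    fun _ => val_inE h.toOK rfl hk le_rfl hs fun s' hs' e1 e2 _ => Val.casF rfl ?_) fun h0 => ?_)⟩
  · simp only [mk_g, mk_ty, mk_u] at e1
    have e3 : (c a).nx k s' = (c a).nx (k + 1) s % (c a).n k := by rw [Pr.nx_mod, Pr.nx, e2, Pr.nx]
    have h5 : ∀ b, lT c b a (mk (k + 1) g 1 0 u 0 0) < (c a).NL := fun b => by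
      rw [im_l hk]
      exact im_lb _ _ _ _ _
    have h1 := (hT (jT c) z0 (lT c d) _ ((prog c).sz (.PS d) a (mk (k + 1) g 1 0 u 0 0))
      (im_j hk 0 0 0) rfl (h5 d) _ (Pr.hf_mem hs' d) d).1
    rw [env_lift, Pr.nx_lift, e1, e3, im_l hk] at h1
    refine (Val.aft h1).guard fun h2 => ?_
    have h3 := (Pr.Rel.lt ((Pr.tabOk (g := 0) h hk' (he.hf d)).snd d _ _ (Pr.rm_mod _ _ _) h2).1).2
    have h4 := im_hM (n := (prog c).sz (.PS d) a (mk (k + 1) g 1 0 u 0 0)) (d := d) (b := d) hT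
      (im_j hk 0 0 0) (h5 d) hs' (by rw [e1, e3, im_l hk]; exact h2)
    rw [e1, e3, im_l hk] at h4
    have h6 := (hT (jT c) z0 (lT c !d) _ ((prog c).sz (.PS d) a (mk (k + 1) g 1 0 u 0 0))
      (im_j hk 0 0 0) rfl (h5 !d) _ (Pr.hf_mem (Pr.mv_mem hk' hs' h3) !d) d).1
    rw [env_lift, Pr.nx_lift, Pr.env_mv, e1, Pr.nx_mv h3, im_l hk] at h6
    exact Val.hop h4 (Val.aft h6)
  · obtain ⟨h1, h2⟩ := mul_ne_zero_iff.1 h0
    obtain ⟨h2, h3⟩ := mul_ne_zero_iff.1 h2
    have h4 : (c a).tst (c a).F k g 1 u (env s) d ((c a).nx (k + 1) s) := by simpa using h1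
    have h5 := (Pr.Rel.lt ((Pr.tabOk (g := 0) h hk' (he.hf d)).snd d _ _ (Pr.rm_mod _ _ _) h2).1).2
    have h6 := (Pr.Rel.lt ((Pr.tabOk (g := 0) h hk' (he.hf !d)).snd d _ _ h5 h3).1).2
    refine Val.hop (Mov.cal hw (im_mv h hk hL hu hs h4.1 h2 h3)) ((im_ts hk 0 0 0).congr ?_)
    have h7 : (c a).enM k g u ((c a).raw (c a).F k) (env s) d ((c a).nx (k + 1) s) <
      (c a).n (k + 1) := Pr.add_dt_lt h6
    simp only [mk_g, mk_u, Pr.env_mv, Pr.nx_mv h7]

/-- The factor of a class. -/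
theorem im_fc (hw : (prog c).WF a) (hH : HI c a k 0) (hj : jT c a q = k) (hs : s ∈ (prog c).box a) :
    (prog c).Val a n (fcT c d) q s ((c a).fc d k ((c a).nx (k + 1) s)) := by
  have h1 := fun b => Val.cal (n := n) (q := q) (F := fun a q => mk (jT c a q) (z0 a q) 0 (z0 a q) 0 0 0)
    hw (by simpa only [hj, z0] using hH s hs b)
  refine ((h1 false).app (h1 true)).congr ?_
  rw [hj, Pr.fc, Pr.nx_mod, Pr.nx, Pr.nx, Pr.n, Pr.n, dg_mod (Nat.lt_succ_self k)]

open Classical in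
/-- The factor of the midpoint. -/
theorem im_md (hw : (prog c).WF a) (hH : HI c a k 0) (hj : jT c a q = k) (hs : s ∈ (prog c).box a) :
    (prog c).Val a n (mdT c) q s (if (sT c true a q).mid (sT c false a q)
      ((c a).v false k ((c a).nx k s)).lam ((c a).v true k ((c a).nx k s)).lam then
      (c a).md k ((c a).nx k s) else 0) := by
  have h1 := fun b => Val.cal (n := n) (q := q) (F := fun a q => mk (jT c a q) (z0 a q) 0 (z0 a q) 0 0 0)
    hw (by simpa only [hj, z0] using hH s hs b)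
  refine Val.guard_ite (Val.tst.congr ?_) fun _ => (h1 false).app (h1 true)
  rw [hj, Pr.nx, Pr.v_mod, Pr.v_mod]
  simp

theorem im_n_le {p : Pr} (ok : p.OK) (hk : k ≤ p.K) : p.n k ≤ 2 ^ (2 * p.m) := by
  have h1 := ok.hm
  have h2 := Nat.mul_le_mul_left Hi.a hk
  exact Nat.pow_le_pow_right two_pos (by omega)

open Classical in
/-- The thinned weight of the paths. -/
theorem im_x (hw : (prog c).WF a) (h : (c a).Gd (c a).F) (hk : k + 1 + g ≤ (c a).K)
    (hL : LevI c a k) (hs : s ∈ (prog c).box a) {y : ℕ} (hy : y < (c a).n (k + 1))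
    (hM : ∀ t < 2 ^ (2 * (c a).m), (prog c).PMov a .RM (mk (k + 1) g 1 0 u 0 0) d (update s .ch t)
      (some ((c a).mv (k + 1) (update s .ch t) y))) :
    (prog c).Val a n (xT c d) (mk (k + 1) g 1 0 u 0 0) s
      ((∑ t ∈ range (2 ^ (2 * (c a).m)), ∑ z ∈ range ((c a).n k),
        if sw d ((c a).Rel (c a).F k 0 (hf d (update ((c a).ent k g 1 u (env s)) (2, true) t)))
          ((c a).nx k s) z then sw d ((c a).rw k) ((c a).nx k s) z *
          ((if ((c a).sl g 1 u true).mid ((c a).sl g 1 u false) ((c a).v false k z).lam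
              ((c a).v true k z).lam then (c a).md k z else 0) *
            if sw d ((c a).Rel (c a).F k 0
              (hf (!d) (update ((c a).ent k g 1 u (env s)) (2, true) t))) z (y % (c a).n k) then
              sw d ((c a).rw k) z (y % (c a).n k) else 0)
        else 0) / 2 ^ (2 * (c a).m)) := by
  have hk' : k ≤ (c a).K := by omega
  rw [← Pr.x_pick (im_n_le h.toOK hk') (Pr.rm_mod _ _ y)]
  refine val_avg fun t ht => Val.guard (Val.hop (Mov.cal hw (hM t ht)) (Val.loc.congr ?_))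
    fun _ => val_inE h.toOK rfl hk le_rfl (update_mem_box hs ht) fun s' hs' e1 e2 e3 =>
      val_avg fun t' ht' => ?_
  · rw [im_j hk, Pr.mv_ch, update_self, ← Pr.nx_mod, Pr.nx_mv hy]
  simp only [mk_g, mk_ty, mk_u, env_upd_ch, update_self] at e1 e3
  have e4 : (c a).nx k (update s' (.e (2, true)) t') = (c a).nx k s := by
    rw [Pr.nx_upd_e, Pr.nx, e2, ← Pr.nx, Pr.nx_upd_ch]
  have hs2 : update s' (.e (2, true)) t' ∈ (prog c).box a := update_mem_box hs' ht'
  rw [← e1, ← env_upd_e, ← e4]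
  refine im_sm hw h hk' hL (fun l => by rw [upd_x1, im_j hk]) hs2 fun l _ z hz => ?_
  have hs3 := Pr.mv_mem hk' hs2 hz
  rw [upd_x1]
  have h1 := im_md (n := n) hw (hL 0 hk').2.1 (im_j (u := u) hk 0 l 0) hs3
  rw [im_s hk, im_s hk, Pr.nx_mv hz] at h1
  refine h1.guard fun _ => ?_
  have h2 := im_sm (n := n) (d := d) (b := !d) (x := .x2) (e := chT c (jT c))
    (G := chr (2 * (c a).m) t) (q := mk (k + 1) g 1 0 u l 0) hw h hk' hL
    (fun l => by rw [upd_x2, im_j hk]) hs3 fun l' _ v hv => Val.loc.congr (by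
      rw [upd_x2, im_j hk, Pr.nx_mv hv, Pr.mv_ch, Pr.mv_ch, update_of_ne (by simp), e3])
  rwa [Pr.nx_mv hz, Pr.env_mv] at h2

open Classical in
/-- The value of the paths is the value in the formula for the weight. -/
theorem im_w_eq {p : Pr} {F : ℕ → ℕ} {e : Env} {x y : ℕ} (h : p.Gd F) (hk : k + 1 + g ≤ p.K)
    (he : p.EOk e) (hr : sw d (p.Rel F (k + 1) g e) x y) (t : p.tst F k g 1 u e d x)
    (t' : p.tst F k g 1 u e (!d) y) :
    cl ((p.sl g 1 u true).wMt (p.sl g 1 u false) g (clp (p.NL ^ 2)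
      ((∑ t ∈ range (2 ^ (2 * p.m)), ∑ z ∈ range (p.n k),
        if sw d (p.Rel F k 0 (hf d (update (p.ent k g 1 u e) (2, true) t))) (x % p.n k) z then
          sw d (p.rw k) (x % p.n k) z * ((if (p.sl g 1 u true).mid (p.sl g 1 u false)
            (p.v false k z).lam (p.v true k z).lam then p.md k z else 0) *
            if sw d (p.Rel F k 0 (hf (!d) (update (p.ent k g 1 u e) (2, true) t))) z (y % p.n k) then
              sw d (p.rw k) z (y % p.n k) else 0)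
        else 0) / 2 ^ (2 * p.m))) (cl (p.fc d k x * p.fc (!d) k y))) = sw d (p.w (k + 1)) x y := by
  have hk' : k ≤ p.K := by omega
  obtain ⟨hx, hy⟩ := Pr.Rel.lt hr
  have hm : ∀ z, 0 ≤ (if (p.sl g 1 u true).mid (p.sl g 1 u false) (p.v false k z).lam
      (p.v true k z).lam then p.md k z else 0) ∧ (if (p.sl g 1 u true).mid (p.sl g 1 u false)
      (p.v false k z).lam (p.v true k z).lam then p.md k z else 0) ≤ 1 := fun z => by
    split_ifs
    exacts [p.md_mem k z, ⟨le_rfl, zero_le_one⟩]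
  have hi : ∀ {P : Prop} [Decidable P] {z y : ℕ}, 0 ≤ (if P then sw d (p.rw k) z y else 0) ∧
      (if P then sw d (p.rw k) z y else 0) ≤ 1 := by
    intro P _ z y
    split_ifs
    exacts [Pr.xs_mem h.toOK, ⟨le_rfl, zero_le_one⟩]
  have hN : (1 : ℝ) ≤ p.NL := by exact_mod_cast NL_pos p
  rw [clp_eq, im_cl (Pr.ia_mul (p.fc_mem _ _ _) (p.fc_mem _ _ _)), ← im_cl (im_w h.toOK hr)]
  swap
  · rw [abs_of_nonneg (div_nonneg (sum_nonneg fun t _ => sum_nonneg fun z _ => ite_nonneg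
      (Pr.ia_mul (Pr.xs_mem h.toOK) (Pr.ia_mul (hm z) hi)).1 le_rfl) (by positivity)),
      div_le_iff₀ (by positivity)]
    refine (sum_le_card_nsmul _ _ (p.NL : ℝ) fun t ht => Pr.TabOk.sum_le (Pr.tabOk (g := 0) h hk'
      (((he.ent h.toOK hk 1 u).upd 2 (mem_range.1 ht)).hf d)) (p.rm_mod k x) _
      (fun z hz => Pr.xs_tau (left_ne_zero_of_mul hz))
      fun z => (Pr.ia_mul (Pr.xs_mem h.toOK) (Pr.ia_mul (hm z) hi)).2).trans ?_
    rw [card_range, nsmul_eq_mul, mul_comm]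
    push_cast
    exact mul_le_mul_of_nonneg_right (by nlinarith) (by positivity)
  have key : ∀ x y, p.Rel F (k + 1) g e x y → p.tst F k g 1 u e true x →
      p.tst F k g 1 u e false y → Ag (range (p.ell k x y)) (Pr.val F e true x) (Pr.val F e false y) ∧
      ∀ v, v = (∑ z ∈ range (p.n k), p.zi k x z y) / 2 ^ p.ell k x y →
        (p.sl g 1 u true).wMt (p.sl g 1 u false) g v (p.fc true k x * p.fc false k y) =
          p.w (k + 1) x y := by
    intro x y hr t t'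
    have h1 : p.mrg true k x := by
      rw [Pr.mrg, t.1]
      exact t.2.2.2.1.2 one_ne_zero
    refine ⟨fun i hi => hr.2 i (mem_union_left _ (by rwa [Pr.ell_mrg hr.1.2.2.2 h1])), ?_⟩
    rintro _ rfl
    have h2 : (p.sn true k x).gap (p.sn false k y) ≤ B * (g + 1) :=
      (p.gap_le k x y).trans (by linarith [hr.1.2.2.1])
    rw [Pr.w_M h.toOK hr.1 h1, Sg.wMt, Sg.wM, ← t.1, ← t'.1, min_eq_left h2]
  have hv : ∀ d x, x < p.n (k + 1) → p.tst F k g 1 u e d x →
      Pr.val F (p.ent k g 1 u e) d (x % p.n k) = Pr.val F e d x := fun d x hx t => by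
    rw [Pr.val_ent hx t.1]
    simp
  congr 1
  cases d
  · obtain ⟨h1, h2⟩ := key y x hr t' t
    rw [Pr.x_avg h hk', mul_comm]
    · refine h2 _ ?_
      rw [Pr.v_mod, Pr.v_mod, Pr.ia_ell, max_comm]
      refine congrArg (· / _) (sum_congr rfl fun z _ => ?_)
      rw [Pr.zi, ← t.1, ← show p.sn true k y = p.sl g 1 u true from t'.1]
      split_ifs
      · simp only [sw, cond_false]
        ring
      · simp
    · rw [hv _ _ hx t, hv _ _ hy t', Pr.v_mod, Pr.v_mod, max_comm]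
      exact fun i hi => (h1 i hi).symm
  · obtain ⟨h1, h2⟩ := key x y hr t t'
    rw [Pr.x_avg h hk']
    · refine h2 _ ?_
      rw [Pr.v_mod, Pr.v_mod, Pr.ia_ell]
      refine congrArg (· / _) (sum_congr rfl fun z _ => ?_)
      rw [Pr.zi, ← t.1, ← show p.sn false k y = p.sl g 1 u false from t'.1]
      split_ifs
      · rfl
      · simp
    · rw [hv _ _ hx t, hv _ _ hy t', Pr.v_mod, Pr.v_mod]
      exact h1

theorem rawIM (hw : (prog c).WF a) (h : (c a).Gd (c a).F) (hk : k + 1 + g ≤ (c a).K)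
    (hL : LevI c a k) : RawI c a (k + 1) g 1 := by
  classical
  intro u hu s hs d
  have hk' : k ≤ (c a).K := by omega
  refine ⟨im_ps hw h hk hL hu hs, fun h0 => ?_⟩
  obtain ⟨hr, ht, -⟩ := (Pr.rawOk h hk (eok_env hs) le_rfl).snd d u _ (Pr.nx_lt _ _ s) h0
  change sw d _ _ ((c a).enM k g u ((c a).raw (c a).F k) (env s) d ((c a).nx (k + 1) s)) at hr
  obtain ⟨h1, h4⟩ := mul_ne_zero_iff.1 h0
  obtain ⟨h1, h2⟩ := mul_ne_zero_iff.1 h1
  obtain ⟨h2, h3⟩ := mul_ne_zero_iff.1 h2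
  have t : (c a).tst (c a).F k g 1 u (env s) d ((c a).nx (k + 1) s) := by simpa using h1
  have t' : (c a).tst (c a).F k g 1 u (env s) (!d)
    ((c a).enM k g u ((c a).raw (c a).F k) (env s) d ((c a).nx (k + 1) s)) := by simpa using h4
  have hy := (Pr.Rel.lt hr).2
  have hM := im_mv h hk hL hu hs t.1 h2 h3
  have hW : (prog c).PVal a (.RW d) (mk (k + 1) g 1 0 u 0 0) s (sw d ((c a).w (k + 1))
      ((c a).nx (k + 1) s)
      ((c a).enM k g u ((c a).raw (c a).F k) (env s) d ((c a).nx (k + 1) s))) := by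
    refine ⟨im_adm hk hu (.inr (.inr (.inl rfl))), Val.casF rfl (Val.casF rfl
      (((im_x hw h hk hL hs hy fun v hv => ?_).app
        ((im_fc hw (hL 0 hk').2.1 (im_j hk 0 0 0) hs).guard fun _ => Val.hop (Mov.cal hw hM)
          (im_fc hw (hL 0 hk').2.1 (im_j hk 0 0 0) (Pr.mv_mem (by omega) hs hy)))).congr ?_))⟩
    · simpa only [env_upd_ch, Pr.nx_upd_ch] using im_mv (s := update s .ch v) (d := d) h hk hL hu
        (update_mem_box hs hv) (by simpa using t.1) (by simpa using h2) (by simpa using h3)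
    · rw [im_s hk, im_s hk, im_g hk, ← Pr.nx_mod]
      simp only [Pr.nx_mv hy]
      exact im_w_eq h hk (eok_env hs) hr t t'
  refine ⟨hM, hW, im_adm hk hu (.inr (.inr (.inr rfl))),
    Val.casF rfl ((Val.cal hw hW).ap1.congr ?_)⟩
  rw [im_g hk]
  have h5 : ∀ {d x}, (c a).typ d (k + 1) x = 1 → (c a).new d (k + 1) x := fun h =>
    Pr.new_succ.2 (Pr.typ_succ'.1 h)
  cases d
  · exact (Pr.tau_new hr.1 (h5 ((Pr.Rel.typ hr).trans ht))).symm
  · exact (Pr.tau_new hr.1 (h5 ht)).symm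

end Vale.Agent.P313.NL2
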