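import Vale.Agent.P313.NL2.TabM
import Vale.Agent.P313.NL.CP

/-! The raw candidates for old entries. -/

namespace Vale.Agent.P313.NL2

open Finset Function Vale.Agent.P313.Hi Vale.Agent.P313.NL Vale.Agent.P313.KH

theorem B_le_a : B ≤ a :=
  (Nat.le_succ B).trans ((Fintype.card_fin _).ge.trans (Fintype.card_le_of_injective
    (fun i : Fin (B + 1) => ((i, default), default) : _ → Dig)
    fun _ _ h => congrArg (·.1.1) h))

theorem bt_win_lt {v lo i : ℕ} (h : i < lo) : bt (v * 2 ^ lo) i = 0 := by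
  simp [bt_eq, Nat.testBit_mul_two_pow, Nat.not_le.2 h]

theorem bt_win {v lo c i : ℕ} (h : lo ≤ i) (h' : i < lo + c) :
    bt (v / 2 ^ lo % 2 ^ c * 2 ^ lo) i = bt v i := by
  rw [bt_eq, bt_eq, Nat.testBit_mul_two_pow, Nat.testBit_mod_two_pow, Nat.testBit_div_two_pow,
    Nat.sub_add_cancel h]
  simp [h, show i - lo < c by omega]

theorem bt_xor_zero {v w i : ℕ} (h : bt w i = 0) : bt (v ^^^ w) i = bt v i := by
  rw [bt_xor, h, add_zero, Nat.mod_eq_of_lt (bt_lt _ _)]

namespace Pr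

variable {p : Pr} {F : ℕ → ℕ} {k g ty u u' x y : ℕ} {e : Env} {d b : Bool}

theorem ent_nm (p : Pr) (k g ty u : ℕ) (e : Env) (d : Bool) :
    p.ent k g ty u e (rl d, false) = e (rl d, false) ^^^ p.dt k g ty u d := by
  cases d <;> by_cases h : ty = 0 <;> simp [ent, xr, rl, h]

theorem ent_nm2 (p : Pr) (k g ty u : ℕ) (e : Env) : p.ent k g ty u e (2, false) = e (2, false) := by
  by_cases h : ty = 0 <;> simp [ent, xr, h]

theorem ent_vl (p : Pr) (k g ty u : ℕ) (e : Env) (r : Fin 3) : p.ent k g ty u e (r, true) =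
    e (r, true) ^^^ if r = (if ty = 0 then 1 else 2) then p.wc g ty u else 0 := by
  by_cases h : ty = 0 <;> simp only [ent, xr, h, if_true, if_false, update_apply] <;>
    split_ifs <;> simp_all

theorem ent_congr (h : ∀ d, p.sl g ty u d = p.sl g ty u' d)
    (h' : fld (p.fw g ty) u 10 = fld (p.fw g ty) u' 10) (k : ℕ) (e : Env) :
    p.ent k g ty u e = p.ent k g ty u' e := by simp only [ent, dt, wc, h, h']

theorem add_dt_mod (h : y < p.n k) : (y + p.dt k g ty u d) % p.n k = y := by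
  rw [dt, Nat.add_mul_mod_self_left, Nat.mod_eq_of_lt h]

theorem add_dt_lt (h : y < p.n k) : y + p.dt k g ty u d < p.n (k + 1) := by
  have := Nat.mul_le_mul_left (p.n k)
    (Nat.succ_le_of_lt (Nat.mod_lt (p.sl g ty u d).c (Nat.two_pow_pos a)))
  rw [n, nm_succ, dt]
  rw [Nat.mul_succ] at this
  exact (Nat.add_lt_add_right h _).trans_le ((Nat.add_comm _ _).trans_le this)

theorem mod_add_dt (hx : x < p.n (k + 1)) (h : p.sn d k x = p.sl g ty u d) :
    x % p.n k + p.dt k g ty u d = x := by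
  rw [dt, ← h]
  change _ + _ * (cd p.n0 k x % 2 ^ a) = _
  rw [Nat.mod_eq_of_lt (cd_lt _ _ _), n, ← mod_nm_succ]
  exact Nat.mod_eq_of_lt hx

theorem mod_xor_dt (hx : x < p.n (k + 1)) (h : p.sn d k x = p.sl g ty u d) :
    x % p.n k ^^^ p.dt k g ty u d = x := by
  refine Eq.trans ?_ (mod_add_dt hx h)
  rw [dt, n, add_mul_eq_xor (mod_nm_lt _ _ _), mul_comm]

/-- The hash value on the level below. -/
theorem val_ent (hx : x < p.n (k + 1)) (h : p.sn d k x = p.sl g ty u d) :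
    val F (p.ent k g ty u e) d (x % p.n k) =
      val F e d x ^^^ if ty = 0 ∧ d = false then p.wc g ty u else 0 := by
  rw [val, val, ent_nm, ent_vl, Nat.xor_comm (e _), ← Nat.xor_assoc (x % _), mod_xor_dt hx h,
    ← Nat.xor_assoc]
  cases d <;> by_cases h : ty = 0 <;> simp [rl, h]

theorem new_succ : p.new d (k + 1) x ↔ p.mrg d k x := or_iff_right (Nat.succ_ne_zero k)

theorem typ_succ : p.typ d (k + 1) x = 0 ↔ ¬p.mrg d k x := by
  rw [typ, ← new_succ]
  split_ifs with h <;> simp [h]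

theorem typ_succ' : p.typ d (k + 1) x = 1 ↔ p.mrg d k x := by
  rw [typ, ← new_succ]
  split_ifs with h <;> simp [h]

theorem lk_le_fw (p : Pr) (g ty : ℕ) : 9 * p.lk + 12 + ty * (cc * (g + 1)) = p.fw g ty := by
  rw [fw, wl]
  omega

theorem win_lt {v lo len w : ℕ} (h : len ≤ w) : p.win v lo len < 2 ^ w :=
  (Nat.mod_lt _ (Nat.two_pow_pos _)).trans_le
    (Nat.pow_le_pow_right two_pos ((min_le_left _ _).trans h))

theorem room (ok : p.OK) (hk : k + g ≤ p.K) : B * k ≤ B * p.K ∧ B * p.K + cc * g ≤ p.m := by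
  have h1 := ok.hm
  have h2 := Nat.mul_le_mul_left cc (show g ≤ p.K by omega)
  rw [add_assoc B, add_mul] at h1
  exact ⟨Nat.mul_le_mul_left B (by omega), by omega⟩

/-- A raw label with given fields. -/
theorem exists_raw (ok : p.OK) (hk : k ≤ p.K) (g ty x y : ℕ) {f₀ f₁ f₂ : ℕ} {l : Bool → ℕ}
    (h0 : f₀ < 2 ^ p.fw g ty) (h1 : f₁ < 2 ^ p.fw g ty) (h2 : f₂ < 2 ^ p.fw g ty)
    (hl : ∀ b, l b < p.NL) : ∃ u < p.nl g ty, (∀ d, p.sl g ty u d = p.sn d k (bif d then x else y)) ∧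
      fld (p.fw g ty) u 10 = f₀ ∧ fld (p.fw g ty) u 11 = f₁ ∧ fld (p.fw g ty) u 12 = f₂ ∧
        ∀ b, p.lb g ty u b = l b := by
  have a1 : 2 ^ p.lk ≤ 2 ^ p.fw g ty := Nat.pow_le_pow_right two_pos (by
    rw [← lk_le_fw]
    omega)
  have a2 : p.NL ≤ 2 ^ p.fw g ty := by
    rw [NL, W, ← pow_mul]
    exact Nat.pow_le_pow_right two_pos (by rw [fw]; omega)
  have a3 : ∀ b : Bool, b.toNat < 2 ^ p.fw g ty := fun b => (Bool.toNat_lt b).trans_le
    (Nat.le_self_pow (by rw [← lk_le_fw]; omega) 2)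
  obtain ⟨x1, x2, x3, x4⟩ := sn_lt ok hk true x
  obtain ⟨y1, y2, y3, y4⟩ := sn_lt ok hk false y
  obtain ⟨u, hu, h⟩ := exists_fld (p.fw g ty) (fun i => [(p.sn true k x).l, (p.sn true k x).lam,
    (p.sn true k x).wt.toNat, (p.sn true k x).ol, (p.sn true k x).c, (p.sn false k y).l,
    (p.sn false k y).lam, (p.sn false k y).wt.toNat, (p.sn false k y).ol, (p.sn false k y).c,
    f₀, f₁, f₂, l true, l false].getD i 0) fun i hi => by
      have := hl true
      have := hl false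
      interval_cases i <;>
        first | exact a3 _ | (simp only [List.getD_cons_succ, List.getD_cons_zero]; omega)
  have e : ∀ b : Bool, decide (b.toNat = 1) = b := by decide
  refine ⟨u, hu, fun d => ?_, h 10 (by omega), h 11 (by omega), h 12 (by omega), fun b => ?_⟩
  · cases d
    · change Sg.mk (fld _ u 5) (fld _ u 6) (decide (fld _ u 7 = 1)) (fld _ u 8) (fld _ u 9) = _
      rw [h 5 (by omega), h 6 (by omega), h 7 (by omega), h 8 (by omega), h 9 (by omega)]
      exact congrArg (Sg.mk _ _ · _ _) (e _)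
    · change Sg.mk (fld _ u 0) (fld _ u 1) (decide (fld _ u 2 = 1)) (fld _ u 3) (fld _ u 4) = _
      rw [h 0 (by omega), h 1 (by omega), h 2 (by omega), h 3 (by omega), h 4 (by omega)]
      exact congrArg (Sg.mk _ _ · _ _) (e _)
  · cases b
    · exact (congrArg (· % _) (h 14 (by omega))).trans (Nat.mod_eq_of_lt (hl _))
    · exact (congrArg (· % _) (h 13 (by omega))).trans (Nat.mod_eq_of_lt (hl _))

theorem st_of_tst (hx : x < p.n (k + 1)) (hy : y < p.n (k + 1)) (t : p.tst F k g ty u e true x)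
    (t' : p.tst F k g ty u e false y) : p.st (k + 1) g x y :=
  ⟨hx, hy, by rw [gap_succ, t.1, t'.1]; exact t.2.2.1, by rw [ft, t.1, t'.1]; exact t.2.1⟩

theorem bt_wc {i : ℕ} (h : i < B * p.K + cc * g) : bt (p.wc g 0 u) i = 0 := by
  rw [wc, if_pos rfl, bt_win_lt h]

theorem lw_eq (h : p.sn true k x = p.sl g 0 u true) (h' : p.sn false k y = p.sl g 0 u false) :
    p.lw g 0 u = p.ell k x y ∧ (p.sl g 0 u true).ell' (p.sl g 0 u false) = p.ell (k + 1) x y := by
  rw [lw, if_pos rfl, ← h, ← h', ell_succ]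
  exact ⟨rfl, rfl⟩

theorem rel_up (ok : p.OK) (hk : k + 1 + g ≤ p.K) (hx : x < p.n (k + 1)) (hy : y < p.n (k + 1))
    (t : p.tst F k g 0 u e true x) (t' : p.tst F k g 0 u e false y)
    (h : p.Rel F k (g + 1) (p.ent k g 0 u e) (x % p.n k) (y % p.n k)) :
    p.Rel F (k + 1) g e x y := by
  obtain ⟨a1, a2⟩ := room ok hk
  obtain ⟨a3, a4⟩ := lw_eq t.1 t'.1
  have a5 := ell_le p (k + 1) x y
  have a6 := (ell_mono p k x y).1
  have w := t.2.2.2.2.1.trans t'.2.2.2.2.1.symm
  rw [a3, a4, win_iff ok (by omega)] at w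
  have h2 := h.2
  rw [val_ent hx t.1, val_ent hy t'.1, if_neg (by simp), if_pos ⟨rfl, rfl⟩, Nat.xor_zero, Q, ell_mod,
    mul_add_one] at h2
  refine ⟨st_of_tst hx hy t t', fun i hi => ?_⟩
  simp only [Q, mem_union, mem_range, mem_Ico] at hi
  by_cases a : p.ell k x y ≤ i ∧ i < p.ell (k + 1) x y
  · exact w i (mem_Ico.2 (by omega))
  · refine (h2 i ?_).trans (bt_xor_zero (bt_wc (by omega)))
    simp only [mem_union, mem_range, mem_Ico]
    omega

theorem rel_down (ok : p.OK) (hk : k + 1 + g ≤ p.K) (h : p.Rel F (k + 1) g e x y)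
    (s : p.st k (g + 1) (x % p.n k) (y % p.n k)) (t : p.sn true k x = p.sl g 0 u true)
    (t' : p.sn false k y = p.sl g 0 u false) (w : fld (p.fw g 0) u 10 =
      (val F e true x ^^^ val F e false y) / 2 ^ (B * p.K + cc * g) % 2 ^ cc) :
    p.Rel F k (g + 1) (p.ent k g 0 u e) (x % p.n k) (y % p.n k) := by
  obtain ⟨a1, -⟩ := room ok hk
  have a5 := ell_le p (k + 1) x y
  have a6 := (ell_mono p k x y).1
  refine ⟨s, fun i hi => ?_⟩
  rw [val_ent h.1.1 t, val_ent h.1.2.1 t', if_neg (by simp), if_pos ⟨rfl, rfl⟩, Nat.xor_zero]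
  simp only [Q, ell_mod, mem_union, mem_range, mem_Ico, mul_add_one] at hi
  by_cases a : i < B * p.K + cc * g
  · refine (h.2 i ?_).trans (bt_xor_zero (bt_wc a)).symm
    simp only [Q, mem_union, mem_range, mem_Ico]
    omega
  · rw [bt_xor, wc, if_pos rfl, w, Nat.mod_mod, bt_win (c := cc) (by omega) (by omega), bt_xor]
    have := bt_lt (val F e true x) i
    omega

theorem rawOkU (h : p.Gd F) (hk : k + 1 + g ≤ p.K) (he : p.EOk e)
    (hT : ∀ e, p.EOk e → p.TabOk F k (g + 1) e) :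
    p.RawOk F (k + 1) g 0 e (p.rawU F k (p.raw F k) g e) := by
  classical
  have ok := h.toOK
  have T := fun u => hT _ (he.ent ok hk 0 u)
  have i0 : ∀ q : Prop, (0 : ℝ) ≤ if q then 1 else 0 := fun q => by split_ifs <;> norm_num
  have i1 : ∀ q : Prop, (if q then 1 else 0 : ℝ) ≤ 1 := fun q => by split_ifs <;> norm_num
  refine ⟨fun d u x => mul_nonneg (mul_nonneg (i0 _) ((T u).q_mem _ _ _).1) (i0 _),
    fun d u x => mul_le_one₀ (mul_le_one₀ (i1 _) ((T u).q_mem _ _ _).1 ((T u).q_mem _ _ _).2)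
      (i0 _) (i1 _), fun d u x hx h0 => ?_, fun x y r t s => ?_⟩
  · obtain ⟨h1, h3⟩ := mul_ne_zero_iff.1 h0
    obtain ⟨h1, h2⟩ := mul_ne_zero_iff.1 h1
    replace h1 := (ite_ne_right_iff.1 h1).1
    replace h3 := (ite_ne_right_iff.1 h3).1
    obtain ⟨r, s⟩ := (T u).snd d _ _ (mod_nm_lt _ _ _) h2
    have y1 := (Rel.lt r).2
    have y2 : p.enU k g u (p.raw F k) e d x % p.n k = _ := add_dt_mod y1
    have y3 : p.enU k g u (p.raw F k) e d x < _ := add_dt_lt y1
    have r' : sw d (p.Rel F (k + 1) g e) x (p.enU k g u (p.raw F k) e d x) := by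
      cases d
      · exact rel_up ok hk y3 hx h3 h1 (y2.symm ▸ r)
      · exact rel_up ok hk hx y3 h1 h3 (y2.symm ▸ r)
    refine ⟨r', ?_, ?_⟩
    · cases d
      · exact (Rel.typ r').symm.trans (typ_succ.2 fun m => h3.2.2.2.1.1 (h3.1 ▸ m) rfl)
      · exact typ_succ.2 fun m => h1.2.2.2.1.1 (h1.1 ▸ m) rfl
    · change p.enU k g u (p.raw F k) e (!d) (p.enU k g u (p.raw F k) e d x) = x
      rw [enU, y2, Bool.not_not]
      exact (congrArg (· + _) s).trans (mod_add_dt hx h1.1)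
  · have m := typ_succ.1 t
    have s1 := tau_of_sig (p := p) (by rw [← tau_old r.1 m]; linarith)
    obtain ⟨a1, a2⟩ := room ok hk
    have a3 := ok.big
    have a4 := B_le_a
    have a5 := ell_le p (k + 1) x y
    obtain ⟨a6, a7⟩ := ell_mono p k x y
    have ex := fun l hl => exists_raw ok (show k ≤ p.K by omega) g 0 x y (l := l) (f₂ := 0)
      (f₀ := (val F e true x ^^^ val F e false y) / 2 ^ (B * p.K + cc * g) % 2 ^ cc)
      (f₁ := p.win (val F e true x) (p.ell k x y) (p.ell (k + 1) x y - p.ell k x y))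
      ((Nat.mod_lt _ (Nat.two_pow_pos _)).trans_le (Nat.pow_le_pow_right two_pos (by
        rw [← lk_le_fw, cc]
        omega))) (win_lt (by rw [← lk_le_fw]; omega)) (Nat.two_pow_pos _) hl
    obtain ⟨u₀, -, b1, b2, -⟩ := ex 0 fun _ => pow_pos (Nat.two_pow_pos _) 3
    obtain ⟨l, hl, c1, c2, c3⟩ := (T u₀).cmp _ _ (rel_down ok hk r (st_of_tau (by linarith))
      (b1 true).symm (b1 false).symm b2) (by linarith)
    obtain ⟨u, hu, d1, d2, d3, -, d4⟩ := ex (fun _ => l) fun _ => hl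
    rw [← ent_congr (fun d => (d1 d).trans (b1 d).symm) (d2.trans b2.symm), ← d4 true] at c1 c2 c3
    have c4 := ((T u).snd true _ _ (mod_nm_lt _ _ _) (c1.trans_ne one_ne_zero)).2
    obtain ⟨a8, a9⟩ := lw_eq (d1 true).symm (d1 false).symm
    have t0 : ∀ d x', p.sn d k x' = p.sl g 0 u d → p.win (val F e d x') (p.ell k x y)
        (p.ell (k + 1) x y - p.ell k x y) = fld (p.fw g 0) u 11 → p.tst F k g 0 u e d x' :=
      fun d x' f f' => ⟨f, by rw [d1, d1]; exact r.1.2.2.2, by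
        rw [d1, d1]; exact gap_succ p k x y ▸ r.1.2.2.1,
        iff_of_false (by rw [d1]; exact m) (not_not.2 rfl), by rwa [a8, a9], fun f => (f rfl).elim⟩
    have t1 := t0 true x (d1 true).symm d3.symm
    have t2 := t0 false y (d1 false).symm (((win_iff ok (by omega)).2 fun i hi =>
      r.2 i (mem_union_left _ (mem_range.2 (by have := (mem_Ico.1 hi).2; omega)))).symm.trans
        d3.symm)
    have e1 : p.enU k g u (p.raw F k) e true x = y :=
      (congrArg (· + _) c3).trans (mod_add_dt r.1.2.1 t2.1)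
    have e2 : p.enU k g u (p.raw F k) e false y = x :=
      (congrArg (· + _) (c3 ▸ c4)).trans (mod_add_dt r.1.1 t1.1)
    refine ⟨u, hu, ?_, ?_, e1⟩
    · simp only [rawU, e1, Bool.not_true, if_pos t1, if_pos t2, one_mul, mul_one]
      exact c1
    · simp only [rawU, e2, Bool.not_false, if_pos t1, if_pos t2, one_mul, mul_one]
      exact c2

end Pr

end Vale.Agent.P313.NL2
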