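import Vale.Agent.P313.NL2.SPA

/-! The local parts of the program for the tables with short labels are computable. -/

namespace Vale.Agent.P313.NL2

open Finset Function Vale.Agent.P313.Hi Vale.Agent.P313.NL Vale.Agent.P313.KH Vale.Agent.P313.Full
  Vale.Agent.P313.Full.Tm Vale.Agent.Lib.Space

variable {α : Type} {c : α → In}

section parts

variable {A : Type} [Enc A α] {Bu : Bud A}

/-- Computable functions of the input and of the context. -/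
abbrev S2 (Bu : Bud A) (k : α → Cx → ℕ) : Prop := SP Bu fun z : α × Cx => k z.1 z.2

theorem sp_c3 : SP Bu fun z : α × Cx × St => (z.1, z.2.1) := SP.fst'.pair SP.snd'.fst

theorem sp_c4 : SP Bu fun z : (α × Cx × St) × ℕ × ℕ × ℕ => (z.1.1, z.1.2.1) :=
  SP.fst'.fst.pair SP.fst'.snd.fst

theorem s2_z0 : S2 Bu (z0 : α → Cx → ℕ) := SP.const 0

theorem s2_vr (x : Cr) : S2 Bu (vr x : α → Cx → ℕ) := sp_app SP.snd' x

theorem sp_ty2 : SP Bu fun z : α × Cx => tyq z.2 := sp_tyq SP.snd'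

theorem isSP_vO : (vO : Full.View α Sr Cr).IsSP Bu := ⟨SP.const 1, SP.const 0, SP.fst'.snd.snd⟩

theorem isSP_cR (t : Pn) : (cR t : Tr α).IsSP Bu :=
  isSP_tcal (sp_mk (s2_vr .k) (s2_vr .g) (s2_vr .ty) (SP.const 0) (s2_vr .u) (SP.const 0)
    (SP.const 0))

theorem isSP_cG (t : Pn) (x : Cr) : (cG t x : Tr α).IsSP Bu :=
  isSP_tcal (sp_mk (s2_vr .k) (s2_vr .g) (s2_vr .ty) (s2_vr x) (SP.const 0) (SP.const 0)
    (SP.const 0))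

theorem isSP_cN (t : Pn) {k g l : α → Cx → ℕ} (hk : S2 Bu k) (hg : S2 Bu g) (hl : S2 Bu l) :
    (cN t k g l).IsSP Bu :=
  isSP_tcal (sp_mk hk hg (SP.const 0) hl (SP.const 0) (SP.const 0) (SP.const 0))

theorem isSP_hf (b : Bool) : (Tm.inv fun _ _ => lift (hf b) : Tr α).IsSP Bu :=
  isSP_inv (sp_lift (f := fun _ => hf b) SP.snd'.snd (sp_hf (sp_env SP.snd'.snd) b))

theorem isSP_inH (b : Bool) {e : Tr α} (he : e.IsSP Bu) : (inH b e).IsSP Bu := ⟨isSP_hf b, he⟩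

theorem isSP_if0 {e₁ e₂ : Tr α} (h1 : e₁.IsSP Bu) (h2 : e₂.IsSP Bu) : (if0 e₁ e₂).IsSP Bu :=
  ⟨(s2_vr .k).decide_eq (SP.const 0), h1, h2⟩

theorem isSP_ifU {e₁ e₂ : Tr α} (h1 : e₁.IsSP Bu) (h2 : e₂.IsSP Bu) : (ifU e₁ e₂).IsSP Bu :=
  ⟨(s2_vr .ty).decide_eq (SP.const 0), h1, h2⟩

theorem isSP_fn {φ : ℝ → ℝ} {e : Tr α} (hφ : ∀ x : (α × Cx × St) × ℕ × ℕ × ℕ → ℝ, RSP Bu x →
    RSP Bu fun z => φ (x z)) (he : e.IsSP Bu) : (fn φ e).IsSP Bu := isSP_ap1 hφ he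

theorem isSP_guard {g e : Tr α} (hg : g.IsSP Bu) (he : e.IsSP Bu) : (guard g e).IsSP Bu := ⟨hg, he⟩

theorem isSP_hop (d : Bool) {M e : Tr α} (hM : M.IsSP Bu) (he : e.IsSP Bu) :
    (hop d M e).IsSP Bu := ⟨hM, he⟩

theorem isSP_sum {nl : α → Cx → ℕ} (hn : S2 Bu nl) (x : Cr) {e : Tr α} (he : e.IsSP Bu) :
    (Tm.sum nl x e).IsSP Bu := ⟨hn, he⟩

theorem isSP_rp {i : ℝ} (q : ℚ) (hq : i = q) {e : Tr α} (he : e.IsSP Bu) : (fn (rp i) e).IsSP Bu :=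
  isSP_fn (fun _ hx => rsp_rp q hq hx) he

theorem isSP_cl {e : Tr α} (he : e.IsSP Bu) : (fn cl e).IsSP Bu :=
  isSP_fn (fun _ hx => rsp_cl hx) he

theorem isSP_rd {e : Tr α} (he : e.IsSP Bu) : (fn rd e).IsSP Bu :=
  isSP_fn (fun _ hx => rsp_rd hx) he

theorem isSP_dnT {i : ℝ} (q : ℚ) (hq : i = q) (d : Bool) : (dnT i d : Tr α).IsSP Bu :=
  isSP_fn (fun _ hx => rsp_dn q hq ((RSP.ofNat 2).mul hx)) (isSP_cG _ _)

theorem isSP_bRF (d : Bool) : (bRF d : Tr α).IsSP Bu :=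
  isSP_guard (isSP_cR _) (isSP_rp 2 (by norm_num) (isSP_cR _))

namespace InSP

variable {k g l : α → Cx → ℕ} {e : Tr α}

theorem i2 (h : InSP c Bu) : InSP (fun z : α × Cx => c z.1) Bu := h.comp SP.fst'

theorem i3 (h : InSP c Bu) : InSP (fun z : α × Cx × St => c z.1) Bu := h.comp SP.fst'

theorem i4 (h : InSP c Bu) : InSP (fun z : (α × Cx × St) × ℕ × ℕ × ℕ => c z.1.1) Bu :=
  h.comp SP.fst'.fst

theorem kT (h : InSP c Bu) : S2 Bu (kT c) := h.i2.kq SP.snd'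

theorem jT (h : InSP c Bu) : S2 Bu (jT c) := h.kT.sub (SP.const 1)

theorem gT (h : InSP c Bu) : S2 Bu (gT c) := h.i2.gq SP.snd'

theorem g1 (h : InSP c Bu) : S2 Bu (g1 c) := h.gT.add (SP.const 1)

theorem lT (h : InSP c Bu) (b : Bool) : S2 Bu (lT c b) := h.i2.lb h.gT sp_ty2 (s2_vr .u) b

theorem nlT (h : InSP c Bu) : S2 Bu (nlT c) :=
  h.i2.nl h.gT sp_ty2 (fun _ => min_le_right _ _) fun _ => min_le_right _ _

theorem NLT (h : InSP c Bu) : S2 Bu (NLT c) := h.i2.NL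

theorem sT (h : InSP c Bu) (d : Bool) : SgSP Bu fun z : α × Cx => sT c d z.1 z.2 :=
  h.i2.sl h.gT sp_ty2 (s2_vr .u) d

theorem scT (h : InSP c Bu) : SP Bu fun z : α × Cx => 2 ^ ((B + 2) * NL2.gT c z.1 z.2) :=
  h.i2.powK (B + 2) ((SP.const _).mul h.gT) fun _ =>
    Nat.mul_le_mul_left _ ((min_le_right _ _).trans (Nat.le_succ _))

theorem wmT (h : InSP c Bu) : SP Bu fun z : α × Cx => 2 ^ (B * (NL2.gT c z.1 z.2 + 1)) :=
  h.i2.powK B ((SP.const _).mul h.g1) fun _ =>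
    Nat.mul_le_mul_left _ (Nat.succ_le_succ (min_le_right _ _))

theorem nx3 (h : InSP c Bu) (hk : S2 Bu k) :
    SP Bu fun z : α × Cx × St => (c z.1).nx (k z.1 z.2.1) z.2.2 :=
  h.i3.nx (hk.comp sp_c3) SP.snd'.snd

theorem vR (h : InSP c Bu) (r : Sr) : (vR c r).IsSP Bu :=
  ⟨h.pm, sp_app SP.snd'.snd r, sp_update r SP.fst'.snd.snd SP.snd'⟩

theorem aT (h : InSP c Bu) (dir : Bool → Bool) (t : Pn) (hk : S2 Bu k) (hg : S2 Bu g)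
    (hl : S2 Bu l) : (aT c dir t k g l).IsSP Bu :=
  ⟨fun d => (h.i3.new (dir d) (hk.comp sp_c3) (h.nx3 hk)).dec,
    isSP_tcal (sp_mk hk hg (SP.const 1) hl (SP.const 0) (SP.const 0) (SP.const 0)),
    isSP_tcal (sp_mk hk hg (SP.const 0) hl (SP.const 0) (SP.const 0) (SP.const 0))⟩

theorem aN (h : InSP c Bu) (d : Bool) (t : Bool → Pn) (hk : S2 Bu k) (hg : S2 Bu g)
    (hl : S2 Bu l) : (aN c d t k g l).IsSP Bu := h.aT _ _ hk hg hl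

theorem aM (h : InSP c Bu) (hk : S2 Bu k) (hg : S2 Bu g) (hl : S2 Bu l) :
    (aM c k g l).IsSP Bu := h.aT _ _ hk hg hl

theorem inE (h : InSP c Bu) (he : e.IsSP Bu) : (inE c e).IsSP Bu :=
  isSP_aft (h.i3.pe SP.snd'.fst SP.snd'.snd) he

theorem cjE (h : InSP c Bu) (he : e.IsSP Bu) : (cjE c e).IsSP Bu :=
  ⟨isSP_inv (h.i3.pe SP.snd'.fst SP.snd'.snd), he, isSP_inv (h.i3.pf SP.snd'.fst SP.snd'.snd)⟩

theorem hM (h : InSP c Bu) (b : Bool) (hl : S2 Bu l) : (hM c b l).IsSP Bu :=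
  ⟨isSP_hf b, h.aM h.jT s2_z0 hl, isSP_hf b⟩

theorem bRM (h : InSP c Bu) : (bRM c).IsSP Bu :=
  isSP_if0 (fun d => ⟨(h.i3.dom0 d ((s2_vr .u).comp sp_c3) (h.nx3 s2_z0)).dec,
      h.i3.mv (SP.const 0) (fun _ => Nat.zero_le _) SP.snd'.snd
        (h.i3.en0 d ((s2_vr .u).comp sp_c3) (h.nx3 s2_z0))⟩)
    (h.cjE (isSP_ifU (h.aM h.jT h.g1 (h.lT true))
      ⟨h.hM true (h.lT true), h.hM false (h.lT false)⟩))

theorem tsT (h : InSP c Bu) (d : Bool) : (tsT c d).IsSP Bu :=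
  isSP_tst (h.i3.tst (h.jT.comp sp_c3) (h.gT.comp sp_c3) (sp_ty2.comp sp_c3)
    ((s2_vr .u).comp sp_c3) (sp_env SP.snd'.snd) d (h.nx3 h.kT)).dec

theorem bPS (h : InSP c Bu) (d : Bool) : (bPS c d).IsSP Bu :=
  isSP_if0 (isSP_tst (h.i3.ok0 (h.gT.comp sp_c3) (sp_ty2.comp sp_c3) (sp_env SP.snd'.snd) d
      ((s2_vr .u).comp sp_c3) (h.nx3 s2_z0)).dec)
    (isSP_guard (isSP_guard (h.tsT d) (h.inE (isSP_ifU (h.aN d _ h.jT h.g1 (h.lT true))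
      (isSP_guard (isSP_inH d (h.aN d _ h.jT s2_z0 (h.lT d)))
        (isSP_hop d (h.hM d (h.lT d)) (isSP_inH _ (h.aN d _ h.jT s2_z0 (h.lT !d))))))))
      (isSP_hop d (isSP_cR _) (h.tsT !d)))

theorem fcT (h : InSP c Bu) (d : Bool) : (fcT c d).IsSP Bu :=
  isSP_app (fun _ _ hx hy => rsp_fac d
      (sp_dg (fun g => g.1.1) h.i4.n0 (h.jT.comp sp_c4) (sp_app SP.fst'.snd.snd Sr.pos))
      (sp_dg (fun g => g.1.2.1) h.i4.n0 (h.jT.comp sp_c4) (sp_app SP.fst'.snd.snd Sr.pos)) hx hy)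
    (isSP_cN _ h.jT s2_z0 s2_z0) (isSP_cN _ h.jT s2_z0 s2_z0)

theorem ccT (h : InSP c Bu) (d : Bool) : (ccT c d).IsSP Bu :=
  isSP_guard (h.fcT d) (isSP_hop d (isSP_cR _) (h.fcT !d))

theorem rwT (h : InSP c Bu) (d : Bool) (hk : S2 Bu k) (hl : S2 Bu l) : (rwT c d k l).IsSP Bu :=
  isSP_app (fun _ _ hx hy => (DSP.ff (h.i4.v d (hk.comp sp_c4)
      (sp_app SP.fst'.snd.snd Sr.pos)).wt).rite (((rsp_cl hx).mul (rsp_phi hx)).mul (rsp_cl hy))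
      RSP.zero)
    (h.aN d _ hk s2_z0 hl) (isSP_cN _ hk s2_z0 hl)

theorem chT (h : InSP c Bu) (hk : S2 Bu k) : (chT c k).IsSP Bu :=
  rsp_chr ((SP.const 2).mul h.i3.m) (sp_app SP.snd'.snd Sr.ch) (h.nx3 hk)

theorem mdT (h : InSP c Bu) : (mdT c).IsSP Bu :=
  isSP_guard (isSP_tst (((h.sT true).comp sp_c3).mid ((h.sT false).comp sp_c3)
      (h.i3.v false (h.jT.comp sp_c3) (sp_app SP.snd'.snd Sr.pos)).lam
      (h.i3.v true (h.jT.comp sp_c3) (sp_app SP.snd'.snd Sr.pos)).lam).dec)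
    (isSP_app (fun _ _ hx hy => (rsp_uns hx).mul (rsp_uns hy)) (isSP_cN _ h.jT s2_z0 s2_z0)
      (isSP_cN _ h.jT s2_z0 s2_z0))

theorem smT (h : InSP c Bu) (d b : Bool) (x : Cr) (he : e.IsSP Bu) : (smT c d b x e).IsSP Bu :=
  isSP_sum h.NLT x (isSP_guard (isSP_inH b (h.aN d _ h.jT s2_z0 (s2_vr x)))
    (isSP_guard (isSP_inH b (h.rwT d h.jT (s2_vr x))) (isSP_hop d (h.hM b (s2_vr x)) he)))

theorem xT (h : InSP c Bu) (d : Bool) : (xT c d).IsSP Bu :=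
  ⟨h.vR _, isSP_guard (isSP_hop d (isSP_cR _) (h.chT h.jT)) (h.inE ⟨h.vR _,
    h.smT d d .x1 (isSP_guard h.mdT (h.smT d (!d) .x2 (h.chT h.jT)))⟩)⟩

theorem bRW (h : InSP c Bu) (d : Bool) : (bRW c d).IsSP Bu :=
  isSP_if0 (rsp_cl ((RSP.natCast (h.i3.swA d (h.nx3 s2_z0)
      (h.i3.en0 d ((s2_vr .u).comp sp_c3) (h.nx3 s2_z0)))).div (RSP.ofNat 2)))
    (isSP_ifU (isSP_app (fun _ _ hx hy => rsp_cl (((h.sT true).comp sp_c4).wU
        ((h.sT false).comp sp_c4) (rsp_cl hx) (rsp_cl hy)))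
        (h.inE (h.aN d _ h.jT h.g1 (h.lT true))) (h.ccT d))
      (isSP_app (fun _ _ hx hy => rsp_cl (((h.sT true).comp sp_c4).wMt ((h.sT false).comp sp_c4)
        (h.wmT.comp sp_c4) (rsp_clp ((RSP.natCast h.i4.NL).pow 2) hx) (rsp_cl hy)))
        (h.xT d) (h.ccT d)))

theorem bRT (h : InSP c Bu) (d : Bool) : (bRT c d).IsSP Bu :=
  isSP_ifU (isSP_if0 (isSP_cst 0 (by norm_num)) (h.inE (isSP_cN _ h.jT h.g1 (h.lT true))))
    (isSP_ap1 (fun _ hx => rsp_r0 (rsp_sc (h.scT.comp sp_c4) hx)) (isSP_cR _))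

theorem okT (h : InSP c Bu) (x : Cr) (d : Bool) : (okT c x d).IsSP Bu :=
  isSP_tst (dsp_okL d h.i3.W ((s2_vr x).comp sp_c3) (h.nx3 h.kT)).dec

theorem yT (h : InSP c Bu) (d : Bool) (he : e.IsSP Bu) : (yT c d e).IsSP Bu :=
  isSP_sum h.nlT _ (isSP_guard (isSP_rp 1 (by norm_num) (isSP_cR _))
    (isSP_hop d (isSP_cR _) (isSP_guard (h.okT _ _) he)))

theorem bGQ (h : InSP c Bu) (d : Bool) : (bGQ c d).IsSP Bu :=
  isSP_app (fun _ _ hx hy => rsp_cl ((((rsp_clp (RSP.natCast (h.nlT.comp sp_c4)) hx).pow 2).sub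
      hy).div (RSP.ofNat 2))) (h.yT d (isSP_cst 1 (by norm_num)))
    ⟨h.vR _, isSP_ap1 (fun _ hx => (rsp_clp (RSP.natCast (h.nlT.comp sp_c4)) hx).pow 2)
      (h.yT d (h.chT h.kT))⟩

theorem fT (h : InSP c Bu) (d : Bool) : (fT c d).IsSP Bu :=
  isSP_guard (isSP_dnT 2 (by norm_num) d) (isSP_guard (isSP_rp 2 (by norm_num) (isSP_cR _))
    (isSP_hop d (isSP_cR _) (h.okT _ _)))

theorem bMV (h : InSP c Bu) : (bMV c).IsSP Bu := ⟨isSP_vO, h.nlT, h.fT _, h.fT _, isSP_cR _⟩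

theorem bGq (h : InSP c Bu) (d : Bool) : (bGq c d).IsSP Bu :=
  isSP_guard (h.okT _ _) (isSP_guard (isSP_dnT 1 (by norm_num) d) (isSP_cl (isSP_sum h.nlT _
    (isSP_guard (isSP_rp 3 (by norm_num) (isSP_cR _)) (isSP_hop d (isSP_cR _)
      (isSP_guard (h.okT _ _) (isSP_guard (isSP_dnT 1 (by norm_num) _)
        (isSP_rp 3 (by norm_num) (isSP_cR _)))))))))

theorem bGo (h : InSP c Bu) (d : Bool) : (bGo c d).IsSP Bu :=
  isSP_guard (isSP_cG _ _) (isSP_fn (fun _ hx => rsp_inv1 hx) (isSP_sum h.NLT _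
    (isSP_guard (isSP_hop d (isSP_cG _ _) (h.okT _ _)) (isSP_cG _ _))))

theorem rat (h : InSP c Bu) (d : Bool) (t : Pn) : (rat c d t).IsSP Bu :=
  isSP_app (fun _ _ hx hy => rsp_cl ((rsp_clp (RSP.natCast (h.nlT.comp sp_c4)) hx).mul
      (rsp_inv1 hy))) (isSP_sum h.nlT _ (isSP_guard (h.fT d) (isSP_cR _)))
    (isSP_sum h.nlT _ (h.fT d))

theorem twT (h : InSP c Bu) (d : Bool) {φ : ℕ → ℝ → ℝ → ℝ}
    (hφ : ∀ x y : (α × Cx × St) × ℕ × ℕ × ℕ → ℝ, RSP Bu x → RSP Bu y →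
      RSP Bu fun z => φ (NL2.gT c z.1.1 z.1.2.1) (x z) (y z)) : (twT c d φ).IsSP Bu :=
  isSP_app (fun _ _ hx hy => hφ _ _ hx (rsp_cl hy)) (h.aN d _ h.kT h.gT (s2_vr _))
    (h.aN d _ h.kT h.gT (s2_vr _))

theorem bSG (h : InSP c Bu) (d : Bool) : (bSG c d).IsSP Bu :=
  isSP_guard (h.twT d fun _ _ hx hy => rsp_sgF (h.gT.comp sp_c4) (h.scT.comp sp_c4) hx hy)
    (isSP_guard (isSP_rd (isSP_cN _ h.kT h.gT s2_z0))
      (isSP_hop d (h.aM h.kT h.gT (s2_vr _)) (isSP_rd (isSP_cN _ h.kT h.gT s2_z0))))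

theorem bHH (h : InSP c Bu) (d : Bool) : (bHH c d).IsSP Bu :=
  isSP_app (fun _ _ hx hy => rsp_cl ((hx.div (rsp_pw _)).max hy))
    ⟨h.vR _, isSP_sum h.NLT _ (isSP_guard (h.aN d _ h.kT h.gT (s2_vr _))
      (h.twT d fun _ _ hx hy => rsp_muF (h.gT.comp sp_c4) (h.scT.comp sp_c4) hx hy))⟩
    (isSP_if0 (isSP_cst 0 (by norm_num))
      ⟨fun _ => (h.i3.new d (h.kT.comp sp_c3) (h.nx3 h.kT)).dec, isSP_cst 0 (by norm_num),
        isSP_fn (fun _ hx => (RSP.ofNat 2).mul (rsp_cl hx)) (isSP_cN _ h.jT h.g1 s2_z0)⟩)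

theorem atT (h : InSP c Bu) (he : e.IsSP Bu) : (atT c e).IsSP Bu :=
  isSP_guard (isSP_tst ((sp_app SP.snd'.snd Sr.pos).decide_eq h.i3.x0)) he

theorem bTW (h : InSP c Bu) : (bTW c).IsSP Bu :=
  h.atT (isSP_cl (isSP_sum h.NLT _ (isSP_guard (h.aN true _ h.kT s2_z0 (s2_vr _))
    (isSP_guard (h.rwT true h.kT (s2_vr _)) (isSP_hop true (h.aM h.kT s2_z0 (s2_vr _))
      (isSP_tst ((h.nx3 h.kT).decide_eq h.i3.y0)))))))

theorem body (h : InSP c Bu) : ∀ t, (body c t).IsSP Bu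
  | .RM => h.bRM
  | .PS d => h.bPS d
  | .RW d => h.bRW d
  | .RT d => h.bRT d
  | .RF d => isSP_bRF d
  | .GQ d => h.bGQ d
  | .Gq d => h.bGq d
  | .MV => h.bMV
  | .Go d => h.bGo d
  | .GW d => h.rat d _
  | .GT d => h.rat d _
  | .SG d => h.bSG d
  | .HH d => h.bHH d
  | .TH _ => h.atT (isSP_cN _ h.kT s2_z0 s2_z0)
  | .TW => h.bTW

theorem fwT (h : InSP c Bu) (t : Pn) : S2 Bu (fwT c t) := by
  refine h.i2.fw h.gT ?_
  by_cases ht : t.rank = 0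
  · simp only [if_pos ht]
    exact sp_tI h.gT
  · simp only [if_neg ht]
    exact sp_ty2

end InSP

end parts

theorem isSP {A : Type} [Enc A α] {Bu : Bud A} (h : InSP c Bu) : (prog c).IsSP Bu :=
  ⟨h.bd, h.body, fun t => (SP.const 32).mul (h.fwT t)⟩

end Vale.Agent.P313.NL2
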