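import Vale.Agent.P313.NL2.Prog

/-! Computability of the local parts of the tables with short labels. -/

namespace Vale.Agent.P313.NL2

open Finset Function Vale.Agent.P313.Hi Vale.Agent.P313.NL Vale.Agent.P313.KH Vale.Agent.P313.Full
  Vale.Agent.Lib.Space

variable {A β γ : Type} [Enc A β] [Enc A γ] {Bu : Bud A}

/-! ### Computable predicates -/

/-- Computable predicates. -/
def DSP (Bu : Bud A) {β : Type} [Enc A β] (p : β → Prop) : Prop :=
  ∃ b : β → Bool, SP Bu b ∧ ∀ z, b z = true ↔ p z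

namespace DSP

variable {p p' : β → Prop} {x y : β → ℕ}

theorem dec (h : DSP Bu p) {i : ∀ z, Decidable (p z)} : SP Bu fun z => @decide (p z) (i z) := by
  obtain ⟨b, hb, h⟩ := h
  exact hb.congr fun z => by rw [Bool.eq_iff_iff, h, decide_eq_true_iff]

theorem of {i : ∀ z, Decidable (p z)} (h : SP Bu fun z => @decide (p z) (i z)) : DSP Bu p :=
  ⟨_, h, fun _ => decide_eq_true_iff⟩

theorem congr (h : DSP Bu p) (e : ∀ z, p z ↔ p' z) : DSP Bu p' := by
  obtain ⟨b, hb, h⟩ := h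
  exact ⟨b, hb, fun z => (h z).trans (e z)⟩

theorem comp (h : DSP Bu p) {f : γ → β} (hf : SP Bu f) : DSP Bu fun z => p (f z) := by
  obtain ⟨b, hb, h⟩ := h
  exact ⟨_, hb.comp hf, fun z => h _⟩

theorem and (h : DSP Bu p) (h' : DSP Bu p') : DSP Bu fun z => p z ∧ p' z := by
  classical
  exact of (SP.decide_and h.dec h'.dec)

theorem or (h : DSP Bu p) (h' : DSP Bu p') : DSP Bu fun z => p z ∨ p' z := by
  classical
  exact of (SP.decide_or h.dec h'.dec)

theorem not (h : DSP Bu p) : DSP Bu fun z => ¬ p z := by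
  classical
  exact of (SP.decide_not h.dec)

theorem imp (h : DSP Bu p) (h' : DSP Bu p') : DSP Bu fun z => p z → p' z :=
  (h.not.or h').congr fun _ => imp_iff_not_or.symm

theorem iff (h : DSP Bu p) (h' : DSP Bu p') : DSP Bu fun z => p z ↔ p' z :=
  ((h.imp h').and (h'.imp h)).congr fun _ => iff_iff_implies_and_implies.symm

theorem eq (hx : SP Bu x) (hy : SP Bu y) : DSP Bu fun z => x z = y z := of (hx.decide_eq hy)

theorem ne (hx : SP Bu x) (hy : SP Bu y) : DSP Bu fun z => x z ≠ y z := (eq hx hy).not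

theorem le (hx : SP Bu x) (hy : SP Bu y) : DSP Bu fun z => x z ≤ y z := of (hx.decide_le hy)

theorem lt (hx : SP Bu x) (hy : SP Bu y) : DSP Bu fun z => x z < y z := of (hx.decide_lt hy)

theorem tt {b : β → Bool} (hb : SP Bu b) : DSP Bu fun z => b z = true := ⟨b, hb, fun _ => Iff.rfl⟩

theorem ff {b : β → Bool} (hb : SP Bu b) : DSP Bu fun z => b z = false :=
  (tt hb).not.congr fun _ => Bool.not_eq_true _ ▸ Iff.rfl

theorem beq {b b' : β → Bool} (hb : SP Bu b) (hb' : SP Bu b') : DSP Bu fun z => b z = b' z :=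
  ((tt hb).iff (tt hb')).congr fun _ => Bool.eq_iff_iff.symm

theorem ite (h : DSP Bu p) {i : ∀ z, Decidable (p z)} {f g : β → γ} (hf : SP Bu f) (hg : SP Bu g) :
    SP Bu fun z => @_root_.ite _ (p z) (i z) (f z) (g z) := @SP.ite _ _ _ _ _ _ p i f g h.dec hf hg

theorem rite (h : DSP Bu p) {i : ∀ z, Decidable (p z)} {f g : β → ℝ} (hf : RSP Bu f)
    (hg : RSP Bu g) : RSP Bu fun z => @_root_.ite _ (p z) (i z) (f z) (g z) :=
  @RSP.ite _ _ _ _ p i f g h.dec hf hg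

theorem dig (f : Dig → Prop) (hx : SP Bu x) : DSP Bu fun z => f (dig (x z)) := by
  classical
  exact of (sp_dig_prop f hx)

theorem vld (hx : SP Bu x) : DSP Bu fun z => vld (x z) := by
  classical
  exact of (sp_vld hx)

end DSP

theorem sp_pow_of_pbd {e : β → ℕ} (he : SP Bu e) (h : PBd Bu fun z => 2 ^ e z) :
    SP Bu fun z => 2 ^ e z := by
  have key : ∀ k : ℕ, (fun s => s * 2)^[k] 1 = 2 ^ k := by
    intro k
    induction k with
    | zero => simp
    | succ k ih => rw [Function.iterate_succ_apply', ih, pow_succ]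
  refine (SP.iterate (step := fun _ s => s * 2) he (SP.const 1) (SP.snd'.mul (SP.const 2)) h
    fun x a _ k hk => ?_).congr fun a => key _
  rw [key, enc_nat]
  exact Nat.pow_le_pow_right (by norm_num) hk

theorem rsp_pw (n : ℕ) : RSP Bu fun _ : β => (2 : ℝ) ^ n := rsp_two_pow (SP.const (2 ^ n))

theorem size_eq_log {g : ℕ} (h : g ≠ 0) : Nat.size g = Nat.log 2 g + 1 :=
  le_antisymm (Nat.size_le.2 (Nat.lt_pow_succ_log_self one_lt_two g))
    (Nat.lt_size.2 (Nat.pow_log_le_self 2 h))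

theorem dsp_tA {g : β → ℕ} (hg : SP Bu g) : DSP Bu fun z => tA (g z) := by
  refine ((DSP.eq hg (SP.const 0)).or
    (DSP.eq (hg.mul (SP.const 2)) (sp_two_pow_size hg))).congr fun z => ?_
  unfold tA
  by_cases h : g z = 0
  · simp [h]
  · rw [size_eq_log h, pow_succ]
    omega

theorem sp_tI {g : β → ℕ} (hg : SP Bu g) : SP Bu fun z => tI (g z) :=
  (dsp_tA hg).ite (SP.const 1) (SP.const 0)

theorem sp_fld {w u i : β → ℕ} (hw : SP Bu w) (hu : SP Bu u) (hi : SP Bu i) :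
    SP Bu fun z => fld (w z) (u z) (i z) :=
  sp_mod_two_pow (hu.div_pow (SP.const 2) (hw.mul hi)) hw

theorem dsp_okL {W l x : β → ℕ} (d : Bool) (hW : SP Bu W) (hl : SP Bu l) (hx : SP Bu x) :
    DSP Bu fun z => okL (W z) (l z) d (x z) := by
  cases d
  · exact DSP.eq (hx.mod ((hl.mod hW).add (SP.const 1))) ((hl.div hW).div hW)
  · exact DSP.eq (hx.mod ((hl.mod hW).add (SP.const 1))) ((hl.div hW).mod hW)

/-! ### Functions of real numbers -/

section real

variable {t w : β → ℝ} {g : β → ℕ}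

theorem rsp_clp {b : β → ℝ} (hb : RSP Bu b) (ht : RSP Bu t) : RSP Bu fun z => clp (b z) (t z) :=
  hb.neg.max (hb.min ht)

theorem rsp_rp {i : ℝ} (q : ℚ) (hq : i = q) (ht : RSP Bu t) : RSP Bu fun z => rp i (t z) :=
  rsp_cl (((RSP.ofNat 4).mul ht).sub (RSP.const q hq))

theorem rsp_dn {i : ℝ} (q : ℚ) (hq : i = q) (ht : RSP Bu t) : RSP Bu fun z => dn i (t z) :=
  rsp_cl ((RSP.const q hq).sub ht)

theorem rsp_inv1 (ht : RSP Bu t) : RSP Bu fun z => inv1 (t z) := RSP.one.div (RSP.one.max ht)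

theorem rsp_r0 (ht : RSP Bu t) : RSP Bu fun z => r0 (t z) :=
  rsp_cl ((ht.mul (rsp_pw _)).sub RSP.one)

theorem rsp_r1 (ht : RSP Bu t) : RSP Bu fun z => r1 (t z) :=
  rsp_cl ((ht.mul (rsp_pw _)).sub RSP.one)

theorem rsp_rd (ht : RSP Bu t) : RSP Bu fun z => rd (t z) :=
  rsp_cl ((RSP.ofNat 3).sub ((RSP.ofNat 4).mul ht))

theorem rsp_uns (ht : RSP Bu t) : RSP Bu fun z => uns (t z) :=
  RSP.one.sub (rsp_chi (SP.const B) ((rsp_pw _).mul ht))

theorem rsp_sc (hp : SP Bu fun z => 2 ^ ((B + 2) * g z)) (hw : RSP Bu w) :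
    RSP Bu fun z => sc (g z) (w z) := RSP.one.min (hw.mul (rsp_two_pow hp))

theorem rsp_muF (hg : SP Bu g) (hp : SP Bu fun z => 2 ^ ((B + 2) * g z)) (ht : RSP Bu t)
    (hw : RSP Bu w) : RSP Bu fun z => muF (g z) (t z) (w z) :=
  (rsp_cl (((RSP.ofNat 4).mul ht).sub (RSP.ofNat 3))).mul
    ((dsp_tA hg).rite (rsp_sc hp hw) RSP.one)

theorem rsp_sgF (hg : SP Bu g) (hp : SP Bu fun z => 2 ^ ((B + 2) * g z)) (ht : RSP Bu t)
    (hw : RSP Bu w) : RSP Bu fun z => sgF (g z) (t z) (w z) :=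
  (rsp_cl (((RSP.ofNat 8).mul ht).sub (RSP.ofNat 7))).mul
    ((dsp_tA hg).rite (rsp_r1 (rsp_sc hp hw)) RSP.one)

theorem rsp_fac (d : Bool) {G : β → Hi.G} (h1 : SP Bu fun z => ((G z).1 : ℕ))
    (h2 : SP Bu fun z => ((G z).2.1 : ℕ)) (ht : RSP Bu t) (hw : RSP Bu w) :
    RSP Bu fun z => fac d (G z) (t z) (w z) := by
  cases d
  · exact (rsp_chi h1 ((rsp_pw _).mul ht)).mul (rsp_zeta h2 ((rsp_pw _).mul hw))
  · exact (rsp_zeta h1 ((rsp_pw _).mul ht)).mul (rsp_chi h2 ((rsp_pw _).mul hw))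

theorem rsp_chr {n d y : β → ℕ} (hn : SP Bu n) (hd : SP Bu d) (hy : SP Bu y) :
    RSP Bu fun z => chr (n z) (d z) (y z) :=
  RSP.one.sub ((RSP.ofNat 2).mul (RSP.natCast (sp_ipb hn hd hy)))

end real

/-! ### Views and signatures -/

/-- The parts of a view are computable. -/
structure VwSP (Bu : Bud A) {β : Type} [Enc A β] (V : β → Hi.View) : Prop where
  l : SP Bu fun z => (V z).l
  lam : SP Bu fun z => (V z).lam
  wt : SP Bu fun z => (V z).wt

section view

variable {V V' : β → Hi.View} {o : β → Fin 3}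

theorem sp_dl (ho : DSP Bu fun z => o z = 0) (h : VwSP Bu V) (h' : VwSP Bu V') :
    SP Bu fun z => dl (o z) (V z) (V' z) :=
  (ho.and (DSP.ff h.wt)).ite (SP.const B) ((SP.const B).min (h'.l.sub h.l))

theorem sp_dm (ho : DSP Bu fun z => o z = 0) (h : VwSP Bu V) (h' : VwSP Bu V') :
    SP Bu fun z => dm (o z) (V z) (V' z) :=
  ((SP.const C).min (h'.lam.sub h.lam)).add (ho.ite (SP.const 1) (SP.const 0))

theorem dsp_syn (ho : DSP Bu fun z => o z = 0) (h : VwSP Bu V) (h' : VwSP Bu V') :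
    DSP Bu fun z => syn (o z) (V z) (V' z) :=
  (DSP.eq (h.l.add (sp_dl ho h h')) (h'.l.add (sp_dl ho h' h))).and
    (DSP.eq (h.lam.add (sp_dm ho h h')) (h'.lam.add (sp_dm ho h' h)))

theorem dsp_fit {x y : β → ℕ} (s t : Dig → ED) (hx : SP Bu x) (hy : SP Bu y) (h : VwSP Bu V)
    (h' : VwSP Bu V') : DSP Bu fun z => fit (V z) (V' z) (s (dig (x z))) (t (dig (y z))) := by
  have ho : DSP Bu fun z => (s (dig (x z))).2.2.1 = 0 := DSP.dig (fun g => (s g).2.2.1 = 0) hx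
  have h1 : DSP Bu fun z => (s (dig (x z))).2.2 = (t (dig (y z))).2.2 :=
    ((DSP.eq (sp_dig (fun g => (s g).2.2.1) hx) (sp_dig (fun g => (t g).2.2.1) hy)).and
      (DSP.beq (sp_dig_bool (fun g => (s g).2.2.2) hx)
        (sp_dig_bool (fun g => (t g).2.2.2) hy))).congr fun z => by
      rw [Prod.ext_iff, Fin.ext_iff]
  exact h1.and (((DSP.ff (sp_dig_bool (fun g => (s g).2.2.2) hx)).iff (dsp_syn ho h h')).and
    ((DSP.eq (sp_dig (fun g => (s g).1) hx) (sp_dl ho h h')).and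
    ((DSP.eq (sp_dig (fun g => (t g).1) hy) (sp_dl ho h' h)).and
    ((DSP.eq (sp_dig (fun g => (s g).2.1) hx) (sp_dm ho h h')).and
    (DSP.eq (sp_dig (fun g => (t g).2.1) hy) (sp_dm ho h' h))))))

end view

/-- The parts of a signature are computable. -/
structure SgSP (Bu : Bud A) {β : Type} [Enc A β] (S : β → Sg) : Prop where
  l : SP Bu fun z => (S z).l
  lam : SP Bu fun z => (S z).lam
  wt : SP Bu fun z => (S z).wt
  ol : SP Bu fun z => (S z).ol
  c : SP Bu fun z => (S z).c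

theorem Sg.ell'_sub_le (S T : Sg) : S.ell' T - S.ell T ≤ B := by
  have h1 := (S.dg.ed true).1.2
  have h2 := (T.dg.ed false).1.2
  unfold Sg.ell' Sg.ell Sg.l'
  omega

theorem Sg.gs_le_two (S T : Sg) : S.gs T ≤ 2 * B := by
  have h1 := S.dg.1.2.1.2
  have h2 := T.dg.1.1.2
  unfold Sg.gs
  omega

namespace SgSP

variable {S T : β → Sg}

theorem comp (h : SgSP Bu S) {f : γ → β} (hf : SP Bu f) : SgSP Bu fun z => S (f z) :=
  ⟨h.l.comp hf, h.lam.comp hf, h.wt.comp hf, h.ol.comp hf, h.c.comp hf⟩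

theorem vw (h : SgSP Bu S) : VwSP Bu fun z => (S z).vw := ⟨h.l, h.lam, h.wt⟩

theorem eq (h : SgSP Bu S) (h' : SgSP Bu T) : DSP Bu fun z => S z = T z :=
  ((DSP.eq h.l h'.l).and ((DSP.eq h.lam h'.lam).and ((DSP.beq h.wt h'.wt).and
    ((DSP.eq h.ol h'.ol).and (DSP.eq h.c h'.c))))).congr fun z => by
    generalize S z = s
    generalize T z = t
    cases s
    cases t
    exact Sg.mk.injEq .. ▸ Iff.rfl

theorem l' (h : SgSP Bu S) (d : Bool) : SP Bu fun z => (S z).l' d :=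
  h.l.add (sp_dig (fun g => (g.ed d).1) h.c)

theorem ell (h : SgSP Bu S) (h' : SgSP Bu T) : SP Bu fun z => (S z).ell (T z) := h.l.max h'.l

theorem ell' (h : SgSP Bu S) (h' : SgSP Bu T) : SP Bu fun z => (S z).ell' (T z) :=
  (h.l' true).max (h'.l' false)

theorem gap (h : SgSP Bu S) (h' : SgSP Bu T) : SP Bu fun z => (S z).gap (T z) :=
  (h.l.sub h'.l).add (h'.l.sub h.l)

theorem gap' (h : SgSP Bu S) (h' : SgSP Bu T) : SP Bu fun z => (S z).gap' (T z) :=
  ((h.l' true).sub (h'.l' false)).add ((h'.l' false).sub (h.l' true))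

theorem mrg (h : SgSP Bu S) (d : Bool) : DSP Bu fun z => (S z).mrg d :=
  DSP.dig (fun g => (g.ed d).2.2.1 = 2) h.c

theorem ft (h : SgSP Bu S) (h' : SgSP Bu T) : DSP Bu fun z => (S z).ft (T z) :=
  (DSP.vld h.c).and ((DSP.vld h'.c).and
    (dsp_fit (Dig.ed true) (Dig.ed false) h.c h'.c h.vw h'.vw))

theorem P1 (h : SgSP Bu S) (h' : SgSP Bu T) : DSP Bu fun z => (S z).P1 (T z) :=
  DSP.le h'.ol (h.ol.add (SP.const 2))

theorem P2 (h : SgSP Bu S) (h' : SgSP Bu T) : DSP Bu fun z => (S z).P2 (T z) :=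
  DSP.le h.ol (h'.ol.add (SP.const 2))

theorem nsat (h : SgSP Bu S) (h' : SgSP Bu T) : DSP Bu fun z => (S z).nsat (T z) :=
  (DSP.dig (fun g => (g.1.2.1 : ℕ) < B) h.c).and (DSP.dig (fun g => (g.1.1 : ℕ) < B) h'.c)

theorem gs (h : SgSP Bu S) (h' : SgSP Bu T) : SP Bu fun z => (S z).gs (T z) :=
  (sp_dig (fun g => g.1.2.1) h.c).add (sp_dig (fun g => g.1.1) h'.c)

theorem part (h : SgSP Bu S) (h' : SgSP Bu T) {t : β → ℝ} (ht : RSP Bu t) :
    RSP Bu fun z => (S z).part (T z) (t z) :=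
  (DSP.dig (fun g => (g.ed true).2.2.1 = 0) h.c).rite
    ((DSP.dig (fun g => g.1.2.2 = false) h.c).rite
      (RSP.one.sub (((h.nsat h').and (DSP.ff h.wt)).rite (rsp_phi ht) RSP.zero)) RSP.zero)
    ((((DSP.dig (fun g => g.1.2.2 = true) h.c).iff (h.P2 h')).and
      ((h.nsat h').and (DSP.ff h.wt))).rite
      (((h.P1 h').and (DSP.dig (fun g => g.1.2.2 = true) h'.c)).rite
        ((rsp_phi ht).sub ((rsp_phi ht).div (RSP.ofNat 4))) (rsp_phi ht)) RSP.zero)

theorem wU (h : SgSP Bu S) (h' : SgSP Bu T) {w t : β → ℝ} (hw : RSP Bu w) (ht : RSP Bu t) :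
    RSP Bu fun z => (S z).wU (T z) (w z) (t z) :=
  (((hw.mul (rsp_two_pow (sp_two_pow_le B ((h.ell' h').sub (h.ell h'))
    fun _ => Sg.ell'_sub_le _ _))).mul (h.part h' hw)).mul ht).div
    (rsp_two_pow (sp_two_pow_le (2 * B) (h.gs h') fun _ => Sg.gs_le_two _ _))

theorem wMt (h : SgSP Bu S) (h' : SgSP Bu T) {g : β → ℕ}
    (hp : SP Bu fun z => 2 ^ (B * (g z + 1))) {w t : β → ℝ} (hw : RSP Bu w) (ht : RSP Bu t) :
    RSP Bu fun z => (S z).wMt (T z) (g z) (w z) (t z) := by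
  have h1 : SP Bu fun z => 2 ^ min ((S z).gap (T z)) (B * (g z + 1)) :=
    (hp.min_pow (SP.const 2) (h.gap h')).congr fun z => by
      rcases le_total ((S z).gap (T z)) (B * (g z + 1)) with e | e
      · rw [min_eq_left e, min_eq_right (Nat.pow_le_pow_right two_pos e)]
      · rw [min_eq_right e, min_eq_left (Nat.pow_le_pow_right two_pos e)]
  exact (h.nsat h').rite ((ht.mul (hw.mul (rsp_two_pow h1))).div
    (rsp_two_pow (sp_two_pow_le (2 * B + 2) ((h.gs h').add (SP.const 2))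
      fun _ => Nat.add_le_add_right (Sg.gs_le_two _ _) 2))) RSP.zero

theorem mid (h : SgSP Bu S) (h' : SgSP Bu T) {i o : β → ℕ} (hi : SP Bu i) (ho : SP Bu o) :
    DSP Bu fun z => (S z).mid (T z) (i z) (o z) :=
  (DSP.le ho (h.ol.add (SP.const 2))).and ((DSP.le hi (h'.ol.add (SP.const 2))).and
    ((DSP.dig (fun g => g.1.2.2 = true) h.c).iff (DSP.le h.ol (ho.add (SP.const 2)))))

end SgSP

theorem sgSP_sgOf {w u : β → ℕ} (hw : SP Bu w) (hu : SP Bu u) (d : Bool) :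
    SgSP Bu fun z => sgOf (w z) (u z) d :=
  ⟨sp_fld hw hu (SP.const _), sp_fld hw hu (SP.const _),
    (sp_fld hw hu (SP.const _)).decide_eq (SP.const 1), sp_fld hw hu (SP.const _),
    sp_fld hw hu (SP.const _)⟩

/-! ### Registers -/

section reg

variable {e : β → Env} {s : β → St}

theorem sp_xr (he : SP Bu e) (i : Ix) {v : β → ℕ} (hv : SP Bu v) :
    SP Bu fun z => xr (e z) i (v z) := sp_update i he (sp_xor (sp_app he i) hv)

theorem sp_hf (he : SP Bu e) (b : Bool) : SP Bu fun z => hf b (e z) :=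
  sp_vec fun _ => sp_app he _

theorem sp_env (hs : SP Bu s) : SP Bu fun z => env (s z) := sp_vec fun j => sp_app hs (.e j)

theorem sp_lift {f : β → Env → Env} (hs : SP Bu s) (h : SP Bu fun z => f z (env (s z))) :
    SP Bu fun z => lift (f z) (s z) :=
  sp_vec fun
    | .pos => sp_app hs .pos
    | .ch => sp_app hs .ch
    | .e j => sp_app h j

theorem sp_mk {k g ty l u x y : β → ℕ} (hk : SP Bu k) (hg : SP Bu g) (ht : SP Bu ty) (hl : SP Bu l)
    (hu : SP Bu u) (hx : SP Bu x) (hy : SP Bu y) :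
    SP Bu fun z => mk (k z) (g z) (ty z) (l z) (u z) (x z) (y z) :=
  sp_vec fun
    | .k => hk
    | .g => hg
    | .ty => ht
    | .lab => hl
    | .u => hu
    | .x1 => hx
    | .x2 => hy

theorem sp_tyq {q : β → Cx} (hq : SP Bu q) : SP Bu fun z => tyq (q z) :=
  (sp_app hq .ty).min (SP.const 1)

end reg

/-! ### The functions of the parameters -/

namespace InSP

variable {c : β → In} {k g ty u x y i : β → ℕ} {e : β → Env} {s : β → St} {q : β → Cx}

theorem comp (h : InSP c Bu) {f : γ → β} (hf : SP Bu f) : InSP (fun z => c (f z)) Bu :=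
  ⟨h.N.comp hf, h.A0.comp ((hf.comp SP.fst').pair SP.snd'), h.n0.comp hf, h.K.comp hf,
    h.m.comp hf, h.lk.comp hf, h.F.comp ((hf.comp SP.fst').pair SP.snd'), h.k0.comp hf,
    h.x0.comp hf, h.y0.comp hf, h.pw.comp hf⟩

/-- Powers of two with an exponent which is linear in the parameters. -/
theorem pow (h : InSP c Bu) (D : ℕ) (hx : SP Bu x)
    (hb : ∀ z, x z ≤ D * ((c z).n0 + (c z).m + ((c z).K + 1) * ((c z).lk + 1))) :
    SP Bu fun z => 2 ^ x z :=
  sp_pow_of_pbd hx ((h.pw.pow D).mono fun z => by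
    rw [← pow_mul, mul_comm]
    exact Nat.pow_le_pow_right two_pos (hb z))

/-- The same for an exponent which is linear in `n0`, `m`, `K + 1` and `lk + 1`. -/
theorem pow' (h : InSP c Bu) (D : ℕ) (hx : SP Bu x)
    (hb : ∀ z, x z ≤ D * ((c z).n0 + (c z).m + ((c z).K + 1) + ((c z).lk + 1))) :
    SP Bu fun z => 2 ^ x z := by
  refine h.pow (D * 2) hx fun z => (hb z).trans ?_
  rw [mul_assoc]
  refine Nat.mul_le_mul_left D ?_
  have h1 : (c z).K + 1 ≤ ((c z).K + 1) * ((c z).lk + 1) := Nat.le_mul_of_pos_right _ (by omega)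
  have h2 : (c z).lk + 1 ≤ ((c z).K + 1) * ((c z).lk + 1) := Nat.le_mul_of_pos_left _ (by omega)
  omega

/-- Powers of two with an exponent at most `D (K + 1)`. -/
theorem powK (h : InSP c Bu) (D : ℕ) (hx : SP Bu x) (hb : ∀ z, x z ≤ D * ((c z).K + 1)) :
    SP Bu fun z => 2 ^ x z :=
  h.pow' D hx fun z => (hb z).trans (Nat.mul_le_mul_left D (by omega))

theorem n (h : InSP c Bu) (hk : SP Bu k) (hK : ∀ z, k z ≤ (c z).K) :
    SP Bu fun z => (c z).n (k z) := by
  refine h.pow' (a + 1) (h.n0.add ((SP.const a).mul hk)) fun z => ?_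
  have h1 := Nat.mul_le_mul_left a (show k z ≤ (c z).n0 + (c z).m + ((c z).K + 1) +
    ((c z).lk + 1) by have := hK z; omega)
  rw [add_mul, one_mul]
  omega

theorem pm (h : InSP c Bu) : SP Bu fun z => 2 ^ (c z).m := h.pow' 1 h.m fun z => by omega

theorem pm2 (h : InSP c Bu) : SP Bu fun z => 2 ^ (2 * (c z).m) :=
  h.pow' 2 ((SP.const 2).mul h.m) fun z => by omega

theorem bd (h : InSP c Bu) : SP Bu fun z => (c z).bd :=
  sp_vec fun
    | .pos => h.n h.K fun _ => le_rfl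
    | .ch => h.pm2
    | .e (_, false) => h.n h.K fun _ => le_rfl
    | .e (_, true) => h.pm2

theorem wl (h : InSP c Bu) : SP Bu fun z => (c z).wl := ((SP.const 3).mul h.lk).add (SP.const 4)

theorem W (h : InSP c Bu) : SP Bu fun z => (c z).W :=
  h.pow' 4 h.wl fun z => by unfold Pr.wl; omega

theorem NL (h : InSP c Bu) : SP Bu fun z => (c z).NL := h.W.pow_const 3

theorem fw (h : InSP c Bu) (hg : SP Bu g) (ht : SP Bu ty) : SP Bu fun z => (c z).fw (g z) (ty z) :=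
  ((SP.const 3).mul h.wl).add (ht.mul ((SP.const cc).mul (hg.add (SP.const 1))))

theorem nl (h : InSP c Bu) (hg : SP Bu g) (ht : SP Bu ty) (hK : ∀ z, g z ≤ (c z).K)
    (h1 : ∀ z, ty z ≤ 1) : SP Bu fun z => (c z).nl (g z) (ty z) := by
  refine h.pow' (15 * (12 + cc)) ((SP.const 15).mul (h.fw hg ht)) fun z => ?_
  rw [mul_assoc]
  refine Nat.mul_le_mul_left 15 ?_
  have h2 : ty z * (cc * (g z + 1)) ≤ 1 * (cc * ((c z).n0 + (c z).m + ((c z).K + 1) +
      ((c z).lk + 1))) := Nat.mul_le_mul (h1 z) (Nat.mul_le_mul_left cc (by have := hK z; omega))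
  rw [add_mul]
  unfold Pr.fw Pr.wl
  omega

theorem kq (h : InSP c Bu) (hq : SP Bu q) : SP Bu fun z => (c z).kq (q z) := (sp_app hq .k).min h.K

theorem gq (h : InSP c Bu) (hq : SP Bu q) : SP Bu fun z => (c z).gq (q z) := (sp_app hq .g).min h.K

theorem nx (h : InSP c Bu) (hk : SP Bu k) (hs : SP Bu s) : SP Bu fun z => (c z).nx (k z) (s z) :=
  sp_mod_nm h.n0 hk (sp_app hs .pos)

theorem mv (h : InSP c Bu) (hk : SP Bu k) (hK : ∀ z, k z ≤ (c z).K) (hs : SP Bu s) (hy : SP Bu y) :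
    SP Bu fun z => (c z).mv (k z) (s z) (y z) :=
  sp_update Sr.pos hs (hy.add ((h.n hk hK).mul ((sp_app hs .pos).div (h.n hk hK))))

theorem v (h : InSP c Bu) (d : Bool) (hk : SP Bu k) (hx : SP Bu x) :
    VwSP Bu fun z => (c z).v d (k z) (x z) :=
  ⟨sp_vw_l d h.n0 hk hx, sp_vw_lam d h.N h.n0 h.K hk hx, sp_vw_wt d h.n0 hk hx⟩

theorem sn (h : InSP c Bu) (d : Bool) (hk : SP Bu k) (hx : SP Bu x) :
    SgSP Bu fun z => (c z).sn d (k z) (x z) :=
  ⟨(h.v d hk hx).l, (h.v d hk hx).lam, (h.v d hk hx).wt, (h.v (!d) hk hx).lam, sp_cd h.n0 hk hx⟩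

theorem new (h : InSP c Bu) (d : Bool) (hk : SP Bu k) (hx : SP Bu x) :
    DSP Bu fun z => (c z).new d (k z) (x z) :=
  (DSP.eq hk (SP.const 0)).or ((h.sn d (hk.sub (SP.const 1)) hx).mrg d)

theorem sl (h : InSP c Bu) (hg : SP Bu g) (ht : SP Bu ty) (hu : SP Bu u) (d : Bool) :
    SgSP Bu fun z => (c z).sl (g z) (ty z) (u z) d := sgSP_sgOf (h.fw hg ht) hu d

theorem dt (h : InSP c Bu) (hk : SP Bu k) (hK : ∀ z, k z ≤ (c z).K) (hg : SP Bu g) (ht : SP Bu ty)
    (hu : SP Bu u) (d : Bool) : SP Bu fun z => (c z).dt (k z) (g z) (ty z) (u z) d :=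
  (h.n hk hK).mul ((h.sl hg ht hu d).c.mod (SP.const _))

theorem wc (h : InSP c Bu) (hg : SP Bu g) (hK : ∀ z, g z ≤ (c z).K) (ht : SP Bu ty) (hu : SP Bu u) :
    SP Bu fun z => (c z).wc (g z) (ty z) (u z) := by
  have h1 : SP Bu fun z => 2 ^ (B * (c z).K + cc * g z) := by
    refine h.powK (B + cc) (((SP.const B).mul h.K).add ((SP.const cc).mul hg)) fun z => ?_
    rw [add_mul]
    exact add_le_add (Nat.mul_le_mul_left B (by omega))
      (Nat.mul_le_mul_left cc (by have := hK z; omega))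
  have h2 := sp_fld (h.fw hg ht) hu (SP.const 10)
  exact (DSP.eq ht (SP.const 0)).ite ((h2.mod (SP.const _)).mul h1) (h2.mod h.pm2)

theorem ent (h : InSP c Bu) (hk : SP Bu k) (hK : ∀ z, k z ≤ (c z).K) (hg : SP Bu g)
    (hK' : ∀ z, g z ≤ (c z).K) (ht : SP Bu ty) (hu : SP Bu u) (he : SP Bu e) :
    SP Bu fun z => (c z).ent (k z) (g z) (ty z) (u z) (e z) := by
  have h1 := sp_xr (sp_xr he (0, false) (h.dt hk hK hg ht hu true)) (1, false)
    (h.dt hk hK hg ht hu false)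
  refine ((DSP.eq ht (SP.const 0)).ite (i := fun _ => inferInstance)
    (sp_xr h1 (1, true) (h.wc hg hK' ht hu)) (sp_xr h1 (2, true) (h.wc hg hK' ht hu))).congr
    fun z => ?_
  unfold Pr.ent
  split_ifs <;> rfl

theorem lb (h : InSP c Bu) (hg : SP Bu g) (ht : SP Bu ty) (hu : SP Bu u) (b : Bool) :
    SP Bu fun z => (c z).lb (g z) (ty z) (u z) b :=
  (sp_fld (h.fw hg ht) hu (SP.const _)).mod h.NL

theorem lw (h : InSP c Bu) (hg : SP Bu g) (ht : SP Bu ty) (hu : SP Bu u) :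
    SP Bu fun z => (c z).lw (g z) (ty z) (u z) :=
  (DSP.eq ht (SP.const 0)).ite ((h.sl hg ht hu true).ell (h.sl hg ht hu false))
    ((h.sl hg ht hu true).l.min (h.sl hg ht hu false).l)

theorem win (h : InSP c Bu) (hx : SP Bu x) (hy : SP Bu y) (hi : SP Bu i) :
    SP Bu fun z => (c z).win (x z) (y z) (i z) :=
  sp_mod_two_pow (hx.div_pow (SP.const 2) (hy.min ((SP.const 2).mul h.m)))
    (hi.min ((SP.const 2).mul h.m))

theorem val (h : InSP c Bu) (he : SP Bu e) (d : Bool) (hx : SP Bu x) :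
    SP Bu fun z => Pr.val (c z).F (e z) d (x z) :=
  sp_xor (h.F.comp (SP.id.pair (sp_xor hx (sp_app he _)))) (sp_app he _)

theorem tst (h : InSP c Bu) (hk : SP Bu k) (hg : SP Bu g) (ht : SP Bu ty) (hu : SP Bu u)
    (he : SP Bu e) (d : Bool) (hx : SP Bu x) :
    DSP Bu fun z => (c z).tst (c z).F (k z) (g z) (ty z) (u z) (e z) d (x z) :=
  ((h.sn d hk hx).eq (h.sl hg ht hu d)).and
    (((h.sl hg ht hu true).ft (h.sl hg ht hu false)).and
    ((DSP.le ((h.sl hg ht hu true).gap' (h.sl hg ht hu false)) ((SP.const B).mul hg)).and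
    ((((h.sl hg ht hu true).mrg true).iff (DSP.ne ht (SP.const 0))).and
    ((DSP.eq (h.win (h.val he d hx) (h.lw hg ht hu)
      (((h.sl hg ht hu true).ell' (h.sl hg ht hu false)).sub (h.lw hg ht hu)))
      (sp_fld (h.fw hg ht) hu (SP.const 11))).and
    ((DSP.ne ht (SP.const 0)).imp (DSP.eq (h.win (h.val he d hx) ((SP.const B).mul h.K)
      ((SP.const cc).mul hg)) (sp_fld (h.fw hg ht) hu (SP.const 12))))))))

theorem pe (h : InSP c Bu) (hq : SP Bu q) (hs : SP Bu s) : SP Bu fun z => (c z).pe (q z) (s z) :=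
  sp_lift hs (h.ent ((h.kq hq).sub (SP.const 1))
    (fun _ => (Nat.sub_le _ _).trans (min_le_right _ _)) (h.gq hq) (fun _ => min_le_right _ _)
    (sp_tyq hq) (sp_app hq .u) (sp_env hs))

theorem pf (h : InSP c Bu) (hq : SP Bu q) (hs : SP Bu s) :
    SP Bu fun z => (c z).pf (q z) (s z) := by
  have h1 := fun d => h.dt ((h.kq hq).sub (SP.const 1))
    (fun _ => (Nat.sub_le _ _).trans (min_le_right _ _)) (h.gq hq) (sp_tyq hq) (sp_app hq .u) d
  exact sp_update .pos (h.pe hq hs) (sp_xor (sp_app hs .pos) (sp_xor (h1 true) (h1 false)))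

theorem swA (h : InSP c Bu) (d : Bool) (hx : SP Bu x) (hy : SP Bu y) :
    SP Bu fun z => sw d (c z).A0 (x z) (y z) := by
  cases d
  · exact h.A0.comp (SP.id.pair (hy.pair hx))
  · exact h.A0.comp (SP.id.pair (hx.pair hy))

theorem adj (h : InSP c Bu) (d : Bool) (hx : SP Bu x) (hy : SP Bu y) :
    DSP Bu fun z => (c z).adj d (x z) (y z) :=
  (DSP.lt hx h.N).and ((DSP.lt hy h.N).and (DSP.ne (h.swA d hx hy) (SP.const 0)))

theorem rk (h : InSP c Bu) (d : Bool) (hx : SP Bu x) (hy : SP Bu y) :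
    SP Bu fun z => (c z).rk d (x z) (y z) :=
  SP.sum_range (f := fun z f => if (c z).adj d (x z) f then 1 else 0) hy
    (((h.comp SP.fst').adj d (hx.comp SP.fst') SP.snd').ite (SP.const 1) (SP.const 0))

theorem nb (h : InSP c Bu) (d : Bool) (hx : SP Bu x) (hi : SP Bu i) :
    SP Bu fun z => (c z).nb d (x z) (i z) :=
  SP.sum_range (f := fun z f => if (c z).adj d (x z) f ∧ (c z).rk d (x z) f = i z then f else 0) h.N
    ((((h.comp SP.fst').adj d (hx.comp SP.fst') SP.snd').and (DSP.eq ((h.comp SP.fst').rk d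
      (hx.comp SP.fst') SP.snd') (hi.comp SP.fst'))).ite SP.snd' (SP.const 0))

theorem en0 (h : InSP c Bu) (d : Bool) (hu : SP Bu u) (hx : SP Bu x) :
    SP Bu fun z => (c z).en0 d (u z) (x z) := h.nb d hx (sp_bt hu (SP.const _))

theorem dom0 (h : InSP c Bu) (d : Bool) (hu : SP Bu u) (hx : SP Bu x) :
    DSP Bu fun z => (c z).dom0 d (u z) (x z) :=
  (h.adj d hx (h.en0 d hu hx)).and
    ((DSP.eq (h.rk d hx (h.en0 d hu hx)) (sp_bt hu (SP.const _))).and
      (DSP.eq (h.rk (!d) (h.en0 d hu hx) hx) (sp_bt hu (SP.const _))))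

theorem ok0 (h : InSP c Bu) (hg : SP Bu g) (ht : SP Bu ty) (he : SP Bu e) (d : Bool) (hu : SP Bu u)
    (hx : SP Bu x) : DSP Bu fun z => (c z).ok0 (c z).F (g z) (ty z) (e z) d (u z) (x z) :=
  (DSP.ne ht (SP.const 0)).and ((h.dom0 d hu hx).and
    (DSP.eq (h.win (h.val he d hx) ((SP.const B).mul h.K) ((SP.const cc).mul hg))
      (h.win (h.val he (!d) (h.en0 d hu hx)) ((SP.const B).mul h.K) ((SP.const cc).mul hg))))

end InSP

end Vale.Agent.P313.NL2
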