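import Vale.Agent.P313.NL2.Ideal
import Vale.Agent.P313.NL2.Gad

/-! The tables with short labels: registers, raw candidates, the recursion over the levels. -/

namespace Vale.Agent.P313.NL2

open Finset Function Vale.Agent.P313.Hi Vale.Agent.P313.NL Vale.Agent.P313.KH

/-- The registers: `(r, false)` is the shift of the names, `(r, true)` the shift of the values;
`r = 0`: source, `r = 1`: target, `r = 2`: midpoint. -/
abbrev Ix : Type := Fin 3 × Bool

/-- The contents of the registers. -/
abbrev Env : Type := Ix → ℕ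

/-- Add `v` to the register `i`. -/
def xr (e : Env) (i : Ix) (v : ℕ) : Env := update e i (e i ^^^ v)

/-- The role of the end `d`. -/
def rl (d : Bool) : Fin 3 := bif d then 0 else 1

/-- The registers for the half of a path at the end `b`: the midpoint is the other end. -/
def hf (b : Bool) (e : Env) : Env := fun i => e (Equiv.swap (rl !b) 2 i.1, i.2)

/-- The field number `i` of width `w`. -/
def fld (w u i : ℕ) : ℕ := u / 2 ^ (w * i) % 2 ^ w

/-- The signature of the end `d` in a raw label. -/
def sgOf (w u : ℕ) (d : Bool) : Sg :=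
  ⟨fld w u (5 * rl d), fld w u (5 * rl d + 1), decide (fld w u (5 * rl d + 2) = 1),
    fld w u (5 * rl d + 3), fld w u (5 * rl d + 4)⟩

/-- Raw candidates: a strength and the other end. -/
structure Raw where
  ps : Bool → ℕ → ℕ → ℝ
  en : Bool → ℕ → ℕ → ℕ

namespace Pr

variable (p : Pr) (F : ℕ → ℕ)

/-- The number of bits of a modulus. -/
def wl : ℕ := 3 * p.lk + 4

/-- The bound for the moduli. -/
def W : ℕ := 2 ^ p.wl

/-- The number of labels. -/
def NL : ℕ := p.W ^ 3

/-- The width of a field of a raw label; `ty = 1`: new entries, `ty = 0`: old entries. -/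
noncomputable def fw (g ty : ℕ) : ℕ := 3 * p.wl + ty * (cc * (g + 1))

/-- The number of raw labels. -/
noncomputable def nl (g ty : ℕ) : ℕ := 2 ^ (15 * p.fw g ty)

/-- The registers are in their ranges. -/
def EOk (e : Env) : Prop := ∀ r, e (r, false) < p.n p.K ∧ e (r, true) < 2 ^ (2 * p.m)

/-- The hash value of the name `x` at the end `d`. -/
def val (e : Env) (d : Bool) (x : ℕ) : ℕ := F (x ^^^ e (rl d, false)) ^^^ e (rl d, true)

/-- The pair is an entry and the hash values match. -/
def Rel (k g : ℕ) (e : Env) (x y : ℕ) : Prop :=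
  p.st k g x y ∧ Ag (p.Q k g x y) (val F e true x) (val F e false y)

open Classical in
/-- The type of the entries at the end `d` of a name. -/
noncomputable def typ (d : Bool) (k x : ℕ) : ℕ := if p.new d k x then 1 else 0

/-- A window of bits. -/
def win (v lo len : ℕ) : ℕ := v / 2 ^ min lo (2 * p.m) % 2 ^ min len (2 * p.m)

/-- The candidates of the gadget. -/
noncomputable def cand (k g ty : ℕ) (R : Raw) : Cand :=
  ⟨p.n k, p.nl g ty, fun d u x => R.ps d u x * rp 2 (sw d (p.tau k g) x (R.en d u x)), R.en⟩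

section level

variable (k : ℕ) (R : ℕ → ℕ → Env → Raw) (g : ℕ) (e : Env) (d : Bool) (lab x : ℕ)

/-- The candidates at the name `x`. -/
noncomputable def cAt : Cand := p.cand k g (p.typ d k x) (R g (p.typ d k x) e)

/-- The quality of a label. -/
noncomputable def lq : ℝ := (p.cAt k R g e d x).q p.W d lab x

/-- The other end of a label. -/
noncomputable def lp : ℕ := (p.cAt k R g e d x).pt p.W d lab x

/-- The normalised quality of a label. -/
noncomputable def lo : ℝ := (p.cAt k R g e d x).om p.W d lab x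

end level

/-! ### The level `0` -/

/-- There is an edge. -/
def adj (d : Bool) (x f : ℕ) : Prop := x < p.N ∧ f < p.N ∧ sw d p.A0 x f ≠ 0

instance (d : Bool) (x f : ℕ) : Decidable (p.adj d x f) := by
  unfold adj
  infer_instance

/-- The rank of `f` among the neighbours of `x`. -/
def rk (d : Bool) (x f : ℕ) : ℕ := ∑ f' ∈ range f, if p.adj d x f' then 1 else 0

/-- The neighbour with the rank `i`. -/
def nb (d : Bool) (x i : ℕ) : ℕ := ∑ f ∈ range p.N, if p.adj d x f ∧ p.rk d x f = i then f else 0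

/-- The other end on the level `0`. -/
def en0 (d : Bool) (u x : ℕ) : ℕ := p.nb d x (bt u (rl d))

/-- The domain of the move on the level `0`. -/
def dom0 (d : Bool) (u x : ℕ) : Prop := p.adj d x (p.en0 d u x) ∧
  p.rk d x (p.en0 d u x) = bt u (rl d) ∧ p.rk (!d) (p.en0 d u x) x = bt u (rl !d)

/-- The test on the level `0`. -/
def ok0 (g ty : ℕ) (e : Env) (d : Bool) (u x : ℕ) : Prop := ty ≠ 0 ∧ p.dom0 d u x ∧
  p.win (val F e d x) (B * p.K) (cc * g) = p.win (val F e (!d) (p.en0 d u x)) (B * p.K) (cc * g)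

open Classical in
/-- The raw candidates on the level `0`. -/
noncomputable def raw0 (g ty : ℕ) (e : Env) : Raw :=
  ⟨fun d u x => if p.ok0 F g ty e d u x then 1 else 0, p.en0⟩

/-! ### The level `k + 1` -/

section step

variable (k g ty u : ℕ)

/-- The signature of the end `d`. -/
noncomputable def sl (d : Bool) : Sg := sgOf (p.fw g ty) u d

/-- The new digit of the end `d`, in its place. -/
noncomputable def dt (d : Bool) : ℕ := p.n k * ((p.sl g ty u d).c % 2 ^ a)

/-- The wildcard bits. -/
noncomputable def wc : ℕ := if ty = 0 then fld (p.fw g ty) u 10 % 2 ^ cc * 2 ^ (B * p.K + cc * g)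
  else fld (p.fw g ty) u 10 % 2 ^ (2 * p.m)

/-- The registers for the level below. -/
noncomputable def ent (e : Env) : Env :=
  xr (xr (xr e (0, false) (p.dt k g ty u true)) (1, false) (p.dt k g ty u false))
    (if ty = 0 then (1, true) else (2, true)) (p.wc g ty u)

/-- The label for the level below (`b`: the half of the path). -/
noncomputable def lb (b : Bool) : ℕ := fld (p.fw g ty) u (13 + rl b) % p.NL

/-- The lowest position which has to be compared. -/
noncomputable def lw : ℕ := if ty = 0 then (p.sl g ty u true).ell (p.sl g ty u false)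
  else min (p.sl g ty u true).l (p.sl g ty u false).l

/-- The tests at the end `d`. -/
def tst (e : Env) (d : Bool) (x : ℕ) : Prop :=
  p.sn d k x = p.sl g ty u d ∧ (p.sl g ty u true).ft (p.sl g ty u false) ∧
    (p.sl g ty u true).gap' (p.sl g ty u false) ≤ B * g ∧ ((p.sl g ty u true).mrg true ↔ ty ≠ 0) ∧
    p.win (val F e d x) (p.lw g ty u)
      ((p.sl g ty u true).ell' (p.sl g ty u false) - p.lw g ty u) = fld (p.fw g ty) u 11 ∧
    (ty ≠ 0 → p.win (val F e d x) (B * p.K) (cc * g) = fld (p.fw g ty) u 12)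

variable (R : ℕ → ℕ → Env → Raw) (e : Env) (d : Bool) (x : ℕ)

/-- The other end of an old entry. -/
noncomputable def enU : ℕ :=
  p.lp k R (g + 1) (p.ent k g 0 u e) d (p.lb g 0 u true) (x % p.n k) + p.dt k g 0 u (!d)

/-- The midpoint of a path. -/
noncomputable def miM : ℕ :=
  p.lp k R 0 (hf d (p.ent k g 1 u e)) d (p.lb g 1 u d) (x % p.n k)

/-- The other end of a path. -/
noncomputable def enM : ℕ :=
  p.lp k R 0 (hf (!d) (p.ent k g 1 u e)) d (p.lb g 1 u (!d)) (p.miM k g u R e d x) +
    p.dt k g 1 u (!d)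

end step

open Classical in
/-- The raw candidates for old entries. -/
noncomputable def rawU (k : ℕ) (R : ℕ → ℕ → Env → Raw) (g : ℕ) (e : Env) : Raw :=
  ⟨fun d u x => (if p.tst F k g 0 u e d x then 1 else 0) *
      p.lq k R (g + 1) (p.ent k g 0 u e) d (p.lb g 0 u true) (x % p.n k) *
      if p.tst F k g 0 u e (!d) (p.enU k g u R e d x) then 1 else 0,
    fun d u x => p.enU k g u R e d x⟩

open Classical in
/-- The raw candidates for merged entries. -/
noncomputable def rawM (k : ℕ) (R : ℕ → ℕ → Env → Raw) (g : ℕ) (e : Env) : Raw :=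
  ⟨fun d u x => (if p.tst F k g 1 u e d x then 1 else 0) *
      (p.lq k R 0 (hf d (p.ent k g 1 u e)) d (p.lb g 1 u d) (x % p.n k) *
        p.lq k R 0 (hf (!d) (p.ent k g 1 u e)) d (p.lb g 1 u (!d)) (p.miM k g u R e d x)) *
      if p.tst F k g 1 u e (!d) (p.enM k g u R e d x) then 1 else 0,
    fun d u x => p.enM k g u R e d x⟩

/-- The raw candidates of all levels. -/
noncomputable def raw : ℕ → ℕ → ℕ → Env → Raw
  | 0, g, ty, e => p.raw0 F g ty e
  | k + 1, g, ty, e => if ty = 0 then p.rawU F k (raw k) g e else p.rawM F k (raw k) g e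

/-- The quality of a label. -/
noncomputable abbrev tq (k : ℕ) : ℕ → Env → Bool → ℕ → ℕ → ℝ := p.lq k (p.raw F k)

/-- The other end of a label. -/
noncomputable abbrev tp (k : ℕ) : ℕ → Env → Bool → ℕ → ℕ → ℕ := p.lp k (p.raw F k)

/-- The normalised quality of a label. -/
noncomputable abbrev tom (k : ℕ) : ℕ → Env → Bool → ℕ → ℕ → ℝ := p.lo k (p.raw F k)

/-- What the raw candidates of the type `ty` satisfy. -/
structure RawOk (k g ty : ℕ) (e : Env) (R : Raw) : Prop where
  nonneg : ∀ d u x, 0 ≤ R.ps d u x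
  le_one : ∀ d u x, R.ps d u x ≤ 1
  snd : ∀ d u, ∀ x < p.n k, R.ps d u x ≠ 0 → sw d (p.Rel F k g e) x (R.en d u x) ∧
    p.typ d k x = ty ∧ R.en (!d) u (R.en d u x) = x
  cmp : ∀ x y, p.Rel F k g e x y → p.typ true k x = ty → 3 / 4 ≤ p.tau k g x y →
    ∃ u < p.nl g ty, R.ps true u x = 1 ∧ R.ps false u y = 1 ∧ R.en true u x = y

open Classical in
/-- What the labels of a level satisfy. -/
structure TabOk (k g : ℕ) (e : Env) : Prop where
  q_mem : ∀ d l x, 0 ≤ p.tq F k g e d l x ∧ p.tq F k g e d l x ≤ 1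
  o_mem : ∀ d l x, 0 ≤ p.tom F k g e d l x ∧ p.tom F k g e d l x ≤ 1
  q_of_o : ∀ d l x, p.tom F k g e d l x ≠ 0 → p.tq F k g e d l x ≠ 0
  snd : ∀ d l, ∀ x < p.n k, p.tq F k g e d l x ≠ 0 →
    sw d (p.Rel F k g e) x (p.tp F k g e d l x) ∧ p.tp F k g e (!d) l (p.tp F k g e d l x) = x
  cmp : ∀ x y, p.Rel F k g e x y → 3 / 4 ≤ p.tau k g x y → ∃ l < p.NL,
    p.tq F k g e true l x = 1 ∧ p.tq F k g e false l y = 1 ∧ p.tp F k g e true l x = y
  sum : ∀ d, ∀ x < p.n k, ∀ G : ℕ → ℝ, (∀ y, G y ≠ 0 → 3 / 4 ≤ sw d (p.tau k g) x y) →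
    ∑ l ∈ range p.NL, p.tom F k g e d l x * G (p.tp F k g e d l x) =
      ∑ y ∈ range (p.n k), if sw d (p.Rel F k g e) x y then G y else 0

/-- The hypotheses on the hash function. -/
structure Gd : Prop extends p.OK, p.Good F where
  hF : ∀ x, F x < 2 ^ (2 * p.m)

end Pr

end Vale.Agent.P313.NL2
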