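import Vale.Agent.P313.NL2.WFb

/-! The structural conditions for the program with short labels. -/

namespace Vale.Agent.P313.NL2

open Finset Function Vale.Agent.P313.Hi Vale.Agent.P313.Full.Tm

variable {α : Type} {c : α → In} {a : α}

namespace WF

variable {q : Cx} {w p r : ℕ} {d b : Bool} {e : Tr α}

/-- A node of a procedure with a type and a rank `r`. -/
structure Ty (c : α → In) (a : α) (q : Cx) (w r p : ℕ) : Prop extends Cq c a q w where
  w_eq : w = (c a).fw (q .g) (q .ty)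
  pot : (c a).pb (q .k) (q .g) (q .ty) + r * (cD * w) ≤ p

/-- A node from which the level below can be called at the age `0`. -/
structure Lo (c : α → In) (a : α) (q : Cx) (w p : ℕ) : Prop extends Cq c a q w where
  pos : q .k ≠ 0
  pot : (c a).pt (jT c a q) 0 + cD * w ≤ p

namespace Lo

variable (h : Lo c a q w p) {l : α → Cx → ℕ}
include h

theorem le : jT c a q ≤ (c a).K := by
  have := h.kg
  rw [jT, h.kq]
  omega

theorem upd {x : Cr} {v : ℕ} (hx : Cr.k ≠ x) (h' : Cq c a (update q x v) w) :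
    Lo c a (update q x v) w p :=
  ⟨h', by simpa [update_of_ne hx] using h.pos, by simpa [jT, Pr.kq, update_of_ne hx] using h.pot⟩

theorem hM (hl : l a q < (c a).NL) : (prog c).Str a (32 * w) p (hM c b l) q true :=
  ⟨rfl, Full.Pg.str_inv inv_hf, rfl, h.aT' (t := .MV) (by simp [Pn.rank]) h.le hl h.pot,
    Full.Pg.str_inv inv_hf⟩

theorem hH : (prog c).Str a (32 * w) p (cN (.HH d) (jT c) z0 z0) q false := h.hH' h.le h.pot

theorem fcT : (prog c).Str a (32 * w) p (fcT c d) q false :=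
  have := h.big
  h.app (fun _ => bl_fac _ _) (by omega) (by omega) h.hH h.hH

theorem mdT : (prog c).Str a (32 * w) p (mdT c) q false :=
  have := h.big
  ⟨rfl, Full.Pg.str_tst _, h.app (fun _ => bl_uns) (by omega) (by omega) h.hH h.hH⟩

theorem smT {x : Cr} (hx : q x = 0) (h1 : ∀ l < (c a).NL, Lo c a (update q x l) w p ∧
    (prog c).Str a (32 * w) p e (update q x l) false) :
    (prog c).Str a (32 * w) p (smT c d b x e) q false :=
  h.smL hx fun l hl =>
    have h2 := (h1 l hl).1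
    have h3 : vr x a (update q x l) < (c a).NL := by simpa [vr] using hl
    ⟨rfl, str_inH (h2.aT' (t := .Go d) (by simp [Pn.rank]) h2.le h3 h2.pot), rfl,
      str_inH (h2.rwT h2.le h3 h2.pot), rfl, h2.hM h3, (h1 l hl).2⟩

end Lo

theorem lT_lt : lT c b a q < (c a).NL := Nat.mod_lt _ (NL_pos _)

namespace Ty

variable (h : Ty c a q w r p)
include h

theorem nl_eq : nlT c a q = 2 ^ (15 * w) := by rw [nlT, h.gq, h.tq, h.w_eq, Pr.nl]

theorem nl_le : (nlT c a q : ℝ) ≤ 2 ^ (15 * w) := by exact_mod_cast h.nl_eq.le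

theorem upd {u : ℕ} (hu : u < nlT c a q) : Ty c a (update q .u u) w r p :=
  ⟨⟨h.ok, by simpa using h.kg, by simpa using h.ty, by simpa using h.lab, by simpa using h.x1,
    by simpa using h.x2, by simpa [nlT, h.gq, h.tq] using hu, by simpa [h.nl_eq] using hu, h.w3⟩,
    by simpa using h.w_eq, by simpa using h.pot⟩

theorem upd1 {l : ℕ} (hl : l < (c a).NL) : Ty c a (update q .x1 l) w r p :=
  ⟨h.x1' hl, by simpa using h.w_eq, by simpa using h.pot⟩

theorem lo (hr : 1 ≤ r) (hk : q .k ≠ 0) : Lo c a q w p := by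
  refine ⟨h.toCq, hk, le_trans ?_ h.pot⟩
  rw [jT, h.kq]
  exact add_le_add (pt_le_pb hk _ _) (Nat.le_mul_of_pos_left _ hr)

theorem old (hr : 1 ≤ r) (hk : q .k ≠ 0) (ht : q .ty = 0) : jT c a q + g1 c a q ≤ (c a).K ∧
    (c a).pt (jT c a q) (g1 c a q) + cD * w ≤ p := by
  have h1 := h.kg
  rw [jT, g1, h.kq, h.gq]
  refine ⟨by omega, le_trans ?_ h.pot⟩
  rw [ht, pb_old hk]
  exact Nat.add_le_add_left (Nat.le_mul_of_pos_left _ hr) _

theorem wide (ht : q .ty ≠ 0) : 3 * (c a).wl + cc * (gT c a q + 1) = w := by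
  have h1 := h.ty
  rw [h.w_eq, Pr.fw, show q .ty = 1 by omega, one_mul, gT, h.gq]

theorem same {t : Pn} (h0 : t.rank ≠ 0) (h1 : t.rank < r) (l u : ℕ) :
    (prog c).pot t a (NL2.mk (q .k) (q .g) (q .ty) l u 0 0) + cD * w ≤ p := by
  rw [pot_typ (q := NL2.mk (q .k) (q .g) (q .ty) l u 0 0) h0 h.kg h.ty]
  refine le_trans ?_ h.pot
  rw [h.w_eq, add_assoc]
  exact Nat.add_le_add_left ((Nat.succ_mul _ _).ge.trans (Nat.mul_le_mul_right _ h1)) _

theorem cR (t : Pn) (h0 : t.rank ≠ 0) (h1 : t.rank < r) (h2 : t.rank < 5) :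
    (prog c).Str a (32 * w) p (cR t) q ((prog c).mvp t) :=
  h.cal (adm_typ h0 h.kg h.ty (NL_pos _) h.u fun h3 => absurd h2 (not_lt.2 h3)) h.u'
    (h.same h0 h1 _ _)

theorem cG (t : Pn) {x : Cr} (hx : q x < (c a).NL) (h0 : t.rank ≠ 0) (h1 : t.rank < r) :
    (prog c).Str a (32 * w) p (cG t x) q ((prog c).mvp t) :=
  h.cal (adm_typ h0 h.kg h.ty hx (Nat.two_pow_pos _) fun _ => rfl) (Nat.two_pow_pos _)
    (h.same h0 h1 _ _)

theorem rm (hr : 2 ≤ r) : (prog c).Str a (32 * w) p (NL2.cR .RM) q true :=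
  h.cR .RM one_ne_zero hr (by simp [Pn.rank])

theorem rf (hr : 5 ≤ r) (i : ℝ) :
    (prog c).Str a (32 * w) p (NL2.fn (rp i) (NL2.cR (.RF d))) q false :=
  h.fn ((bl_rp i).mono zero_le_one le_rfl) (h.cR (.RF d) (by simp [Pn.rank]) hr (by simp [Pn.rank]))

theorem inE (hk : q .k ≠ 0) (he : (prog c).Str a (32 * w) p e q false) :
    (prog c).Str a (32 * w) p (inE c e) q false := Full.Pg.str_aft (h.inv_pe hk) he

theorem ccT (hr : 2 ≤ r) (hk : q .k ≠ 0) : (prog c).Str a (32 * w) p (ccT c d) q false :=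
  ⟨rfl, (h.lo (by omega) hk).fcT, rfl, h.rm hr, (h.lo (by omega) hk).fcT⟩

theorem xT (hr : 2 ≤ r) (hk : q .k ≠ 0) (h1 : q .x1 = 0) (h2 : q .x2 = 0) :
    (prog c).Str a (32 * w) p (xT c d) q false := by
  have h3 := h.lo (by omega) hk
  refine ⟨rfl, ok_vR rfl, rfl, ⟨rfl, h.rm hr, str_chT⟩, h.inE hk ⟨rfl, ok_vR rfl,
    h3.smT h1 fun l hl => ?_⟩⟩
  have h4 := h3.upd (by simp) (h.x1' hl)
  exact ⟨h4, rfl, h4.mdT, h4.smT (by simpa using h2) fun l' hl' =>
    ⟨h4.upd (by simp) (h4.x2' hl'), str_chT⟩⟩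

theorem smU (hu : q .u = 0) (he : ∀ q', Ty c a q' w r p → (prog c).Str a (32 * w) p e q' false) :
    (prog c).Str a (32 * w) p (.sum (nlT c) .u e) q false :=
  ⟨rfl, hu, h.nl_eq.le.trans (Nat.pow_le_pow_right two_pos (by omega)), fun _ hu' =>
    he _ (h.upd hu')⟩

theorem yT (hr : 5 ≤ r) (hu : q .u = 0) (he : ∀ q', (prog c).Str a (32 * w) p e q' false) :
    (prog c).Str a (32 * w) p (yT c d e) q false :=
  h.smU hu fun q' h' => ⟨rfl, h'.rf hr 1, rfl, h'.rm (by omega), rfl, Full.Pg.str_tst _, he q'⟩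

theorem dnT (hr : 6 ≤ r) (i : ℝ) : (prog c).Str a (32 * w) p (dnT i d) q false :=
  h.fn ((bl_dn i).mono zero_le_one one_le_two) (h.cG (.GQ d) h.lab (by simp [Pn.rank]) hr)

theorem fT (hr : 6 ≤ r) : (prog c).Str a (32 * w) p (fT c d) q false :=
  ⟨rfl, h.dnT hr 2, rfl, h.rf (by omega) 2, rfl, h.rm (by omega), Full.Pg.str_tst _⟩

theorem rat (hr : 6 ≤ r) (hu : q .u = 0) (t : Pn) (h0 : t.rank ≠ 0) (h2 : t.rank < 5)
    (hm : (prog c).mvp t = false) : (prog c).Str a (32 * w) p (rat c d t) q false :=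
  have := h.big
  h.app (fun _ => bl_rat (Nat.cast_nonneg _) h.nl_le) (by omega) (by omega)
    (h.smU hu fun _ h' => ⟨rfl, h'.fT hr, hm ▸ h'.cR t h0 (by omega) h2⟩)
    (h.smU hu fun _ h' => h'.fT hr)

end Ty

theorem bl_cl : BL 1 2 fun x _ => cl x := Lz.fst.tcl.mono zero_le_one (by omega)

theorem str_RM (h : Ty c a q w 1 p) : (prog c).Str a (32 * w) p (bRM c) q true :=
  str_if0 (fun _ => str_mv0 h.ok) fun hk => ⟨rfl, Full.Pg.str_inv (h.inv_pe hk), rfl,
    str_ifU (fun ht => h.aT' (t := .MV) (by simp [Pn.rank]) (h.old le_rfl hk ht).1 lT_lt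
      (h.old le_rfl hk ht).2) fun _ => ⟨rfl, (h.lo le_rfl hk).hM lT_lt, (h.lo le_rfl hk).hM lT_lt⟩,
    Full.Pg.str_inv (h.inv_pf hk)⟩

theorem str_PS (h : Ty c a q w 2 p) : (prog c).Str a (32 * w) p (bPS c d) q false := by
  refine str_if0 (fun _ => Full.Pg.str_tst _) fun hk => ⟨rfl, ⟨rfl, Full.Pg.str_tst _, h.inE hk
    (str_ifU (fun ht => h.aT' (t := .Gq d) (by simp [Pn.rank]) (h.old one_le_two hk ht).1 lT_lt
      (h.old one_le_two hk ht).2) fun _ => ?_)⟩, rfl, h.rm le_rfl, Full.Pg.str_tst _⟩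
  have h1 := h.lo one_le_two hk
  exact ⟨rfl, str_inH (h1.aT' (t := .Gq d) (by simp [Pn.rank]) h1.le lT_lt h1.pot), rfl,
    h1.hM lT_lt, str_inH (h1.aT' (t := .Gq d) (by simp [Pn.rank]) h1.le lT_lt h1.pot)⟩

theorem abs_cl' (t : ℝ) (n : ℕ) : |cl t| ≤ 2 ^ n :=
  (abs_unit (cl_nonneg t) (cl_le_one t)).trans (pmono (Nat.zero_le n))

theorem str_RW (h : Ty c a q w 2 p) (h1 : q .x1 = 0) (h2 : q .x2 = 0) :
    (prog c).Str a (32 * w) p (bRW c d) q false := by
  have := h.big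
  refine str_if0 (fun _ => ⟨rfl, fun _ _ => abs_cl' _ _⟩) fun hk => str_ifU (fun ht =>
    h.app (fun _ => bl_wU _ _) (by omega) (by omega) (h.inE hk (h.aT' (t := .GW d)
      (by simp [Pn.rank]) (h.old one_le_two hk ht).1 lT_lt (h.old one_le_two hk ht).2))
      (h.ccT le_rfl hk)) fun ht => h.app (fun _ => bl_wM (j := w + w) _ _ _ (by positivity) ?_)
        (by omega) ?_ (h.xT le_rfl hk h1 h2) (h.ccT le_rfl hk)
  · rw [sq, pow_add]
    exact_mod_cast Nat.mul_le_mul h.NL_le h.NL_le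
  · have h3 := h.wide ht
    have h4 := Nat.mul_le_mul_right (gT c a q + 1) (show B ≤ cc by unfold cc; omega)
    omega

theorem str_RT (h : Ty c a q w 3 p) : (prog c).Str a (32 * w) p (bRT c d) q false := by
  refine str_ifU (fun ht => str_if0 (fun _ => Full.Pg.str_cst (by simp)) fun hk => h.inE hk
    (h.sG (h.old (by omega) hk ht).1 lT_lt (h.old (by omega) hk ht).2)) fun ht =>
      h.app (fun _ => bl_r0 _) (by omega) ?_
        (h.cR (.RW d) (by simp [Pn.rank]) (by simp [Pn.rank]) (by simp [Pn.rank]))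
        (Full.Pg.str_cst (by simp))
  have h3 := h.wide ht
  have h4 := Nat.mul_le_mul (show B + 2 ≤ cc by unfold cc; omega) (Nat.le_succ (gT c a q))
  have := h.big
  simp only [Nat.succ_eq_add_one] at h4
  omega

theorem str_RF (h : Ty c a q w 4 p) : (prog c).Str a (32 * w) p (bRF d) q false :=
  ⟨rfl, h.cR (.PS d) (by simp [Pn.rank]) (by simp [Pn.rank]) (by simp [Pn.rank]),
    h.fn ((bl_rp 2).mono zero_le_one le_rfl)
      (h.cR (.RT d) (by simp [Pn.rank]) (by simp [Pn.rank]) (by simp [Pn.rank]))⟩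

theorem str_GQ (h : Ty c a q w 5 p) (hu : q .u = 0) :
    (prog c).Str a (32 * w) p (bGQ c d) q false :=
  have := h.big
  h.app (fun _ => bl_gq (Nat.cast_nonneg _) h.nl_le) (by omega) (by omega)
    (h.yT le_rfl hu fun _ => Full.Pg.str_cst (by simp)) ⟨rfl, ok_vR rfl,
      h.app (fun _ => bl_sq (Nat.cast_nonneg _) h.nl_le) (by omega) (by omega)
        (h.yT le_rfl hu fun _ => str_chT) (Full.Pg.str_cst (by simp))⟩

theorem str_Gq (h : Ty c a q w 6 p) (hu : q .u = 0) :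
    (prog c).Str a (32 * w) p (bGq c d) q false :=
  ⟨rfl, Full.Pg.str_tst _, rfl, h.dnT le_rfl 1, h.fn bl_cl (h.smU hu fun _ h' =>
    ⟨rfl, h'.rf (by omega) 3, rfl, h'.rm (by omega), rfl, Full.Pg.str_tst _, rfl, h'.dnT le_rfl 1,
      h'.rf (by omega) 3⟩)⟩

theorem str_MV (h : Ty c a q w 6 p) (hu : q .u = 0) : (prog c).Str a (32 * w) p (bMV c) q true :=
  ⟨rfl, hu, h.nl_eq.le.trans (Nat.pow_le_pow_right two_pos (by omega)), ok_vO, fun _ hu' =>
    ⟨(h.upd hu').fT le_rfl, (h.upd hu').fT le_rfl, (h.upd hu').rm (by omega)⟩⟩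

theorem str_Go (h : Ty c a q w 7 p) (h1 : q .x1 = 0) :
    (prog c).Str a (32 * w) p (bGo c d) q false :=
  ⟨rfl, h.cG (.Gq d) h.lab (by simp [Pn.rank]) (by simp [Pn.rank]),
    h.fn (Lz.fst.tinv.mono zero_le_one (by omega)) (h.smL h1 fun _ hl =>
      ⟨rfl, ⟨rfl, (h.upd1 hl).cG .MV (h.upd1 hl).lab (by simp [Pn.rank]) (by simp [Pn.rank]),
        Full.Pg.str_tst _⟩,
        (h.upd1 hl).cG (.Gq d) (h.upd1 hl).x1 (by simp [Pn.rank]) (by simp [Pn.rank])⟩)⟩

/-- A node of a procedure without a type. -/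
structure Un (c : α → In) (a : α) (q : Cx) (w p : ℕ) : Prop extends Cq c a q w where
  w_eq : w = (c a).fw (q .g) (tI (q .g))
  pot : (c a).pm (q .k) (q .g) + cD * w ≤ p

namespace Un

variable (h : Un c a q w p)
include h

theorem upd {l : ℕ} (hl : l < (c a).NL) : Un c a (update q .lab l) w p :=
  ⟨h.lab' hl, by simpa using h.w_eq, by simpa using h.pot⟩

theorem le : kT c a q + gT c a q ≤ (c a).K := by
  rw [kT, gT, h.kq, h.gq]
  exact h.kg

theorem at' {dir : Bool → Bool} (t : Pn) (ht : t.rank ≠ 0) : (prog c).Str a (32 * w) p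
    (NL2.aT c dir t (kT c) (gT c) (vr .lab)) q ((prog c).mvp t) :=
  h.aT ht h.le h.lab (by rw [kT, gT, h.kq, h.gq]; exact h.pot)

theorem twT {φ : ℕ → ℝ → ℝ → ℝ}
    (hφ : ∀ g, BL 0 ((B + 2) * g * tI g + B + 4) fun t w => φ g t (cl w)) :
    (prog c).Str a (32 * w) p (twT c d φ) q false := by
  refine h.app (fun _ => hφ _) (by omega) ?_ (h.at' (.GT d) (by simp [Pn.rank]))
    (h.at' (.GW d) (by simp [Pn.rank]))
  have h1 := h.big
  have h2 := h.w_eq
  have h3 := Nat.mul_le_mul_left (tI (q .g)) (Nat.mul_le_mul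
    (show B + 2 ≤ cc by unfold cc; omega) (Nat.le_succ (q .g)))
  rw [gT, h.gq, mul_comm _ (tI _)]
  simp only [Nat.succ_eq_add_one, Pr.fw] at h2 h3
  omega

end Un

theorem str_HH (h : Un c a q w p) (hl : q .lab = 0) :
    (prog c).Str a (32 * w) p (bHH c d) q false := by
  refine h.app (fun _ => bl_hh) (by omega) (by omega) ⟨rfl, ok_vR rfl, h.smL hl fun l hl' =>
    ⟨rfl, (h.upd hl').at' (.Go d) (by simp [Pn.rank]), (h.upd hl').twT fun g =>
      (bl_muF g).mono le_rfl (by omega)⟩⟩ (str_if0 (fun _ => Full.Pg.str_cst (by simp)) fun hk =>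
        ⟨Full.Pg.str_cst (by simp), h.fn (bl_two.mono le_rfl one_le_two) (h.hH' ?_ ?_)⟩)
  · have := h.kg
    rw [jT, g1, h.kq, h.gq]
    omega
  · rw [jT, g1, h.kq, h.gq, ← pb_old hk]
    exact le_trans (Nat.add_le_add_right ((Nat.le_add_right _ _).trans
      (pb_le h.ok _ _ zero_le_one)) _) h.pot

theorem str_SG (h : Un c a q w p) (hp : (c a).pm (q .k) (q .g) + cD * w + cD * w ≤ p) :
    (prog c).Str a (32 * w) p (bSG c d) q false := by
  have h1 : ∀ d, (prog c).Str a (32 * w) p (fn rd (cN (.HH d) (kT c) (gT c) z0)) q false :=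
    fun d => h.fn (bl_rd.mono zero_le_one le_rfl)
      (h.hH h.le (by rw [kT, gT, h.kq, h.gq, ← h.w_eq]; exact hp))
  exact ⟨rfl, h.twT bl_sgF, rfl, h1 _, rfl, h.at' .MV (by simp [Pn.rank]), h1 _⟩

theorem str_TW (h : Cq c a q w) (hl : q .lab = 0) (hp : (c a).pt (kT c a q) 0 + cD * w ≤ p) :
    (prog c).Str a (32 * w) p (bTW c) q false := by
  refine ⟨rfl, Full.Pg.str_tst _, h.fn bl_cl (h.smL hl fun l hl' => ?_)⟩
  have h1 := h.lab' hl'
  have h2 : (c a).pt (kT c a (update q .lab l)) 0 + cD * w ≤ p := by simpa [kT, Pr.kq] using hp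
  exact ⟨rfl, h1.aT' (t := .Go true) (by simp [Pn.rank]) (min_le_right _ _) h1.lab h2, rfl,
    h1.rwT (min_le_right _ _) h1.lab h2, rfl,
    h1.aT' (t := .MV) (by simp [Pn.rank]) (min_le_right _ _) h1.lab h2, Full.Pg.str_tst _⟩

theorem cq_of (ok : (c a).OK) {t : Pn} (h : (prog c).adm t a q) : Cq c a q (fwT c t a q) := by
  refine ⟨ok, h.1, h.2.1, h.2.2.1, h.2.2.2.2.1 ▸ NL_pos _, h.2.2.2.2.2.1 ▸ NL_pos _, h.2.2.2.1, ?_,
    Nat.le_add_right _ _⟩
  by_cases h0 : t.rank = 0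
  · rw [h.2.2.2.2.2.2.1 (Or.inl h0)]
    exact Nat.two_pow_pos _
  · rw [fwT, if_neg h0, gT, Pr.gq, tyq, min_eq_left h.2.1,
      min_eq_left ((Nat.le_add_left _ _).trans h.1)]
    exact h.2.2.2.1

theorem ty_of (ok : (c a).OK) {t : Pn} (h : (prog c).adm t a q) (h0 : t.rank ≠ 0) :
    Ty c a q (fwT c t a q) t.rank ((prog c).pot t a q) := by
  have h1 : fwT c t a q = (c a).fw (q .g) (q .ty) := by
    rw [fwT, if_neg h0, gT, (cq_of ok h).gq, (cq_of ok h).tq]
  exact ⟨cq_of ok h, h1, by rw [pot_typ h0 h.1 h.2.1, h1]⟩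

theorem le_pot (t : Pn) (h : (prog c).adm t a q) : cD * fwT c t a q ≤ (prog c).pot t a q := by
  by_cases h0 : t.rank = 0
  · cases t with
    | SG d =>
      rw [fw_zero rfl h.1]
      exact (Nat.le_mul_of_pos_left _ two_pos).trans (Nat.le_add_left _ _)
    | HH d => exact Nat.le_add_left _ _
    | TH d => exact Nat.le_add_left _ _
    | TW => exact Nat.le_add_left _ _
    | _ => simp [Pn.rank] at h0
  · have h1 : (prog c).pot t a q =
        (c a).pb (q .k) (q .g) (q .ty) + t.rank * (cD * fwT c t a q) := by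
      cases t <;> first | rfl | exact absurd rfl h0
    rw [h1]
    exact (Nat.le_mul_of_pos_left _ (Nat.pos_of_ne_zero h0)).trans (Nat.le_add_left _ _)

theorem str_body (ok : (c a).OK) (t : Pn) (h : (prog c).adm t a q) :
    (prog c).Str a (32 * fwT c t a q) ((prog c).pot t a q) (body c t) q ((prog c).mvp t) := by
  have h1 := h.2.2.2.2.1
  have h2 := h.2.2.2.2.2.1
  have hu := h.2.2.2.2.2.2.1
  cases t with
  | RM => exact str_RM (ty_of ok h one_ne_zero)
  | PS d => exact str_PS (ty_of ok h two_ne_zero)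
  | RW d => exact str_RW (ty_of ok h two_ne_zero) h1 h2
  | RT d => exact str_RT (ty_of ok h three_ne_zero)
  | RF d => exact str_RF (ty_of ok h four_ne_zero)
  | GQ d => exact str_GQ (ty_of ok h (by simp [Pn.rank])) (hu (Or.inr le_rfl))
  | Gq d => exact str_Gq (ty_of ok h (by simp [Pn.rank])) (hu (by simp [Pn.rank]))
  | MV => exact str_MV (ty_of ok h (by simp [Pn.rank])) (hu (by simp [Pn.rank]))
  | Go d => exact str_Go (ty_of ok h (by simp [Pn.rank])) h1
  | GW d =>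
    exact (ty_of ok h (by simp [Pn.rank])).rat le_rfl (hu (by simp [Pn.rank])) (.RW d)
      two_ne_zero (by simp [Pn.rank]) rfl
  | GT d =>
    exact (ty_of ok h (by simp [Pn.rank])).rat le_rfl (hu (by simp [Pn.rank])) (.RT d)
      three_ne_zero (by simp [Pn.rank]) rfl
  | SG d =>
    have h3 : (c a).pm (q .k) (q .g) + cD * fwT c (.SG d) a q + cD * fwT c (.SG d) a q ≤
        (c a).pt (q .k) (q .g) := by
      rw [fw_zero rfl h.1, Pr.pt]
      omega
    exact str_SG ⟨cq_of ok h, fw_zero rfl h.1, (Nat.le_add_right _ _).trans h3⟩ h3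
  | HH d => exact str_HH ⟨cq_of ok h, fw_zero rfl h.1, le_rfl⟩ h.2.2.2.2.2.2.2
  | TH d =>
    refine ⟨rfl, Full.Pg.str_tst _, (cq_of ok h).hH' (min_le_right _ _) (le_of_eq ?_)⟩
    rw [kT, (cq_of ok h).kq, z0, ← h.2.2.2.2.2.2.2.2]
    rfl
  | TW =>
    refine str_TW (cq_of ok h) h.2.2.2.2.2.2.2.1 (le_of_eq ?_)
    rw [kT, (cq_of ok h).kq, ← h.2.2.2.2.2.2.2.2]
    rfl

theorem rng_body (t : Pn) : (prog c).Rng a (body c t) 0 q := by
  have hc : ∀ {φ : α → Cx → St → ℝ → ℝ → ℝ} {e₁ e₂ : Tr α},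
      (prog c).Rng a (app (fun a q s x y => cl (φ a q s x y)) e₁ e₂) 0 q :=
    fun _ _ _ _ => abs_cl' _ _
  have ht : ∀ {f}, (prog c).Rng a (tst f) 0 q := Full.Pg.rng_tst _
  have hg : ∀ {e₁ e₂ : Tr α}, (prog c).Rng a e₁ 0 q → (prog c).Rng a e₂ 0 q →
      (prog c).Rng a (guard e₁ e₂) 0 q := fun h1 h2 => ⟨0, 0, le_rfl, h1, h2⟩
  have hh : ∀ {d} {e₁ e₂ : Tr α}, (prog c).Rng a e₂ 0 q → (prog c).Rng a (hop d e₁ e₂) 0 q := id
  cases t with
  | RM => exact rng_cas trivial trivial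
  | PS d =>
    refine rng_cas ht (hg (hg ht (hh (rng_cas ?_ (hg (hh ?_) (hh (hh ?_)))))) (hh ht)) <;>
      exact ⟨le_rfl, le_rfl⟩
  | RW d => exact rng_cas (fun _ _ => abs_cl' _ _) (rng_cas hc hc)
  | RT d => exact rng_cas (rng_cas (Full.Pg.rng_cst (by simp)) le_rfl) hc
  | RF d => exact hg le_rfl hc
  | GQ d => exact hc
  | Gq d => exact hg ht (hg hc hc)
  | MV => trivial
  | Go d => exact hg le_rfl fun _ _ x y => Lz.fst.tinv.1 x y
  | GW d => exact hc
  | GT d => exact hc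
  | SG d => exact hg (fun _ _ x y => (bl_sgF _).1 x y) (hg hc (hh hc))
  | HH d => exact hc
  | TH d => exact hg ht le_rfl
  | TW => exact hg ht hc

end WF

open WF

theorem wf (ok : (c a).OK) : (prog c).WF a := fun t q h => by
  refine ⟨lt_of_lt_of_le ?_ (le_pot t h), str_body ok t h, rng_body t⟩
  have := (cq_of ok h).big
  exact Nat.mul_lt_mul_of_pos_right (by unfold cD; omega) (by omega)

theorem pot_le : ∃ C : ℕ, ∀ {α : Type} (c : α → In) (a : α) (t : Pn) (q : Cx), (c a).OK →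
    (prog c).adm t a q → (prog c).pot t a q ≤ C * (((c a).K + 1) * ((c a).lk + 1)) ∧
      ∀ x, q x ≤ 2 ^ (C * (((c a).K + 1) * ((c a).lk + 1))) := by
  refine ⟨cD * 852, fun c a t q ok h => ?_⟩
  have hg : q .g ≤ (c a).K := (Nat.le_add_left _ _).trans h.1
  have h1 : fwT c t a q ≤ 24 * (((c a).K + 1) * ((c a).lk + 1)) := by
    refine fw_le ok (min_le_right _ _) ?_
    split_ifs
    exacts [tI_le _, min_le_right _ _]
  have h2 := pm_le ok h.1
  have h3 := Nat.mul_le_mul_left cD h1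
  have h4 := Nat.mul_le_mul_left cD (fw_le ok hg (tI_le (q .g)))
  refine ⟨?_, fun x => ((cq_of ok h).lt x).le.trans (Nat.pow_le_pow_right two_pos ?_)⟩
  · have h5 : (prog c).pot t a q ≤ (c a).pt (q .k) (q .g) + cD * fwT c t a q := by
      by_cases h0 : t.rank = 0
      · cases t with
        | SG d => exact Nat.le_add_right _ _
        | HH d => exact Nat.add_le_add_right (pm_le_pt _ _) _
        | TH d => exact le_rfl
        | TW => exact le_rfl
        | _ => simp [Pn.rank] at h0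
      · rw [pot_typ h0 h.1 h.2.1]
        exact le_trans (Nat.add_le_add_left (Nat.mul_le_mul_right _ (rank_le t)) _)
          ((pb_le ok _ _ h.2.1).trans ((pm_le_pt _ _).trans (Nat.le_add_right _ _)))
    unfold Pr.pt at h5
    nlinarith
  · have h5 := Nat.mul_le_mul_right (((c a).K + 1) * ((c a).lk + 1))
      (show 360 ≤ cD * 852 by unfold cD; omega)
    omega

end Vale.Agent.P313.NL2
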