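import Vale.Agent.P313.NL2.Prog

/-! Bounds and Lipschitz constants of the local functions; the arithmetic of the potential. -/

namespace Vale.Agent.P313.NL2.WF

open Finset Function Vale.Agent.P313.Hi

/-- The Lipschitz constant is at most `2 ^ i`. -/
def Lz (i : ℕ) (Φ : ℝ → ℝ → ℝ) : Prop := ∀ x y x' y' ε : ℝ, |x - x'| ≤ ε → |y - y'| ≤ ε →
  |Φ x y - Φ x' y'| ≤ 2 ^ i * ε

/-- Moreover the values are bounded by `2 ^ j`. -/
def BL (j i : ℕ) (Φ : ℝ → ℝ → ℝ) : Prop := (∀ x y, |Φ x y| ≤ 2 ^ j) ∧ Lz i Φ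

theorem pmono {i j : ℕ} (h : i ≤ j) : (2 : ℝ) ^ i ≤ 2 ^ j := pow_le_pow_right₀ one_le_two h

section lip

variable {i j i' j' m : ℕ} {Φ Ψ : ℝ → ℝ → ℝ} {r : ℝ}

theorem Lz.fst : Lz 0 fun x _ => x := fun _ _ _ _ _ h _ => by simpa using h

theorem Lz.snd : Lz 0 fun _ y => y := fun _ _ _ _ _ _ h => by simpa using h

theorem Lz.const : Lz i fun _ _ => r := fun _ _ _ _ _ h _ => by
  rw [sub_self, abs_zero]
  exact mul_nonneg (by positivity) ((abs_nonneg _).trans h)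

theorem Lz.mono (h : Lz i Φ) (hi : i ≤ j) : Lz j Φ := fun x y x' y' ε h1 h2 =>
  (h x y x' y' ε h1 h2).trans (mul_le_mul_of_nonneg_right (pmono hi) ((abs_nonneg _).trans h1))

theorem Lz.comp {φ : ℝ → ℝ} (m : ℕ) (hφ : ∀ s t, |φ s - φ t| ≤ 2 ^ m * |s - t|) (h : Lz i Φ) :
    Lz (m + i) fun x y => φ (Φ x y) := fun x y x' y' ε h1 h2 => (hφ _ _).trans (by
  rw [pow_add, mul_assoc]
  exact mul_le_mul_of_nonneg_left (h x y x' y' ε h1 h2) (by positivity))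

theorem Lz.comp1 {φ : ℝ → ℝ} (hφ : ∀ s t, |φ s - φ t| ≤ |s - t|) (h : Lz i Φ) :
    Lz i fun x y => φ (Φ x y) := fun x y x' y' ε h1 h2 => (hφ _ _).trans (h x y x' y' ε h1 h2)

theorem Lz.cmul (m : ℕ) (hr : |r| ≤ 2 ^ m) (h : Lz i Φ) : Lz (m + i) fun x y => r * Φ x y :=
  h.comp (φ := fun t => r * t) m fun s t => by
    rw [← mul_sub, abs_mul]
    exact mul_le_mul_of_nonneg_right hr (abs_nonneg _)

theorem Lz.mulp (m : ℕ) (h : Lz i Φ) : Lz (m + i) fun x y => Φ x y * 2 ^ m := by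
  simpa only [mul_comm] using h.cmul m (abs_of_pos (by positivity)).le

theorem Lz.div (hr : 1 ≤ r) (h : Lz i Φ) : Lz i fun x y => Φ x y / r :=
  h.comp1 (φ := fun t => t / r) fun s t => by
    rw [← sub_div, abs_div, abs_of_pos (a := r) (by linarith)]
    exact div_le_self (abs_nonneg _) hr

theorem Lz.subc (r : ℝ) (h : Lz i Φ) : Lz i fun x y => Φ x y - r :=
  h.comp1 (φ := fun t => t - r) fun s t => by rw [sub_sub_sub_cancel_right]

theorem Lz.csub (r : ℝ) (h : Lz i Φ) : Lz i fun x y => r - Φ x y :=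
  h.comp1 (φ := fun t => r - t) fun s t => by rw [sub_sub_sub_cancel_left, abs_sub_comm]

theorem Lz.mn (r : ℝ) (h : Lz i Φ) : Lz i fun x y => min r (Φ x y) :=
  h.comp1 (φ := fun t => min r t) fun s t =>
    (abs_min_sub_min_le_max _ _ _ _).trans (max_le (by simp) le_rfl)

theorem Lz.mx (h : Lz i Φ) (h' : Lz i Ψ) : Lz i fun x y => max (Φ x y) (Ψ x y) :=
  fun x y x' y' ε h1 h2 => (abs_max_sub_max_le_max _ _ _ _).trans
    (max_le (h x y x' y' ε h1 h2) (h' x y x' y' ε h1 h2))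

theorem Lz.sub (h : Lz i Φ) (h' : Lz i Ψ) : Lz (i + 1) fun x y => Φ x y - Ψ x y :=
  fun x y x' y' ε h1 h2 => by
    have h3 := h x y x' y' ε h1 h2
    have h4 := h' x y x' y' ε h1 h2
    rw [show Φ x y - Ψ x y - (Φ x' y' - Ψ x' y') = (Φ x y - Φ x' y') - (Ψ x y - Ψ x' y') by ring,
      pow_succ]
    exact (abs_sub _ _).trans (by linarith)

theorem abs_unit {t : ℝ} (h0 : 0 ≤ t) (h1 : t ≤ 1) : |t| ≤ 2 ^ 0 := by rwa [abs_of_nonneg h0, pow_zero]

theorem Lz.tcl (h : Lz i Φ) : BL 0 i fun x y => cl (Φ x y) :=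
  ⟨fun _ _ => abs_unit (cl_nonneg _) (cl_le_one _), h.comp1 abs_cl_sub⟩

theorem Lz.tclp (hr : 0 ≤ r) (hj : r ≤ 2 ^ j) (h : Lz i Φ) : BL j i fun x y => Full.clp r (Φ x y) :=
  ⟨fun _ _ => (Full.abs_clp_le hr _).trans hj, h.comp1 (Full.abs_clp_sub r)⟩

theorem Lz.tphi (h : Lz i Φ) : BL 0 (B + 1 + i) fun x y => phi (Φ x y) :=
  ⟨fun _ _ => abs_unit (phi_nonneg _) (phi_le_one _), h.comp _ abs_phi_sub⟩

theorem Lz.tzeta (g : ℕ) (h : Lz i Φ) : BL 0 i fun x y => zeta g (Φ x y) :=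
  ⟨fun _ _ => abs_unit (zeta_nonneg _ _) (zeta_le_one _ _), h.comp1 (abs_zeta_sub g)⟩

theorem Lz.tchi (g : ℕ) (h : Lz i Φ) : BL 0 (1 + i) fun x y => chi g (Φ x y) :=
  ⟨fun _ _ => abs_unit (chi_nonneg _ _) (chi_le_one _ _),
    h.comp 1 fun s t => by simpa using abs_chi_sub g s t⟩

theorem Lz.tinv (h : Lz i Φ) : BL 0 i fun x y => inv1 (Φ x y) :=
  ⟨fun _ _ => abs_unit (Cand.inv1_nonneg _) (Cand.inv1_le_one _), h.comp1 Cand.abs_inv1_sub⟩

theorem BL.mono (h : BL j i Φ) (hj : j ≤ j') (hi : i ≤ i') : BL j' i' Φ :=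
  ⟨fun x y => (h.1 x y).trans (pmono hj), h.2.mono hi⟩

theorem BL.const (hr : |r| ≤ 1) : BL j i fun _ _ => r :=
  ⟨fun _ _ => hr.trans (one_le_pow₀ one_le_two), Lz.const⟩

theorem BL.mul (h : BL j i Φ) (h' : BL j' i' Ψ) (m : ℕ) (h1 : j + i' ≤ m) (h2 : j' + i ≤ m) :
    BL (j + j') (m + 1) fun x y => Φ x y * Ψ x y := by
  refine ⟨fun x y => ?_, fun x y x' y' ε e1 e2 => ?_⟩
  · rw [abs_mul, pow_add]
    exact mul_le_mul (h.1 x y) (h'.1 x y) (abs_nonneg _) (by positivity)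
  · have h0 : 0 ≤ ε := (abs_nonneg _).trans e1
    have h3 := mul_le_mul (h.1 x y) (h'.2 x y x' y' ε e1 e2) (abs_nonneg _) (by positivity)
    have h4 := mul_le_mul (h'.1 x' y') (h.2 x y x' y' ε e1 e2) (abs_nonneg _) (by positivity)
    rw [← mul_assoc, ← pow_add, ← abs_mul] at h3 h4
    have h5 := mul_le_mul_of_nonneg_right (pmono h1) h0
    have h6 := mul_le_mul_of_nonneg_right (pmono h2) h0
    rw [show Φ x y * Ψ x y - Φ x' y' * Ψ x' y' =
      Φ x y * (Ψ x y - Ψ x' y') + Ψ x' y' * (Φ x y - Φ x' y') by ring, pow_succ]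
    exact (abs_add_le _ _).trans (by linarith)

theorem BL.mulp (m : ℕ) (h : BL j i Φ) : BL (m + j) (m + i) fun x y => Φ x y * 2 ^ m := by
  refine ⟨fun x y => ?_, h.2.mulp m⟩
  rw [abs_mul, abs_of_pos (a := 2 ^ m) (by positivity), pow_add, mul_comm]
  exact mul_le_mul_of_nonneg_left (h.1 x y) (by positivity)

theorem BL.div (hr : 1 ≤ r) (h : BL j i Φ) : BL j i fun x y => Φ x y / r := by
  refine ⟨fun x y => le_trans ?_ (h.1 x y), h.2.div hr⟩
  rw [abs_div, abs_of_pos (a := r) (by linarith)]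
  exact div_le_self (abs_nonneg _) hr

theorem BL.sub (h : BL j i Φ) (h' : BL j i Ψ) : BL (j + 1) (i + 1) fun x y => Φ x y - Ψ x y :=
  ⟨fun x y => (abs_sub _ _).trans (by rw [pow_succ]; linarith [h.1 x y, h'.1 x y]), h.2.sub h'.2⟩

theorem BL.ite {P : Prop} {_ : Decidable P} (h : P → BL j i Φ) (h' : BL j i Ψ) :
    BL j i fun x y => if P then Φ x y else Ψ x y := by
  split_ifs with hP
  exacts [h hP, h']

theorem lz_sc (h : Lz i Φ) : Lz (B + 1 + i) fun x y => 2 ^ (B + 1) * Φ x y :=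
  h.cmul _ (abs_of_pos (by positivity)).le

theorem bl_fac (d : Bool) (c : G) : BL 0 (B + 3) (fac d c) := by
  cases d
  · exact ((lz_sc Lz.fst).tchi _).mul ((lz_sc Lz.snd).tzeta _) (B + 2) (by omega) (by omega)
  · exact ((lz_sc Lz.fst).tzeta _).mul ((lz_sc Lz.snd).tchi _) (B + 2) (by omega) (by omega)

theorem bl_rw : BL 0 (B + 3) fun w t => cl w * phi w * cl t :=
  (Lz.fst.tcl.mul Lz.fst.tphi (B + 1) (by omega) (by omega)).mul Lz.snd.tcl (B + 2) (by omega)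
    (by omega)

theorem Lz.tuns (h : Lz i Φ) : BL 0 (B + 2 + i) fun x y => uns (Φ x y) :=
  ⟨fun _ _ => abs_unit (sub_nonneg.2 (chi_le_one _ _)) (sub_le_self _ (chi_nonneg _ _)),
    (((lz_sc h).tchi B).2.csub 1).mono (by omega)⟩

theorem bl_uns : BL 0 (B + 3) fun x y => uns x * uns y :=
  Lz.fst.tuns.mul Lz.snd.tuns (B + 2) (by omega) (by omega)

theorem bl_part (S T : Sg) : BL 1 (B + 2) fun w _ => S.part T (cl w) := by
  have h : BL 0 (B + 1) fun w _ : ℝ => phi (cl w) := Lz.fst.tcl.2.tphi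
  have h0 : ∀ {j i}, BL j i fun _ _ => 0 := BL.const (by simp)
  unfold Sg.part
  exact BL.ite (fun _ => BL.ite (fun _ => (BL.const (by simp)).sub (BL.ite (fun _ => h) h0)) h0)
    (BL.ite (fun _ => BL.ite (fun _ => h.sub (h.div (by norm_num)))
      (h.mono (by omega) (by omega))) h0)

theorem ell_sub_le (S T : Sg) : S.ell' T - S.ell T ≤ B := by
  have h1 := (S.dg.ed true).1.2
  have h2 := (T.dg.ed false).1.2
  unfold Sg.ell' Sg.ell Sg.l'
  omega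

theorem bl_wU (S T : Sg) : BL 0 (2 * B + 5) fun w x => cl (S.wU T (cl w) (cl x)) := by
  have h := ell_sub_le S T
  exact (((((Lz.fst.tcl.mulp _).mono (j' := B) (i' := B) (by omega) (by omega)).mul (bl_part S T)
    (2 * B + 2) (by omega) (by omega)).mul Lz.snd.tcl (2 * B + 4) (by omega) (by omega)).div
      (one_le_pow₀ one_le_two)).2.tcl

theorem bl_wM (S T : Sg) (g : ℕ) (hr : 0 ≤ r) (hj : r ≤ 2 ^ j) :
    BL 0 (B * (g + 1) + j + 1) fun w x => cl (S.wMt T g (Full.clp r w) (cl x)) := by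
  have h := min_le_right (S.gap T) (B * (g + 1))
  unfold Sg.wMt
  exact (BL.ite (j := B * (g + 1) + j) (fun _ => ((Lz.snd.tcl.mul ((Lz.fst.tclp hr hj).mulp _) _
    (by omega) (by omega)).div (one_le_pow₀ one_le_two)).mono (by omega) le_rfl)
      (BL.const (by simp))).2.tcl

theorem Lz.tsc (g : ℕ) (h : Lz i Φ) : Lz ((B + 2) * g + i) fun x y => sc g (Φ x y) :=
  (h.mulp _).mn 1

theorem bl_r0 (g : ℕ) : BL 0 (B + 4 + (B + 2) * g) fun w _ => r0 (sc g w) :=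
  (((Lz.fst.tsc g).mulp _).subc 1).tcl

theorem Lz.aff (m : ℕ) (hr : |r| ≤ 2 ^ m) (t : ℝ) (h : Lz i Φ) :
    BL 0 (m + i) fun x y => cl (r * Φ x y - t) := ((h.cmul m hr).subc t).tcl

theorem bl_rp (t : ℝ) : BL 0 2 fun x _ => rp t x := Lz.fst.aff 2 (by norm_num) t

theorem bl_dn (t : ℝ) : BL 0 1 fun x _ => dn t (2 * x) :=
  ((Lz.fst.cmul 1 (by norm_num)).csub t).tcl

theorem bl_rd : BL 0 2 fun x _ => rd x := ((Lz.fst.cmul 2 (by norm_num)).csub 3).tcl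

theorem bl_sq (hr : 0 ≤ r) (hj : r ≤ 2 ^ j) : BL (j + j) (j + 1) fun x _ => Full.clp r x ^ 2 := by
  simpa only [sq] using (Lz.fst.tclp hr hj).mul (Lz.fst.tclp hr hj) j le_rfl le_rfl

theorem bl_gq (hr : 0 ≤ r) (hj : r ≤ 2 ^ j) :
    BL 0 (j + 2) fun x y => cl ((Full.clp r x ^ 2 - y) / 2) :=
  (((bl_sq hr hj).2.sub (Lz.snd.mono (by omega))).div one_le_two).tcl

theorem bl_rat (hr : 0 ≤ r) (hj : r ≤ 2 ^ j) : BL 0 (j + 1) fun x y => cl (Full.clp r x * inv1 y) :=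
  ((Lz.fst.tclp hr hj).mul Lz.snd.tinv j le_rfl (by omega)).2.tcl

theorem bl_hh : BL 0 0 fun x y => cl (max (x / 2 ^ (B + 1)) y) :=
  ((Lz.fst.div (one_le_pow₀ one_le_two)).mx Lz.snd).tcl

theorem bl_two : BL 1 1 fun x _ => 2 * cl x := by
  simpa only [pow_one, mul_comm] using Lz.fst.tcl.mulp 1

theorem tI_of {g : ℕ} (h : tA g) : tI g = 1 := if_pos h

theorem tI_le (g : ℕ) : tI g ≤ 1 := by
  unfold tI
  split_ifs <;> omega

theorem bl_muF (g : ℕ) : BL 0 ((B + 2) * g * tI g + 4) fun t w => muF g t (cl w) := by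
  refine (Lz.fst.aff 2 (by norm_num) 3).mul (j' := 0) (i' := (B + 2) * g * tI g)
    (BL.ite (fun h => ⟨fun _ w => abs_unit (le_min zero_le_one (mul_nonneg (cl_nonneg _)
      (by positivity))) (min_le_left _ _), ?_⟩) (BL.const (by simp))) _ (by omega) (by omega)
  rw [tI_of h, mul_one]
  exact Lz.snd.tcl.2.tsc g

theorem bl_sgF (g : ℕ) : BL 0 ((B + 2) * g * tI g + B + 4) fun t w => sgF g t (cl w) := by
  refine (Lz.fst.aff 3 (by norm_num) 7).mul (j' := 0) (i' := (B + 2) * g * tI g + B + 2)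
    (BL.ite (fun h => ?_) (BL.const (by simp))) _ (by omega) (by omega)
  rw [tI_of h, mul_one]
  exact (((Lz.snd.tcl.2.tsc g).mulp _).subc 1).tcl.mono le_rfl (by omega)

end lip

/-! ### The potential -/

theorem B_le_a : B ≤ a := by
  have h := Fintype.card_le_of_surjective (fun g : Dig => g.1.1)
    (Prod.fst_surjective.comp Prod.fst_surjective)
  rw [Fintype.card_fin] at h
  exact (Nat.le_succ B).trans h

theorem le_Tg (g : ℕ) : g ≤ Tg g := Nat.le_add_right _ _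

theorem Tg_le (g : ℕ) : Tg g ≤ 3 * (g + 1) := by
  unfold Tg
  generalize 2 ^ Nat.log 2 g = P
  omega

theorem Tg_zero : Tg 0 = 0 := by simp [Tg]

theorem tI_zero : tI 0 = 1 := tI_of (Or.inl rfl)

theorem Tg_succ (g : ℕ) : Tg (g + 1) + tI (g + 1) * (g + 2) ≤ Tg g + 5 := by
  have h1 : 2 ^ Nat.log 2 g ≤ 2 ^ Nat.log 2 (g + 1) :=
    Nat.pow_le_pow_right two_pos (Nat.log_mono_right (Nat.le_succ g))
  unfold tI Tg
  split_ifs with h
  · have h2 : g + 1 = 2 ^ Nat.log 2 (g + 1) := h.resolve_left (Nat.succ_ne_zero g)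
    have h3 : 2 * 2 ^ Nat.log 2 g ≤ g + 2 := by
      rcases Nat.eq_zero_or_pos g with rfl | h0
      · simp
      · have h4 : Nat.log 2 g < Nat.log 2 (g + 1) :=
          Nat.log_lt_of_lt_pow h0.ne' (by omega)
        have h5 := Nat.pow_le_pow_right two_pos (Nat.succ_le_of_lt h4)
        rw [pow_succ'] at h5
        omega
    omega
  · omega

variable {p : Pr}

theorem B_le_lk (ok : p.OK) : B ≤ p.lk := B_le_a.trans ok.big

theorem cc_le (ok : p.OK) : cc ≤ 3 * p.wl := by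
  have := B_le_lk ok
  have := ok.big
  unfold cc Pr.wl
  omega

theorem pm_le_pt (k g : ℕ) : p.pm k g ≤ p.pt k g := Nat.le_add_right _ _

theorem pb_le (ok : p.OK) (k g : ℕ) {ty : ℕ} (hty : ty ≤ 1) :
    p.pb k g ty + 7 * (cD * p.fw g ty) ≤ p.pm k g := by
  have h1 := cc_le ok
  have h2 := Nat.mul_le_mul_left cc (le_Tg g)
  have key : ∀ A : ℕ, A + 7 * p.fw g ty ≤ 132 * (k + 1) * p.wl + 7 * cc * Tg g →
      cD * A + 7 * (cD * p.fw g ty) ≤ p.pm k g := fun A h =>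
    le_trans (le_of_eq (by ring)) (Nat.mul_le_mul_left cD h)
  unfold Pr.pb
  split_ifs with h3 h4
  · refine le_trans (le_of_eq (by simp)) (key 0 ?_)
    have h5 := Nat.mul_le_mul_right (cc * (g + 1)) hty
    unfold Pr.fw
    nlinarith
  · obtain ⟨j, rfl⟩ := Nat.exists_eq_succ_of_ne_zero h3
    refine le_trans (le_of_eq ?_) (key (132 * (j + 1) * p.wl + 7 * cc * Tg (g + 1) +
      2 * p.fw (g + 1) (tI (g + 1))) ?_)
    · simp only [Pr.pt, Pr.pm, Nat.succ_sub_one]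
      ring
    · have h5 := Nat.mul_le_mul_left (7 * cc) (Tg_succ g)
      subst h4
      unfold Pr.fw
      simp only [Nat.succ_eq_add_one]
      nlinarith [Nat.zero_le (cc * (tI (g + 1) * (g + 2)))]
  · obtain ⟨j, rfl⟩ := Nat.exists_eq_succ_of_ne_zero h3
    refine le_trans (le_of_eq ?_) (key (132 * (j + 1) * p.wl + 2 * p.fw 0 1) ?_)
    · simp only [Pr.pt, Pr.pm, Nat.succ_sub_one, Tg_zero, tI_zero]
      ring
    · obtain rfl : ty = 1 := by omega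
      unfold Pr.fw
      simp only [Nat.succ_eq_add_one]
      nlinarith

theorem pt_zero_le (j g : ℕ) : p.pt j 0 ≤ p.pt j (g + 1) := by
  have h1 := Nat.mul_le_mul_left cc ((Nat.le_add_left 1 g).trans (le_Tg (g + 1)))
  have h2 : 132 * (j + 1) * p.wl + 2 * p.fw 0 1 ≤
      132 * (j + 1) * p.wl + 7 * cc * Tg (g + 1) + 2 * p.fw (g + 1) (tI (g + 1)) := by
    unfold Pr.fw
    nlinarith [Nat.zero_le (tI (g + 1) * (cc * (g + 1 + 1)))]
  refine le_trans (le_of_eq ?_) ((Nat.mul_le_mul_left cD h2).trans (le_of_eq ?_)) <;>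
    simp only [Pr.pt, Pr.pm, Tg_zero, tI_zero] <;> ring

theorem pt_le_pb {k : ℕ} (hk : k ≠ 0) (g ty : ℕ) : p.pt (k - 1) 0 ≤ p.pb k g ty := by
  unfold Pr.pb
  rw [if_neg hk]
  split_ifs
  exacts [pt_zero_le _ _, le_rfl]

theorem pb_old {k : ℕ} (hk : k ≠ 0) (g : ℕ) : p.pb k g 0 = p.pt (k - 1) (g + 1) := by
  rw [Pr.pb, if_neg hk, if_pos rfl]

theorem K_lt (ok : p.OK) : p.K < 2 ^ p.wl := by
  have h1 := ok.hm
  have h2 := ok.hlk
  have h3 : 2 ^ p.lk ≤ 2 ^ p.wl := Nat.pow_le_pow_right two_pos (by unfold Pr.wl; omega)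
  have h4 : 1 * p.K ≤ (B + C + 2) * p.K := Nat.mul_le_mul_right _ (by omega)
  omega

theorem NL_eq (p : Pr) : p.NL = 2 ^ (3 * p.wl) := by rw [Pr.NL, Pr.W, ← pow_mul, mul_comm]

theorem fw_le (ok : p.OK) {g ty : ℕ} (hg : g ≤ p.K) (hty : ty ≤ 1) :
    p.fw g ty ≤ 24 * ((p.K + 1) * (p.lk + 1)) := by
  have h1 := Nat.mul_le_mul hty (Nat.mul_le_mul (cc_le ok) (Nat.succ_le_succ hg))
  unfold Pr.fw
  unfold Pr.wl at *
  simp only [Nat.succ_eq_add_one] at h1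
  nlinarith

theorem pm_le (ok : p.OK) {k g : ℕ} (h : k + g ≤ p.K) :
    p.pm k g ≤ cD * (780 * ((p.K + 1) * (p.lk + 1))) := by
  refine Nat.mul_le_mul_left _ ?_
  have h0 : p.wl ≤ 4 * (p.lk + 1) := by unfold Pr.wl; omega
  have h1 := Nat.mul_le_mul ((cc_le ok).trans (Nat.mul_le_mul_left 3 h0))
    ((Tg_le g).trans (Nat.mul_le_mul_left 3 (show g + 1 ≤ p.K + 1 by omega)))
  have h2 := Nat.mul_le_mul (show k + 1 ≤ p.K + 1 by omega) h0
  nlinarith

end Vale.Agent.P313.NL2.WF
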