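import Vale.Agent.P313.NL2.WFa

/-! The local moves and the calls of the program with short labels. -/

namespace Vale.Agent.P313.NL2.WF

open Finset Function Vale.Agent.P313.Hi Vale.Agent.P313.KH Vale.Agent.P313.Full.Tm

section local_moves

variable {p : Pr} {d : Bool} {u x f k g ty : ℕ} {e : Env}

theorem adj_symm (h : p.adj d x f) : p.adj (!d) f x := by
  cases d <;> exact ⟨h.2.1, h.1, h.2.2⟩

theorem rk_lt {f' : ℕ} (h : p.adj d x f) (hf : f < f') : p.rk d x f < p.rk d x f' := by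
  have h1 : p.rk d x (f + 1) ≤ p.rk d x f' :=
    sum_le_sum_of_subset (range_mono hf)
  rw [Pr.rk, sum_range_succ, if_pos h] at h1
  exact h1

theorem nb_rk (h : p.adj d x f) : p.nb d x (p.rk d x f) = f := by
  rw [Pr.nb, sum_eq_single_of_mem f (mem_range.2 h.2.1) fun f' _ hf => if_neg fun h' => ?_,
    if_pos ⟨h, rfl⟩]
  rcases lt_or_gt_of_ne hf with h1 | h1
  exacts [(rk_lt h'.1 h1).ne h'.2, (rk_lt h h1).ne' h'.2]

theorem dom0_back (h : p.dom0 d u x) :
    p.dom0 (!d) u (p.en0 d u x) ∧ p.en0 (!d) u (p.en0 d u x) = x := by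
  have h1 : p.en0 (!d) u (p.en0 d u x) = x := by
    rw [Pr.en0, ← h.2.2, nb_rk (adj_symm h.1)]
  refine ⟨?_, h1⟩
  rw [Pr.dom0, h1, Bool.not_not]
  exact ⟨adj_symm h.1, h.2.2, h.2.1⟩

theorem dt_lt' (hk : k + 1 ≤ p.K) : p.dt k g ty u d < p.n p.K := by
  refine lt_of_lt_of_le ?_ (nm_le p.n0 hk)
  rw [nm_succ]
  exact Nat.mul_lt_mul_of_pos_left (Nat.mod_lt _ (Nat.two_pow_pos _)) (nm_pos _ _)

theorem wc_lt (ok : p.OK) (hk : g + 1 ≤ p.K) : p.wc g ty u < 2 ^ (2 * p.m) := by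
  unfold Pr.wc
  split_ifs
  · refine (Nat.mul_lt_mul_of_pos_right (Nat.mod_lt _ (Nat.two_pow_pos _))
      (Nat.two_pow_pos _)).trans_le ?_
    rw [← pow_add]
    refine Nat.pow_le_pow_right two_pos ?_
    have h1 := ok.hm
    have h2 := Nat.mul_le_mul_left cc hk
    simp only [add_mul, mul_add] at h1 h2
    omega
  · exact Nat.mod_lt _ (Nat.two_pow_pos _)

theorem xr_xr (e : Env) (i : Ix) (v : ℕ) : xr (xr e i v) i v = e := by
  simp [xr]

theorem xr_comm (e : Env) (i j : Ix) (v w : ℕ) : xr (xr e i v) j w = xr (xr e j w) i v := by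
  by_cases h : i = j
  · subst h
    simp [xr, Nat.xor_assoc, Nat.xor_comm v]
  · simp [xr, update_of_ne h, update_of_ne (Ne.symm h), update_comm h]

theorem ent_ent' : p.ent k g ty u (p.ent k g ty u e) = e := by
  unfold Pr.ent
  rw [xr_comm _ _ (0, false), xr_comm _ (1, false) (0, false), xr_xr, xr_comm _ _ (1, false), xr_xr,
    xr_xr]

theorem xr_lt {bd : Env} (he : ∀ i, e i < bd i) {i : Ix} {v M : ℕ} (hb : bd i = 2 ^ M)
    (hv : v < 2 ^ M) (j : Ix) : xr e i v j < bd j := by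
  by_cases h : j = i
  · subst h
    rw [xr, update_self, hb]
    exact Nat.xor_lt_two_pow (hb ▸ he j) hv
  · rw [xr, update_of_ne h]
    exact he j

theorem lift_lift {φ : Env → Env} (h : ∀ e, φ (φ e) = e) (s : St) : lift φ (lift φ s) = s := by
  funext r
  cases r
  · rfl
  · rfl
  · exact congrFun (h (env s)) _

end local_moves

variable {α : Type} {c : α → In} {a : α} {q : Cx} {w n p r : ℕ} {s : St} {d b : Bool}
  {e e₁ e₂ M : Tr α}

theorem lift_mem {φ : Env → Env} (hs : s ∈ (prog c).box a)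
    (h : ∀ i, φ (env s) i < (c a).bd (.e i)) : lift φ s ∈ (prog c).box a :=
  Full.Pg.mem_box.2 fun r => by
    cases r
    exacts [Full.Pg.mem_box.1 hs _, Full.Pg.mem_box.1 hs _, h _]

theorem inv_hf : ∀ s ∈ (prog c).box a, lift (hf b) s ∈ (prog c).box a ∧
    lift (hf b) (lift (hf b) s) = s := fun s hs =>
  ⟨lift_mem hs fun ⟨i, j⟩ => by cases j <;> exact Full.Pg.mem_box.1 hs (.e (_, _)),
    lift_lift (fun e => funext fun i => by simp [hf]) s⟩

/-- The data of a node with the width `w`. -/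
structure Cq (c : α → In) (a : α) (q : Cx) (w : ℕ) : Prop where
  ok : (c a).OK
  kg : q .k + q .g ≤ (c a).K
  ty : q .ty ≤ 1
  lab : q .lab < (c a).NL
  x1 : q .x1 < (c a).NL
  x2 : q .x2 < (c a).NL
  u : q .u < (c a).nl (q .g) (q .ty)
  u' : q .u < 2 ^ (15 * w)
  w3 : 3 * (c a).wl ≤ w

theorem NL_pos (p : Pr) : 0 < p.NL := NL_eq p ▸ Nat.two_pow_pos _

namespace Cq

variable (h : Cq c a q w)
include h

theorem kq : (c a).kq q = q .k := min_eq_left ((Nat.le_add_right _ _).trans h.kg)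

theorem gq : (c a).gq q = q .g := min_eq_left ((Nat.le_add_left _ _).trans h.kg)

theorem tq : tyq q = q .ty := min_eq_left h.ty

theorem big : 9 * B + 12 ≤ w := by
  have := B_le_lk h.ok
  have := h.w3
  unfold Pr.wl at *
  omega

theorem NL_le : (c a).NL ≤ 2 ^ w := NL_eq _ ▸ Nat.pow_le_pow_right two_pos h.w3

theorem lab' {l : ℕ} (hl : l < (c a).NL) : Cq c a (update q .lab l) w :=
  ⟨h.ok, by simpa using h.kg, by simpa using h.ty, by simpa using hl, by simpa using h.x1,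
    by simpa using h.x2, by simpa using h.u, by simpa using h.u', h.w3⟩

theorem x1' {l : ℕ} (hl : l < (c a).NL) : Cq c a (update q .x1 l) w :=
  ⟨h.ok, by simpa using h.kg, by simpa using h.ty, by simpa using h.lab, by simpa using hl,
    by simpa using h.x2, by simpa using h.u, by simpa using h.u', h.w3⟩

theorem x2' {l : ℕ} (hl : l < (c a).NL) : Cq c a (update q .x2 l) w :=
  ⟨h.ok, by simpa using h.kg, by simpa using h.ty, by simpa using h.lab, by simpa using h.x1,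
    by simpa using hl, by simpa using h.u, by simpa using h.u', h.w3⟩

theorem lt (x : Cr) : q x < 2 ^ (15 * w) := by
  have h1 : 2 ^ w ≤ 2 ^ (15 * w) := Nat.pow_le_pow_right two_pos (by omega)
  have h2 : 2 ^ (c a).wl ≤ 2 ^ w := Nat.pow_le_pow_right two_pos (by have := h.w3; omega)
  have h3 : 2 ^ 1 ≤ 2 ^ w := Nat.pow_le_pow_right two_pos (by have := h.big; omega)
  have h4 := K_lt h.ok
  have h5 := h.NL_le
  have := h.kg
  have := h.ty
  have := h.lab
  have := h.x1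
  have := h.x2
  have := h.u'
  cases x <;> omega

theorem inv_pe (hk : q .k ≠ 0) : ∀ s ∈ (prog c).box a, (c a).pe q s ∈ (prog c).box a ∧
    (c a).pe q ((c a).pe q s) = s := fun s hs => by
  have h1 := h.kg
  refine ⟨lift_mem hs (xr_lt (M := 2 * (c a).m) (xr_lt (xr_lt
    (fun i => Full.Pg.mem_box.1 hs (.e i)) rfl (dt_lt' ?_)) rfl (dt_lt' ?_)) ?_ (wc_lt h.ok ?_)),
    lift_lift (fun _ => ent_ent') s⟩
  · rw [h.kq]; omega
  · rw [h.kq]; omega
  · split_ifs <;> rfl
  · rw [h.gq]; omega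

theorem inv_pf (hk : q .k ≠ 0) : ∀ s ∈ (prog c).box a, (c a).pf q s ∈ (prog c).box a ∧
    (c a).pf q ((c a).pf q s) = s := fun s hs => by
  have h1 := h.kg
  have h2 : (c a).kq q - 1 + 1 ≤ (c a).K := by rw [h.kq]; omega
  refine ⟨Full.update_mem_box (h.inv_pe hk s hs).1 (Nat.xor_lt_two_pow (Full.Pg.mem_box.1 hs .pos)
    (Nat.xor_lt_two_pow (dt_lt' h2) (dt_lt' h2))), funext fun r => ?_⟩
  cases r
  · simp [Pr.pf]
  · simp [Pr.pf, Pr.pe, lift]
  · have h3 : env ((c a).pf q s) = env ((c a).pe q s) := funext fun j => by simp [env, Pr.pf]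
    rw [Pr.pf, update_of_ne (by simp), Pr.pe, lift, h3]
    exact congrFun (h.inv_pe hk s hs).2 (.e _)

theorem app {Φ : α → Cx → St → ℝ → ℝ → ℝ} {j i : ℕ} (hΦ : ∀ s, BL j i (Φ a q s))
    (hj : j ≤ 32 * w) (hi : i ≤ 32 * w) (h1 : (prog c).Str a (32 * w) p e₁ q false)
    (h2 : (prog c).Str a (32 * w) p e₂ q false) :
    (prog c).Str a (32 * w) p (app Φ e₁ e₂) q false :=
  have _ := h
  ⟨rfl, fun s _ => (hΦ s).mono hj hi, h1, h2⟩

theorem fn {φ : ℝ → ℝ} (hφ : BL 1 2 fun x _ => φ x) (h1 : (prog c).Str a (32 * w) p e q false) :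
    (prog c).Str a (32 * w) p (fn φ e) q false :=
  have := h.big
  h.app (fun _ => hφ) (by omega) (by omega) h1 (Full.Pg.str_cst (by simp))

theorem cal {t : Pn} {F : α → Cx → Cx} (ha : (prog c).adm t a (F a q))
    (hu : F a q .u < 2 ^ (15 * w)) (hp : (prog c).pot t a (F a q) + cD * w ≤ p) :
    (prog c).Str a (32 * w) p (cal t F) q ((prog c).mvp t) := by
  have h1 : Cq c a (F a q) w := ⟨h.ok, ha.1, ha.2.1, ha.2.2.1, ha.2.2.2.2.1 ▸ NL_pos _,
    ha.2.2.2.2.2.1 ▸ NL_pos _, ha.2.2.2.1, hu, h.w3⟩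
  refine Full.Pg.str_cal (15 * w) rfl ha (Nat.zero_le _) (fun x => ⟨(h.lt x).trans_le
    (Nat.le_add_left _ _), (h1.lt x).trans_le (Nat.le_add_left _ _)⟩) (le_trans ?_ hp)
  have h2 : 1 ≤ w := by have := h.big; omega
  have h3 := Nat.mul_le_mul_left (Full.cSv Cr) h2
  unfold cD
  nlinarith

end Cq

theorem kq_mk {k g ty l u : ℕ} (h : k + g ≤ (c a).K) : gT c a (mk k g ty l u 0 0) = g :=
  min_eq_left ((Nat.le_add_left _ _).trans h)

theorem adm_typ {t : Pn} (ht : t.rank ≠ 0) {k g ty l u : ℕ} (h1 : k + g ≤ (c a).K) (h2 : ty ≤ 1)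
    (h3 : l < (c a).NL) (h4 : u < (c a).nl g ty) (h5 : 5 ≤ t.rank → u = 0) :
    (prog c).adm t a (mk k g ty l u 0 0) := by
  refine ⟨h1, h2, h3, h4, rfl, rfl, fun h => h5 (h.resolve_left ht), ?_⟩
  cases t <;> trivial

theorem pot_typ {t : Pn} (ht : t.rank ≠ 0) (h1 : q .k + q .g ≤ (c a).K) (h2 : q .ty ≤ 1) :
    (prog c).pot t a q = (c a).pb (q .k) (q .g) (q .ty) +
      t.rank * (cD * (c a).fw (q .g) (q .ty)) := by
  have h3 : fwT c t a q = (c a).fw (q .g) (q .ty) := by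
    rw [fwT, if_neg ht, gT, Pr.gq, tyq, min_eq_left h2, min_eq_left ((Nat.le_add_left _ _).trans h1)]
  rw [← h3]
  cases t <;> first | rfl | exact absurd rfl ht

theorem fw_zero {t : Pn} (ht : t.rank = 0) (h1 : q .k + q .g ≤ (c a).K) :
    fwT c t a q = (c a).fw (q .g) (tI (q .g)) := by
  rw [fwT, if_pos ht, gT, Pr.gq, min_eq_left ((Nat.le_add_left _ _).trans h1)]

theorem rank_le (t : Pn) : t.rank ≤ 7 := by cases t <;> simp [Pn.rank]

namespace Cq

variable (h : Cq c a q w) {k g l : α → Cx → ℕ}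
include h

theorem aT {dir : Bool → Bool} {t : Pn} (ht : t.rank ≠ 0) (hk : k a q + g a q ≤ (c a).K)
    (hl : l a q < (c a).NL) (hp : (c a).pm (k a q) (g a q) + cD * w ≤ p) :
    (prog c).Str a (32 * w) p (aT c dir t k g l) q ((prog c).mvp t) := by
  have key : ∀ ty ≤ 1, (prog c).Str a (32 * w) p
      (Full.Tm.cal t fun a q => NL2.mk (k a q) (g a q) ty (l a q) 0 0 0) q ((prog c).mvp t) := by
    intro ty hty
    refine h.cal (adm_typ ht hk hty hl (Nat.two_pow_pos _) fun _ => rfl) (Nat.two_pow_pos _)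
      (le_trans (Nat.add_le_add_right ?_ _) hp)
    rw [pot_typ ht hk hty]
    exact le_trans (Nat.add_le_add_left (Nat.mul_le_mul_right _ (rank_le t)) _)
      (pb_le h.ok _ _ hty)
  exact ⟨key 1 le_rfl, key 0 zero_le_one⟩

theorem hH (hk : k a q + g a q ≤ (c a).K)
    (hp : (c a).pm (k a q) (g a q) + cD * (c a).fw (g a q) (tI (g a q)) + cD * w ≤ p) :
    (prog c).Str a (32 * w) p (cN (.HH d) k g z0) q false := by
  refine h.cal (t := .HH d) ⟨hk, zero_le_one, NL_pos _, Nat.two_pow_pos _, rfl, rfl, fun _ => rfl,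
    rfl⟩ (Nat.two_pow_pos _) (le_trans (le_of_eq ?_) hp)
  exact congrArg (fun x => _ + cD * x + _) (fw_zero (t := .HH d) rfl hk)

theorem hH' (hk : k a q + g a q ≤ (c a).K) (hp : (c a).pt (k a q) (g a q) + cD * w ≤ p) :
    (prog c).Str a (32 * w) p (cN (.HH d) k g z0) q false :=
  h.hH hk (by unfold Pr.pt at hp; omega)

theorem sG (hk : k a q + g a q ≤ (c a).K) (hl : l a q < (c a).NL)
    (hp : (c a).pt (k a q) (g a q) + cD * w ≤ p) :
    (prog c).Str a (32 * w) p (cN (.SG d) k g l) q false :=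
  h.cal (t := .SG d) ⟨hk, zero_le_one, hl, Nat.two_pow_pos _, rfl, rfl, fun _ => rfl, trivial⟩
    (Nat.two_pow_pos _) hp

theorem aT' {dir : Bool → Bool} {t : Pn} (ht : t.rank ≠ 0) (hk : k a q + g a q ≤ (c a).K)
    (hl : l a q < (c a).NL) (hp : (c a).pt (k a q) (g a q) + cD * w ≤ p) :
    (prog c).Str a (32 * w) p (NL2.aT c dir t k g l) q ((prog c).mvp t) :=
  h.aT ht hk hl (le_trans (Nat.add_le_add_right (pm_le_pt _ _) _) hp)

theorem rwT (hk : k a q ≤ (c a).K) (hl : l a q < (c a).NL)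
    (hp : (c a).pt (k a q) 0 + cD * w ≤ p) :
    (prog c).Str a (32 * w) p (rwT c d k l) q false :=
  have := h.big
  h.app (fun _ => BL.ite (fun _ => bl_rw) (BL.const (by simp))) (by omega) (by omega)
    (h.aT' (t := .GW d) (by simp [Pn.rank]) hk hl hp) (h.sG hk hl hp)

theorem smL {x : Cr} (hx : q x = 0) (he : ∀ l < (c a).NL,
    (prog c).Str a (32 * w) p e (update q x l) false) :
    (prog c).Str a (32 * w) p (.sum (NLT c) x e) q false :=
  ⟨rfl, hx, h.NL_le.trans (Nat.pow_le_pow_right two_pos (by omega)), he⟩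

end Cq

theorem ok_vR {x : Sr} (hx : (c a).bd x = 2 ^ (2 * (c a).m)) :
    (vR c x).Ok a q ((prog c).box a) :=
  Full.lens_coord (m := 2 ^ (c a).m) (Nat.two_pow_pos _) (by rw [← pow_add, ← two_mul]; exact hx)

theorem ok_vO {S : Finset St} : (vO : Full.View α Sr Cr).Ok a q S :=
  ⟨fun _ _ => one_pos, fun _ hs _ _ => hs, fun _ _ _ hv => (Nat.lt_one_iff.1 hv).symm,
    fun _ _ => rfl, fun _ _ _ _ _ _ => rfl⟩

theorem str_chT {k : α → Cx → ℕ} : (prog c).Str a n p (chT c k) q false :=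
  ⟨rfl, fun _ _ => (Full.abs_chr _ _ _).trans_le (one_le_pow₀ one_le_two)⟩

theorem str_if0 {m : Bool} (h1 : q .k = 0 → (prog c).Str a n p e₁ q m)
    (h2 : q .k ≠ 0 → (prog c).Str a n p e₂ q m) : (prog c).Str a n p (if0 e₁ e₂) q m := by
  unfold if0 Full.Pg.Str
  split_ifs with h
  exacts [h1 (by simpa using h), h2 (by simpa using h)]

theorem str_ifU {m : Bool} (h1 : q .ty = 0 → (prog c).Str a n p e₁ q m)
    (h2 : q .ty ≠ 0 → (prog c).Str a n p e₂ q m) : (prog c).Str a n p (ifU e₁ e₂) q m := by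
  unfold ifU Full.Pg.Str
  split_ifs with h
  exacts [h1 (by simpa using h), h2 (by simpa using h)]

theorem rng_cas {t : α → Cx → Bool} (h1 : (prog c).Rng a e₁ n q) (h2 : (prog c).Rng a e₂ n q) :
    (prog c).Rng a (cas t e₁ e₂) n q := by
  unfold Full.Pg.Rng
  split_ifs
  exacts [h1, h2]

theorem str_inH (h : (prog c).Str a n p e q false) : (prog c).Str a n p (inH b e) q false :=
  Full.Pg.str_aft inv_hf h

open Classical in
theorem str_mv0 (ok : (c a).OK) : (prog c).Str a n p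
    (mloc (fun d a q s => decide ((c a).dom0 d (q .u) ((c a).nx 0 s)))
      fun d a q s => (c a).mv 0 s ((c a).en0 d (q .u) ((c a).nx 0 s))) q true := by
  refine ⟨rfl, fun d s hs hd => ?_⟩
  have h1 : (c a).dom0 d (q .u) ((c a).nx 0 s) := by simpa using hd
  have h2 : (c a).en0 d (q .u) ((c a).nx 0 s) < (c a).n 0 :=
    h1.1.2.1.trans_le (ok.hN.trans_eq (nm_zero _).symm)
  have h3 : (c a).nx 0 ((c a).mv 0 s ((c a).en0 d (q .u) ((c a).nx 0 s))) =
      (c a).en0 d (q .u) ((c a).nx 0 s) := by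
    rw [Pr.nx, Pr.mv, update_self, Nat.add_mul_mod_self_left, Nat.mod_eq_of_lt h2]
  refine ⟨Full.update_mem_box hs ?_, by simpa only [h3, decide_eq_true_eq] using (dom0_back h1).1, ?_⟩
  · obtain ⟨t, ht⟩ := nm_dvd (c a).n0 (Nat.zero_le (c a).K)
    have h4 : s .pos < (c a).n 0 * t := (Full.Pg.mem_box.1 hs .pos).trans_eq ht
    have h5 := Nat.mul_le_mul_left ((c a).n 0) (Nat.succ_le_of_lt (Nat.div_lt_of_lt_mul h4))
    refine lt_of_lt_of_le ?_ (h5.trans_eq ht.symm)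
    rw [Nat.mul_succ]
    omega
  · simp only [h3, (dom0_back h1).2]
    rw [Pr.mv, Pr.mv, update_self, update_idem, Nat.add_mul_div_left _ _ (Nat.zero_lt_of_lt h2),
      Nat.div_eq_of_lt h2, zero_add, Pr.nx, Nat.mod_add_div, update_eq_self]

end Vale.Agent.P313.NL2.WF
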